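import Crest.Agent.R2.Defs

set_option autoImplicit false

namespace Crest.Agent.R2

/-- a continuous self-map of the plane at bounded distance from the identity has a zero -/
theorem exists_zero_of_bdd (Φ : ℂ → ℂ) (hc : Continuous Φ) (B : ℝ)
    (hB : ∀ z, ‖Φ z - z‖ ≤ B) : ∃ z, Φ z = 0 := by
  by_contra hne
  push Not at hne
  obtain ⟨ψ, ⟨-, hψ⟩, -⟩ := Complex.isCoveringMap_exp.existsUnique_continuousMap_lifts
    (A := ℂ) ⟨fun z => (⟨Φ z, hne z⟩ : {z : ℂ // z ≠ 0}), hc.subtype_mk _⟩ 0 (Complex.log (Φ 0))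
    (Subtype.ext (Complex.exp_log (hne 0)))
  have hψ' : ∀ z, Complex.exp (ψ z) = Φ z := fun z => by
    have := congrFun hψ z
    simpa using congrArg Subtype.val this
  have hB0 : 0 ≤ B := (norm_nonneg _).trans (hB 0)
  set R : ℝ := B + 1 with hR
  have hRpos : 0 < R := by linarith
  let z : ℝ → ℂ := fun θ => (R : ℂ) * Complex.exp (θ * Complex.I)
  have hzc : Continuous z := by fun_prop
  have hzn : ∀ θ, ‖z θ‖ = R := fun θ => by
    simp [z, Complex.norm_exp_ofReal_mul_I, abs_of_pos hRpos]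
  have hz0 : ∀ θ, z θ ≠ 0 := fun θ h => by
    have := hzn θ; rw [h, norm_zero] at this; linarith
  have hslit : ∀ θ, Φ (z θ) / z θ ∈ Complex.slitPlane := fun θ => by
    have h1 : Φ (z θ) / z θ = 1 + (Φ (z θ) - z θ) / z θ := by
      field_simp [hz0 θ]; ring
    rw [h1]
    apply Complex.mem_slitPlane_of_norm_lt_one
    rw [norm_div, hzn, div_lt_one hRpos]
    linarith [hB (z θ)]
  let g : ℝ → ℂ := fun θ => ψ (z θ) - Complex.log (Φ (z θ) / z θ) - θ * Complex.I
  have hgc : Continuous g := by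
    refine ((ψ.continuous.comp hzc).sub ?_).sub (by fun_prop)
    exact Continuous.clog ((hc.comp hzc).div hzc hz0) hslit
  have hge : ∀ θ, Complex.exp (g θ) = R := fun θ => by
    have h1 : Φ (z θ) / z θ ≠ 0 := div_ne_zero (hne _) (hz0 θ)
    simp only [g, Complex.exp_sub, hψ', Complex.exp_log h1]
    have h2 := hne (z θ)
    have h3 := Complex.exp_ne_zero (θ * Complex.I)
    have h4 : z θ = (R : ℂ) * Complex.exp (θ * Complex.I) := rfl
    have h5 := hz0 θ
    field_simp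
    rw [h4, mul_comm]
  have hconst := Complex.isCoveringMap_exp.const_of_comp hgc
    (fun a a' => Subtype.ext (by simp only [hge])) 0 (2 * Real.pi)
  have hz : z (2 * Real.pi) = z 0 := by
    simp [z]
  simp only [g, hz] at hconst
  have : ((2 * Real.pi : ℝ) : ℂ) * Complex.I = 0 := by
    simp only [Complex.ofReal_zero, zero_mul, sub_zero] at hconst
    linear_combination hconst
  simp [Real.pi_ne_zero] at this

/-- Lipschitz interpolation of an integer sequence with bounded steps -/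
theorem exists_interp (D : ℕ) (y : ℕ → ℤ) (hy : ∀ t, |y (t + 1) - y t| ≤ D) :
    ∃ F : ℝ → ℝ, Continuous F ∧ (∀ n : ℕ, F n = y n) ∧
      ∀ s : ℝ, 0 ≤ s → |F s - y ⌊s⌋₊| ≤ D := by
  have h1 : ∀ n k : ℕ, |y (n + k) - y n| ≤ D * k := by
    intro n k
    induction k with
    | zero => simp
    | succ k ih =>
      have := hy (n + k)
      have h2 := abs_add_le (y (n + k + 1) - y (n + k)) (y (n + k) - y n)
      push_cast
      rw [← add_assoc]
      have h3 : y (n + k + 1) - y (n + k) + (y (n + k) - y n) = y (n + k + 1) - y n := by ring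
      rw [h3] at h2
      nlinarith
  have h2 : ∀ n m : ℕ, |(y n : ℝ) - y m| ≤ D * |(n : ℝ) - m| := by
    have h3 : ∀ n m : ℕ, m ≤ n → |(y n : ℝ) - y m| ≤ D * |(n : ℝ) - m| := by
      intro n m hmn
      obtain ⟨k, rfl⟩ := Nat.exists_eq_add_of_le hmn
      have := h1 m k
      have h4 : |((m + k : ℕ) : ℝ) - m| = k := by
        push_cast; rw [add_sub_cancel_left, abs_of_nonneg (Nat.cast_nonneg k)]
      rw [h4]
      exact_mod_cast this
    intro n m
    rcases le_total m n with h | h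
    · exact h3 n m h
    · rw [abs_sub_comm, abs_sub_comm (n : ℝ)]; exact h3 m n h
  have hL : LipschitzOnWith (D : NNReal) (fun s : ℝ => (y ⌊s⌋₊ : ℝ))
      (Set.range (Nat.cast : ℕ → ℝ)) := by
    refine LipschitzOnWith.of_dist_le_mul ?_
    rintro _ ⟨n, rfl⟩ _ ⟨m, rfl⟩
    simp only [Nat.floor_natCast, Real.dist_eq, NNReal.coe_natCast]
    exact h2 n m
  obtain ⟨F, hF, hFe⟩ := hL.extend_real
  have hFn : ∀ n : ℕ, F n = y n := fun n => by
    have := hFe ⟨n, rfl⟩
    simpa using this.symm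
  refine ⟨F, hF.continuous, hFn, fun s hs => ?_⟩
  have h3 := hF.dist_le_mul s (⌊s⌋₊ : ℝ)
  rw [hFn, Real.dist_eq, Real.dist_eq, NNReal.coe_natCast] at h3
  refine h3.trans ?_
  have h4 : |s - (⌊s⌋₊ : ℝ)| ≤ 1 := by
    rw [abs_of_nonneg (sub_nonneg.2 (Nat.floor_le hs))]
    linarith [Nat.lt_floor_add_one s]
  calc (D : ℝ) * |s - (⌊s⌋₊ : ℝ)| ≤ D * 1 := by gcongr
    _ = D := mul_one _

/-- time index used by the periodic extension of the arc from `a` to `b` -/
noncomputable def idx (a b : ℕ) (s : ℝ) : ℕ := ⌊(a : ℝ) + ((b : ℝ) - a) * Int.fract s⌋₊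

lemma idx_nonneg (a b : ℕ) (s : ℝ) : 0 ≤ (a : ℝ) + ((b : ℝ) - a) * Int.fract s := by
  have h0 := Int.fract_nonneg s
  have h1 := (Int.fract_lt_one s).le
  have ha : (0 : ℝ) ≤ a := Nat.cast_nonneg a
  have hb : (0 : ℝ) ≤ b := Nat.cast_nonneg b
  nlinarith [mul_nonneg ha (sub_nonneg.2 h1), mul_nonneg hb h0]

lemma idx_lt {l a b : ℕ} (ha : a < l) (hb : b < l) (s : ℝ) : idx a b s < l := by
  rw [idx, Nat.floor_lt (idx_nonneg a b s)]
  have h0 := Int.fract_nonneg s
  have h1 := (Int.fract_lt_one s).le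
  have ha' : (a : ℝ) + 1 ≤ l := by exact_mod_cast ha
  have hb' : (b : ℝ) + 1 ≤ l := by exact_mod_cast hb
  nlinarith [mul_nonneg (sub_nonneg.2 ha') (sub_nonneg.2 h1), mul_nonneg (sub_nonneg.2 hb') h0]

/-- periodic continuous extension of an arc, as a bounded perturbation of a straight line -/
theorem exists_periodic (D : ℕ) (y : ℕ → ℤ) (hy : ∀ t, |y (t + 1) - y t| ≤ D) (a b : ℕ) :
    ∃ h : ℝ → ℝ, Continuous h ∧ (∃ B : ℝ, ∀ s, |h s| ≤ B) ∧
      ∀ s : ℝ, |h s + s * ((y b - y a : ℤ) : ℝ) -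
        ((y (idx a b s) + ⌊s⌋ * (y b - y a) : ℤ) : ℝ)| ≤ D := by
  obtain ⟨F, hFc, hFn, hFd⟩ := exists_interp D y hy
  let k : ℝ → ℝ := fun u => F (a + ((b : ℝ) - a) * u) - u * ((y b - y a : ℤ) : ℝ)
  have hkc : Continuous k := by fun_prop
  have hk01 : k 0 = k 1 := by
    simp only [k, mul_zero, add_zero, zero_mul, sub_zero, mul_one, add_sub_cancel, one_mul, hFn]
    push_cast; ring
  refine ⟨k ∘ Int.fract, hkc.continuousOn.comp_fract'' hk01, ?_, fun s => ?_⟩
  · obtain ⟨B, hB⟩ := (isCompact_Icc (a := (0 : ℝ)) (b := 1)).exists_bound_of_continuousOn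
      hkc.continuousOn
    exact ⟨B, fun s => hB _ ⟨Int.fract_nonneg s, (Int.fract_lt_one s).le⟩⟩
  · have h1 := hFd _ (idx_nonneg a b s)
    have h2 : (k ∘ Int.fract) s + s * ((y b - y a : ℤ) : ℝ) -
        ((y (idx a b s) + ⌊s⌋ * (y b - y a) : ℤ) : ℝ) =
        F (a + ((b : ℝ) - a) * Int.fract s) - y ⌊(a : ℝ) + ((b : ℝ) - a) * Int.fract s⌋₊ := by
      simp only [k, Function.comp, idx]
      rw [Int.fract]
      push_cast; ring
    rw [h2]; exact h1

/-- every lattice point is, modulo the two chords, close to a difference of path points -/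
theorem cover (D : ℕ) (x : ℕ → ℤ × ℤ) (hx : IsPath D x) (l a b a' b' : ℕ)
    (ha : a < l) (hb : b < l) (ha' : a' < l) (hb' : b' < l)
    (hN : wedge (x b - x a) (x b' - x a') ≠ 0) (y : ℤ × ℤ) :
    ∃ d ∈ diffs x l, ∃ β : ℤ × ℤ, |β.1| ≤ 2 * D ∧ |β.2| ≤ 2 * D ∧ ∃ k k' : ℤ,
      y = d + β + (k • (x b - x a) + k' • (x b' - x a')) := by
  obtain ⟨h1, h1c, ⟨B1, hB1⟩, h1d⟩ := exists_periodic D (fun t => (x t).1) hx.step1 a b
  obtain ⟨h2, h2c, ⟨B2, hB2⟩, h2d⟩ := exists_periodic D (fun t => (x t).2) hx.step2 a b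
  obtain ⟨h3, h3c, ⟨B3, hB3⟩, h3d⟩ := exists_periodic D (fun t => (x t).1) hx.step1 a' b'
  obtain ⟨h4, h4c, ⟨B4, hB4⟩, h4d⟩ := exists_periodic D (fun t => (x t).2) hx.step2 a' b'
  set v1 : ℤ := (x b).1 - (x a).1 with hv1
  set v2 : ℤ := (x b).2 - (x a).2 with hv2
  set w1 : ℤ := (x b').1 - (x a').1 with hw1
  set w2 : ℤ := (x b').2 - (x a').2 with hw2
  have hN' : (v1 : ℝ) * w2 - v2 * w1 ≠ 0 := by
    have : v1 * w2 - v2 * w1 ≠ 0 := by simpa [wedge] using hN
    exact_mod_cast this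
  set N : ℝ := (v1 : ℝ) * w2 - v2 * w1 with hNdef
  let s : ℂ → ℝ := fun z => -(z.re * w2 - z.im * w1) / N
  let t : ℂ → ℝ := fun z => (v1 * z.im - v2 * z.re) / N
  have hsc : Continuous s := by fun_prop
  have htc : Continuous t := by fun_prop
  have hre : ∀ z : ℂ, z.re = t z * w1 - s z * v1 := fun z => by
    simp only [s, t]; field_simp; rw [hNdef]; ring
  have him : ∀ z : ℂ, z.im = t z * w2 - s z * v2 := fun z => by
    simp only [s, t]; field_simp; rw [hNdef]; ring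
  let Φ : ℂ → ℂ := fun z => z + ((y.1 - h1 (s z) + h3 (t z) : ℝ) : ℂ) +
    ((y.2 - h2 (s z) + h4 (t z) : ℝ) : ℂ) * Complex.I
  have hΦc : Continuous Φ := by fun_prop
  obtain ⟨z, hz⟩ := exists_zero_of_bdd Φ hΦc ((|(y.1 : ℝ)| + B1 + B3) + (|(y.2 : ℝ)| + B2 + B4))
    (fun z => by
      have e : Φ z - z = ((y.1 - h1 (s z) + h3 (t z) : ℝ) : ℂ) +
          ((y.2 - h2 (s z) + h4 (t z) : ℝ) : ℂ) * Complex.I := by simp only [Φ]; ring
      rw [e]
      refine (norm_add_le _ _).trans (add_le_add ?_ ?_)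
      · rw [Complex.norm_real, Real.norm_eq_abs]
        have := abs_add_le ((y.1 : ℝ) - h1 (s z)) (h3 (t z))
        have := abs_sub (y.1 : ℝ) (h1 (s z))
        linarith [hB1 (s z), hB3 (t z)]
      · rw [norm_mul, Complex.norm_I, mul_one, Complex.norm_real, Real.norm_eq_abs]
        have := abs_add_le ((y.2 : ℝ) - h2 (s z)) (h4 (t z))
        have := abs_sub (y.2 : ℝ) (h2 (s z))
        linarith [hB2 (s z), hB4 (t z)])
  have e1 : z.re + (y.1 - h1 (s z) + h3 (t z)) = 0 := by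
    have := congrArg Complex.re hz
    simpa [Φ] using this
  have e2 : z.im + (y.2 - h2 (s z) + h4 (t z)) = 0 := by
    have := congrArg Complex.im hz
    simpa [Φ] using this
  have f1 := abs_le.1 (h1d (s z))
  have f2 := abs_le.1 (h2d (s z))
  have f3 := abs_le.1 (h3d (t z))
  have f4 := abs_le.1 (h4d (t z))
  have g1 := hre z
  have g2 := him z
  refine ⟨x (idx a b (s z)) - x (idx a' b' (t z)), ?_,
    y - (x (idx a b (s z)) - x (idx a' b' (t z))) -
      (⌊s z⌋ • (x b - x a) + (-⌊t z⌋) • (x b' - x a')), ?_, ?_, ⌊s z⌋, -⌊t z⌋, by abel⟩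
  · simp only [diffs, Finset.mem_image, Finset.mem_product, Finset.mem_range]
    exact ⟨(idx a b (s z), idx a' b' (t z)), ⟨idx_lt ha hb _, idx_lt ha' hb' _⟩, rfl⟩
  · simp only [Prod.fst_sub, Prod.fst_add, Prod.smul_fst, smul_eq_mul, ← hv1, ← hw1]
    rw [← Int.cast_le (R := ℝ), Int.cast_abs, abs_le]
    push_cast at f1 f3 ⊢
    constructor <;> linarith [f1.1, f1.2, f3.1, f3.2]
  · simp only [Prod.snd_sub, Prod.snd_add, Prod.smul_snd, smul_eq_mul, ← hv2, ← hw2]
    rw [← Int.cast_le (R := ℝ), Int.cast_abs, abs_le]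
    push_cast at f2 f4 ⊢
    constructor <;> linarith [f2.1, f2.2, f4.1, f4.2]

/-- a set meeting every class modulo `ℤ v + ℤ w` has at least `|v ∧ w|` elements -/
theorem wedge_le_card (v w : ℤ × ℤ) (hN : wedge v w ≠ 0) (E : Finset (ℤ × ℤ))
    (hE : ∀ y : ℤ × ℤ, ∃ e ∈ E, ∃ k k' : ℤ, y = e + (k • v + k' • w)) :
    |wedge v w| ≤ (E.card : ℤ) := by
  let f : (ℤ × ℤ) →ₗ[ℤ] (ℤ × ℤ) :=
    Matrix.toLin (Module.Basis.finTwoProd ℤ) (Module.Basis.finTwoProd ℤ) !![v.1, w.1; v.2, w.2]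
  have hf : ∀ q : ℤ × ℤ, f q = q.1 • v + q.2 • w := fun q => by
    simp only [f, Matrix.toLin_finTwoProd_apply]
    ext <;> simp <;> ring
  have hinj : Function.Injective f := by
    rw [← LinearMap.ker_eq_bot, LinearMap.ker_eq_bot']
    intro q hq
    rw [hf] at hq
    have e1 : q.1 * v.1 + q.2 * w.1 = 0 := by simpa using congrArg Prod.fst hq
    have e2 : q.1 * v.2 + q.2 * w.2 = 0 := by simpa using congrArg Prod.snd hq
    have e3 : q.1 * wedge v w = 0 := by
      simp only [wedge]; linear_combination w.2 * e1 - w.1 * e2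
    have e4 : q.2 * wedge v w = 0 := by
      simp only [wedge]; linear_combination v.1 * e2 - v.2 * e1
    ext
    · simpa [hN] using e3
    · simpa [hN] using e4
  have hdet : LinearMap.det f = wedge v w := by
    simp only [f, LinearMap.det_toLin, Matrix.det_fin_two_of, wedge]; ring
  have hcard := Submodule.natAbs_det_equiv (LinearMap.range f) (LinearEquiv.ofInjective f hinj)
  have hcomp : (LinearMap.range f).subtype ∘ₗ AddMonoidHom.toIntLinearMap
      ((LinearEquiv.ofInjective f hinj : (ℤ × ℤ) ≃ₗ[ℤ] LinearMap.range f) :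
        (ℤ × ℤ) →+ LinearMap.range f) = f := by
    ext <;> rfl
  rw [hcomp, hdet] at hcard
  have hsurj : Function.Surjective
      (fun e : E => (Submodule.Quotient.mk e.1 : (ℤ × ℤ) ⧸ LinearMap.range f)) := by
    intro q
    obtain ⟨y, rfl⟩ := Submodule.Quotient.mk_surjective _ q
    obtain ⟨e, he, k, k', rfl⟩ := hE y
    refine ⟨⟨e, he⟩, ?_⟩
    symm
    rw [Submodule.Quotient.eq]
    exact ⟨(k, k'), by rw [hf]; simp⟩
  have := Nat.card_le_card_of_surjective _ hsurj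
  rw [← hcard, Nat.card_eq_fintype_card, Fintype.card_coe] at this
  rw [← Int.natCast_natAbs]
  exact_mod_cast this

theorem cross (D : ℕ) : CrossStmt D := by
  refine ⟨(4 * D + 1) ^ 2, fun x hx l a b a' b' ha hb ha' hb' => ?_⟩
  by_cases hN : wedge (x b - x a) (x b' - x a') = 0
  · rw [hN, abs_zero]; positivity
  let Bx : Finset (ℤ × ℤ) :=
    Finset.Icc (-(2 * D : ℤ)) (2 * D) ×ˢ Finset.Icc (-(2 * D : ℤ)) (2 * D)
  have hBx : Bx.card = (4 * D + 1) ^ 2 := by
    simp only [Bx, Finset.card_product, Int.card_Icc]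
    have : (2 * (D : ℤ) + 1 - -(2 * D)).toNat = 4 * D + 1 := by omega
    rw [this]; ring
  let E : Finset (ℤ × ℤ) := (diffs x l ×ˢ Bx).image fun q => q.1 + q.2
  have h1 := wedge_le_card _ _ hN E (fun y => by
    obtain ⟨d, hd, β, hβ1, hβ2, k, k', hy⟩ := cover D x hx l a b a' b' ha hb ha' hb' hN y
    refine ⟨d + β, ?_, k, k', hy⟩
    simp only [E, Finset.mem_image, Finset.mem_product]
    refine ⟨(d, β), ⟨hd, ?_⟩, rfl⟩
    simp only [Bx, Finset.mem_product, Finset.mem_Icc]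
    exact ⟨abs_le.1 hβ1, abs_le.1 hβ2⟩)
  refine h1.trans ?_
  have h2 : E.card ≤ (diffs x l).card * (4 * D + 1) ^ 2 := by
    refine Finset.card_image_le.trans ?_
    rw [Finset.card_product, hBx]
  rw [mul_comm] at h2
  exact_mod_cast h2

end Crest.Agent.R2
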