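import Mathlib

set_option autoImplicit false

namespace Crest.Agent.R2

open Classical in
/-- a square root of `-1` modulo `p` (when there is one) -/
noncomputable def iota (p : ℕ) : ℤ := if h : ∃ i : ℤ, (p : ℤ) ∣ i ^ 2 + 1 then h.choose else 0

lemma iota_spec {p : ℕ} (hp : p.Prime) (h4 : p % 4 = 1) : (p : ℤ) ∣ iota p ^ 2 + 1 := by
  have h : ∃ i : ℤ, (p : ℤ) ∣ i ^ 2 + 1 := by
    haveI := Fact.mk hp
    obtain ⟨y, hy⟩ := (ZMod.exists_sq_eq_neg_one_iff (p := p)).2 (by omega)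
    refine ⟨(y.val : ℤ), (ZMod.intCast_zmod_eq_zero_iff_dvd _ p).1 ?_⟩
    push_cast
    rw [ZMod.natCast_zmod_val, sq, ← hy]; ring
  rw [iota, dif_pos h]; exact h.choose_spec

/-- the linear form `a + ι b`; reduction of `a + b i` modulo a prime above `p` -/
noncomputable def lin (p : ℕ) (a : ℤ × ℤ) : ℤ := a.1 + iota p * a.2

/-- determinant of two lattice vectors -/
def wedge (a b : ℤ × ℤ) : ℤ := a.1 * b.2 - a.2 * b.1

/-- an injective lattice path with steps of sup-norm at most `D` -/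
structure IsPath (D : ℕ) (x : ℕ → ℤ × ℤ) : Prop where
  inj : Function.Injective x
  step1 : ∀ t, |(x (t + 1)).1 - (x t).1| ≤ D
  step2 : ∀ t, |(x (t + 1)).2 - (x t).2| ≤ D

/-- the finite periodic sieve obstruction -/
def Core (D : ℕ) : Prop :=
  ∃ P : Finset ℕ, (∀ p ∈ P, p.Prime ∧ p % 4 = 1) ∧
    ∀ x : ℕ → ℤ × ℤ, IsPath D x → ∃ t, ∃ p ∈ P, (p : ℤ) ∣ lin p (x t)

/-- all differences of path points with times in the window `[0, l)` -/
def diffs (x : ℕ → ℤ × ℤ) (l : ℕ) : Finset (ℤ × ℤ) :=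
  (Finset.range l ×ˢ Finset.range l).image fun q => x q.1 - x q.2

/-- window length for modulus bound `X` -/
def win (X : ℕ) : ℕ := 300 * X ^ 4

/-- crossing lemma (task R2-Cross): the difference set of a path window is at least as large as
the area spanned by two chords -/
def CrossStmt (D : ℕ) : Prop :=
  ∃ c : ℕ, ∀ x : ℕ → ℤ × ℤ, IsPath D x → ∀ l a b a' b' : ℕ, a < l → b < l → a' < l → b' < l →
    |wedge (x b - x a) (x b' - x a')| ≤ (c : ℤ) * ((diffs x l).card : ℤ)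

open Classical in
/-- geometry-of-numbers lemma (task R2-Geo): differences of a long window are equidistributed
modulo every product `≤ X` of split primes, up to the primes `T` of one resonant direction -/
def GeoStmt (D : ℕ) : Prop :=
  ∃ c : ℕ, 1 ≤ c ∧ ∀ x : ℕ → ℤ × ℤ, IsPath D x → ∀ X : ℕ, 1 ≤ X →
    ∃ T : Finset ℕ, (∀ p ∈ T, p.Prime) ∧ ∏ p ∈ T, p ≤ c * X ^ 2 ∧
      ∀ S : Finset ℕ, (∀ p ∈ S, p.Prime ∧ p % 4 = 1) → ∏ p ∈ S, p ≤ X → ∀ d₀ : ℤ × ℤ,
        ((diffs x (win X)).filter fun d => ∀ p ∈ S, (p : ℤ) ∣ lin p (d - d₀)).card * ∏ p ∈ S, p ≤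
          c * (diffs x (win X)).card * ∏ p ∈ S ∩ T, p

/-- number of primes `≡ 1 mod 4` in the dyadic block `[2^j, 2^(j+1))` -/
def blockCount (j : ℕ) : ℕ :=
  ((Finset.Ico (2 ^ j) (2 ^ (j + 1))).filter fun p => p.Prime ∧ p % 4 = 1).card

/-- many dyadic blocks contain many split primes (task R2-Primes) -/
def PrimeStmt : Prop :=
  ∃ A C : ℕ, 1 ≤ A ∧ 1 ≤ C ∧ ∀ᶠ J : ℕ in Filter.atTop,
    J ≤ C * ((Finset.Ico J (A * J)).filter fun j => 2 ^ j ≤ C * J * blockCount j).card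

end Crest.Agent.R2
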