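import Crest.Agent.R2.Smp

/-! Joint equidistribution of residues after a difference-uniform random jump. -/

set_option autoImplicit false

namespace Crest.Agent.R2

open Finset Crest.Agent.Lib.FinEnt

variable {D : ℕ}

/-- number of representations of a difference -/
def mult (y : Pth) (l : ℕ) (d : ℤ × ℤ) : ℕ :=
  (univ.filter fun q : Fin l × Fin l => y q.1 - y q.2 = d).card

lemma image_diffs (y : Pth) (l : ℕ) :
    univ.image (fun q : Fin l × Fin l => y q.1 - y q.2) = diffs y l := by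
  ext d
  simp only [diffs, mem_image, mem_univ, true_and, mem_product, mem_range]
  constructor
  · rintro ⟨q, rfl⟩; exact ⟨(q.1, q.2), ⟨q.1.2, q.2.2⟩, rfl⟩
  · rintro ⟨q, ⟨h1, h2⟩, rfl⟩; exact ⟨(⟨q.1, h1⟩, ⟨q.2, h2⟩), rfl⟩

lemma mult_pos {y : Pth} {l : ℕ} {d : ℤ × ℤ} (h : d ∈ diffs y l) : 0 < mult y l d := by
  rw [← image_diffs] at h
  obtain ⟨q, _, rfl⟩ := mem_image.1 h
  exact card_pos.2 ⟨q, by simp⟩

lemma diffs_pos (y : Pth) {l : ℕ} (hl : 0 < l) : 0 < (diffs y l).card := by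
  rw [← image_diffs]
  exact card_pos.2 ⟨_, mem_image_of_mem _ (mem_univ (⟨0, hl⟩, ⟨0, hl⟩))⟩

/-- weights making the difference uniform on the difference set -/
noncomputable def gk (l : ℕ) (y : Pth) (q : Fin l × Fin l) : ℝ :=
  (((diffs y l).card : ℝ) * mult y l (y q.1 - y q.2))⁻¹

lemma sum_gk (l : ℕ) (y : Pth) (g : ℤ × ℤ → ℝ) :
    ∑ q, gk l y q * g (y q.1 - y q.2) = (∑ d ∈ diffs y l, g d) / (diffs y l).card := by
  have := sum_comp (s := (univ : Finset (Fin l × Fin l)))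
    (fun d => (((diffs y l).card : ℝ) * mult y l d)⁻¹ * g d) (fun q => y q.1 - y q.2)
  unfold gk
  rw [this, image_diffs, sum_div]
  refine sum_congr rfl fun d hd => ?_
  have h1 : (0 : ℝ) < mult y l d := by exact_mod_cast mult_pos hd
  have h2 : (0 : ℝ) < (diffs y l).card := by exact_mod_cast card_pos.2 ⟨d, hd⟩
  rw [nsmul_eq_mul]
  change (mult y l d : ℝ) * _ = _
  field_simp

lemma gk_swap (l : ℕ) (y : Pth) (q : Fin l × Fin l) : gk l y q = gk l y q.swap := by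
  unfold gk
  congr 3
  unfold mult
  refine card_bij (fun a _ => a.swap) (fun a ha => ?_) (fun a _ b _ h => Prod.swap_injective h)
    (fun b hb => ⟨b.swap, ?_, Prod.swap_swap b⟩)
  · simp only [mem_filter, mem_univ, true_and, Prod.fst_swap, Prod.snd_swap] at ha ⊢
    rw [← neg_sub, ha, neg_sub]
  · simp only [mem_filter, mem_univ, true_and, Prod.fst_swap, Prod.snd_swap] at hb ⊢
    rw [← neg_sub, hb, neg_sub]

/-- jump to the first point of a pair whose difference is uniform -/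
@[reducible] noncomputable def gam (l : ℕ) (hl : 0 < l) : Smp where
  A := Fin l × Fin l
  k := gk l
  hk y := ⟨fun q => by unfold gk; positivity, by
    have := sum_gk l y fun _ => 1
    have h2 : (0 : ℝ) < (diffs y l).card := by exact_mod_cast diffs_pos y hl
    simpa [h2.ne'] using this⟩
  pts _ := ∅
  n := 0
  hn _ := rfl
  fin q := q.1
  span := l
  hpts _ _ h := absurd h (by simp)
  hfin q := q.1.2.le

open Classical in
/-- fibre bound of the geometric lemma for one path -/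
def Fib (c X : ℕ) (x : Pth) (T : Finset ℕ) : Prop :=
  ∀ S : Finset ℕ, (∀ p ∈ S, p.Prime ∧ p % 4 = 1) → ∏ p ∈ S, p ≤ X → ∀ d₀ : ℤ × ℤ,
    ((diffs x (win X)).filter fun d => ∀ p ∈ S, (p : ℤ) ∣ lin p (d - d₀)).card * ∏ p ∈ S, p ≤
      c * (diffs x (win X)).card * ∏ p ∈ S ∩ T, p

def GeoC (D c : ℕ) : Prop :=
  1 ≤ c ∧ ∀ x : ℕ → ℤ × ℤ, IsPath D x → ∀ X : ℕ, 1 ≤ X →
    ∃ T : Finset ℕ, (∀ p ∈ T, p.Prime) ∧ ∏ p ∈ T, p ≤ c * X ^ 2 ∧ Fib c X x T

lemma win_pos {X : ℕ} (h : 1 ≤ X) : 0 < win X := by unfold win; positivity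

lemma log_prod_primes (S : Finset ℕ) (hS : ∀ p ∈ S, p.Prime) :
    Real.log ((∏ p ∈ S, p : ℕ) : ℝ) = ∑ p ∈ S, Real.log p := by
  push_cast
  exact Real.log_prod fun p hp => by exact_mod_cast (hS p hp).ne_zero

lemma gam_node (μ : Law D) {c X : ℕ} (hc : 1 ≤ c) (hX : 1 ≤ X) (T : μ.Ω → Finset ℕ)
    (hT : ∀ ω, Fib c X (μ.X ω) (T ω)) (S : Finset ℕ) (hS : ∀ p ∈ S, p.Prime ∧ p % 4 = 1)
    (hSX : ∏ p ∈ S, p ≤ X) :
    ∑ p ∈ S, Real.log p - Real.log c - ∑ ω, μ.w ω * ∑ p ∈ S ∩ T ω, Real.log p +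
      Hc (μ.ext (gam _ (win_pos hX))).w (fun q => res S (μ.X q.1 q.2.2))
        (fun q => (μ.X q.1 q.2.1 - μ.X q.1 q.2.2, μ.X q.1 q.2.2 - μ.X q.1 0)) ≤
      2 * (μ.ext (gam _ (win_pos hX))).HY S := by
  classical
  have hw := (μ.ext (gam _ (win_pos hX))).hw
  set w := (μ.ext (gam _ (win_pos hX))).w with hwdef
  set Y1 : μ.Ω × (Fin (win X) × Fin (win X)) → _ := fun q => res S (μ.X q.1 q.2.1) with hY1
  set Y2 : μ.Ω × (Fin (win X) × Fin (win X)) → _ := fun q => res S (μ.X q.1 q.2.2) with hY2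
  set Δ : μ.Ω × (Fin (win X) × Fin (win X)) → _ :=
    fun q => res S (μ.X q.1 q.2.1 - μ.X q.1 q.2.2) with hΔ
  have e1 : (μ.ext (gam _ (win_pos hX))).HY S = H w Y1 := rfl
  have e2 : H w Y2 = H w Y1 := by
    have hp : Push w w ((Equiv.refl μ.Ω).prodCongr (Equiv.prodComm _ _)) :=
      push_equiv _ fun q => by
        change μ.w q.1 * gk _ (μ.X q.1) q.2 = μ.w q.1 * gk _ (μ.X q.1) q.2.swap
        rw [← gk_swap]
    exact hp.H_eq Y1
  have e3 := H_pair_le hw Y1 Y2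
  have e4 : H w (fun q => (Y2 q, Δ q)) ≤ H w (fun q => (Y1 q, Y2 q)) := by
    refine H_mono hw fun q q' e => ?_
    simp only [hY1, hY2, hΔ, Prod.mk.injEq, res_eq_iff, lz_sub] at e ⊢
    exact ⟨e.2, fun p hp => by rw [e.1 p hp, e.2 p hp]⟩
  have e5 : Hc w Y2 (fun q => (μ.X q.1 q.2.1 - μ.X q.1 q.2.2, μ.X q.1 q.2.2 - μ.X q.1 0)) ≤
      Hc w Y2 Δ :=
    Hc_mono_right hw Y2 fun q q' e => by
      simp only [hΔ, Prod.mk.injEq] at e ⊢; rw [e.1]
  have hP : (0 : ℝ) < (∏ p ∈ S, p : ℕ) := by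
    exact_mod_cast prod_pos fun p hp => (hS p hp).1.pos
  have hPT : ∀ ω, (0 : ℝ) < (∏ p ∈ S ∩ T ω, p : ℕ) := fun ω => by
    exact_mod_cast prod_pos fun p hp => (hS p (mem_inter.1 hp).1).1.pos
  have hc' : (0 : ℝ) < c := by exact_mod_cast hc
  have e6 := H_ext_lower μ.hw (k := fun ω => gk (win X) (μ.X ω))
    (fun ω => (gam _ (win_pos hX)).hk _) Δ
    (fun ω => c * ((∏ p ∈ S ∩ T ω, p : ℕ) : ℝ) / (∏ p ∈ S, p : ℕ)) (fun ω a => by
      have h1 := sum_gk (win X) (μ.X ω) fun d =>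
        if res S d = res S (μ.X ω a.1 - μ.X ω a.2) then 1 else 0
      have h2 := hT ω S hS hSX (μ.X ω a.1 - μ.X ω a.2)
      have h3 : (0 : ℝ) < (diffs (μ.X ω) (win X)).card := by
        exact_mod_cast diffs_pos _ (win_pos hX)
      unfold pr
      simp only [mul_ite, mul_one, mul_zero] at h1
      simp only [hΔ]
      rw [h1, sum_boole, div_le_div_iff₀ h3 hP]
      simp only [res_eq_iff, lz_eq_iff]
      have h4 : ((((diffs (μ.X ω) (win X)).filter fun d => ∀ p ∈ S,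
          (p : ℤ) ∣ lin p (d - (μ.X ω a.1 - μ.X ω a.2))).card * ∏ p ∈ S, p : ℕ) : ℝ) ≤
          (c * (diffs (μ.X ω) (win X)).card * ∏ p ∈ S ∩ T ω, p : ℕ) := by exact_mod_cast h2
      rw [Nat.cast_mul, Nat.cast_mul, Nat.cast_mul] at h4
      refine le_trans (le_of_eq ?_) (h4.trans (le_of_eq (by ring)))
      congr)
  have e7 : ∑ ω, μ.w ω * -Real.log (c * ((∏ p ∈ S ∩ T ω, p : ℕ) : ℝ) / (∏ p ∈ S, p : ℕ)) =
      ∑ p ∈ S, Real.log p - Real.log c - ∑ ω, μ.w ω * ∑ p ∈ S ∩ T ω, Real.log p := by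
    have : ∀ ω, -Real.log (c * ((∏ p ∈ S ∩ T ω, p : ℕ) : ℝ) / (∏ p ∈ S, p : ℕ)) =
        (∑ p ∈ S, Real.log p - Real.log c) - ∑ p ∈ S ∩ T ω, Real.log p := fun ω => by
      rw [Real.log_div (mul_pos hc' (hPT ω)).ne' hP.ne', Real.log_mul hc'.ne' (hPT ω).ne',
        log_prod_primes _ fun p hp => (hS p hp).1,
        log_prod_primes _ fun p hp => (hS p (mem_inter.1 hp).1).1]
      ring
    simp only [this, mul_sub, sum_sub_distrib, ← sum_mul, μ.hw.one, one_mul]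
  have e8 : Hc w Y2 Δ = H w (fun q => (Y2 q, Δ q)) - H w Δ := rfl
  have e9 : H (Lib.FinEnt.ext μ.w fun ω => gk (win X) (μ.X ω)) Δ = H w Δ := rfl
  rw [e1]
  linarith

lemma gam_big (μ : Law D) {l : ℕ} (hl : 0 < l) {ι : Type} (I : Finset ι) (S : ι → Finset ℕ)
    (S' : Finset ℕ) (hS : ∀ p ∈ S', ∃ i ∈ I, p ∈ S i) :
    μ.HY S' - 2 * Bc D l ≤ ∑ i ∈ I, Hc (μ.ext (gam l hl)).w (fun q => res (S i) (μ.X q.1 q.2.2))
        (fun q => (μ.X q.1 q.2.1 - μ.X q.1 q.2.2, μ.X q.1 q.2.2 - μ.X q.1 0)) := by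
  have hw := (μ.ext (gam l hl)).hw
  set w := (μ.ext (gam l hl)).w with hwdef
  set W : μ.Ω × (Fin l × Fin l) → _ :=
    fun q => (μ.X q.1 q.2.1 - μ.X q.1 q.2.2, μ.X q.1 q.2.2 - μ.X q.1 0) with hW
  have e1 := Hc_le_sum hw I (fun i (q : μ.Ω × (Fin l × Fin l)) => res (S i) (μ.X q.1 q.2.2)) W
    (fun q => res S' (μ.X q.1 q.2.2)) (fun q q' h => by
      rw [res_eq_iff]
      intro p hp
      obtain ⟨i, hi, hpi⟩ := hS p hp
      exact res_eq_iff.1 (h i hi) p hpi)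
  have e2 : Hc w (fun q : μ.Ω × (Fin l × Fin l) => res S' (μ.X q.1 0)) W ≤
      Hc w (fun q => res S' (μ.X q.1 q.2.2)) W := by
    refine Hc_mono_left hw fun q q' e => ?_
    simp only [hW, Prod.mk.injEq, res_eq_iff] at e ⊢
    intro p hp
    have a1 := congrArg (lz p) e.2.2
    have a2 := e.1 p hp
    rw [lz_sub, lz_sub] at a1
    linear_combination a2 - a1
  have e3 := H_sub_le_Hc hw (fun q : μ.Ω × (Fin l × Fin l) => res S' (μ.X q.1 0)) W
  have e4 : H w (fun q : μ.Ω × (Fin l × Fin l) => res S' (μ.X q.1 0)) = μ.HY S' :=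
    (push_ext μ (gam l hl)).H_eq fun ω => res S' (μ.X ω 0)
  have e5 := H_pair_le hw (fun q : μ.Ω × (Fin l × Fin l) => μ.X q.1 q.2.1 - μ.X q.1 q.2.2)
    (fun q => μ.X q.1 q.2.2 - μ.X q.1 0)
  have e6 := H_box hw D l (fun q : μ.Ω × (Fin l × Fin l) => μ.X q.1 q.2.1 - μ.X q.1 q.2.2)
    fun q => (μ.path q.1).mem_box (by have := q.2.1.2; omega) (by have := q.2.2.2; omega)
  have e7 := H_box hw D l (fun q : μ.Ω × (Fin l × Fin l) => μ.X q.1 q.2.2 - μ.X q.1 0)
    fun q => (μ.path q.1).mem_box (by have := q.2.2.2; omega) (by omega)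
  linarith

/-- the `a`-th node of size `k` of the enumerated universe `π` -/
def node (π : ℕ → ℕ) (k a : ℕ) : Finset ℕ := (range k).image fun b => π (a * k + b)

/-- an enumerated universe of `K` split primes bounded by `Z` -/
structure Univ (π : ℕ → ℕ) (K Z : ℕ) : Prop where
  inj : ∀ i < K, ∀ j < K, π i = π j → i = j
  prime : ∀ i < K, (π i).Prime ∧ π i % 4 = 1
  le : ∀ i < K, π i ≤ Z

lemma sum_range_mul' (f : ℕ → ℝ) (n m : ℕ) :
    ∑ i ∈ range (n * m), f i = ∑ a ∈ range n, ∑ b ∈ range m, f (a * m + b) := by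
  induction n with
  | zero => simp
  | succ n ih => rw [Nat.succ_mul, sum_range_add, ih, sum_range_succ]

lemma nidx_lt {n k a b : ℕ} (ha : a < n) (hb : b < k) : a * k + b < n * k := by
  have := Nat.mul_le_mul_right k (Nat.succ_le_of_lt ha)
  rw [Nat.succ_mul] at this; omega

lemma mem_node {π : ℕ → ℕ} {n k a p : ℕ} (ha : a < n) (hp : p ∈ node π k a) :
    ∃ i < n * k, π i = p := by
  obtain ⟨b, hb, rfl⟩ := mem_image.1 hp
  exact ⟨_, nidx_lt ha (mem_range.1 hb), rfl⟩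

lemma sum_node {π : ℕ → ℕ} {n k Z a : ℕ} (hU : Univ π (n * k) Z) (ha : a < n) (f : ℕ → ℝ) :
    ∑ p ∈ node π k a, f p = ∑ b ∈ range k, f (π (a * k + b)) := by
  unfold node
  refine sum_image fun b hb b' hb' e => ?_
  have := hU.inj _ (nidx_lt ha (mem_range.1 hb)) _ (nidx_lt ha (mem_range.1 hb')) e
  omega

lemma sum_nodes {π : ℕ → ℕ} {n k Z : ℕ} (hU : Univ π (n * k) Z) (f : ℕ → ℝ) :
    ∑ a ∈ range n, ∑ p ∈ node π k a, f p = ∑ i ∈ range (n * k), f (π i) := by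
  rw [sum_range_mul']
  exact sum_congr rfl fun a ha => sum_node hU (mem_range.1 ha) f

lemma prod_node_le {π : ℕ → ℕ} {n k Z a : ℕ} (hU : Univ π (n * k) Z) (hZ : 1 ≤ Z) (ha : a < n) :
    ∏ p ∈ node π k a, p ≤ Z ^ k := by
  calc ∏ p ∈ node π k a, p ≤ Z ^ (node π k a).card :=
        prod_le_pow_card _ _ _ fun p hp => by
          obtain ⟨i, hi, rfl⟩ := mem_node ha hp
          exact hU.le i hi
    _ ≤ Z ^ k := Nat.pow_le_pow_right hZ (card_image_le.trans (card_range k).le)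

/-- entropy deficit of the partition into `n` nodes of size `k` -/
noncomputable def Law.Def (μ : Law D) (π : ℕ → ℕ) (k n : ℕ) : ℝ :=
  ∑ i ∈ range (n * k), Real.log (π i) - ∑ a ∈ range n, μ.HY (node π k a)

lemma Def_shift (μ : Law D) (s : Smp) (π : ℕ → ℕ) (k n : ℕ) :
    (μ.ext s).Def π k n ≤ μ.Def π k n + n * Bc D s.span := by
  unfold Law.Def
  have := sum_le_sum fun a (_ : a ∈ range n) => HY_shift μ s (node π k a)
  rw [sum_sub_distrib, sum_const, card_range, nsmul_eq_mul] at this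
  linarith

lemma Def_seq (μ : Law D) (s t : Smp) (π : ℕ → ℕ) (k n : ℕ) :
    (μ.ext (s.seq t)).Def π k n = ((μ.ext s).ext t).Def π k n := by
  unfold Law.Def; simp only [HY_seq]

lemma theta_le {π : ℕ → ℕ} {K Z : ℕ} (hU : Univ π K Z) :
    ∑ i ∈ range K, Real.log (π i) ≤ K * Real.log Z := by
  have := sum_le_card_nsmul (range K) (fun i => Real.log (π i)) (Real.log Z) fun i hi =>
    Real.log_le_log (by exact_mod_cast (hU.prime i (mem_range.1 hi)).1.pos)
      (by exact_mod_cast hU.le i (mem_range.1 hi))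
  rwa [card_range, nsmul_eq_mul] at this

lemma gam_step {c : ℕ} (hG : GeoC D c) (μ : Law D) {π : ℕ → ℕ} {n m k Z : ℕ} (hZ : 1 ≤ Z)
    (hU : Univ π (n * m * k) Z) :
    2 * (μ.ext (gam _ (win_pos (Nat.one_le_pow k Z hZ)))).Def π k (n * m) ≤
      μ.Def π (k * m) n + n * m * Real.log c + Real.log (c * (Z ^ k) ^ 2) +
        2 * n * Bc D (win (Z ^ k)) := by
  classical
  have hX := Nat.one_le_pow k Z hZ
  choose T hT1 hT2 hT3 using fun ω => hG.2 (μ.X ω) (μ.path ω) (Z ^ k) hX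
  have h1 := sum_le_sum fun a (ha : a ∈ range (n * m)) =>
    gam_node μ hG.1 hX T hT3 (node π k a) (fun p hp => by
      obtain ⟨i, hi, rfl⟩ := mem_node (mem_range.1 ha) hp
      exact hU.prime i hi) (prod_node_le hU hZ (mem_range.1 ha))
  have h2 := sum_le_sum fun a (ha : a ∈ range n) =>
    gam_big μ (win_pos hX) (range m) (fun b => node π k (a * m + b)) (node π (k * m) a)
      (fun p hp => by
        obtain ⟨b, hb, rfl⟩ := mem_image.1 hp
        have hb := mem_range.1 hb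
        have hk : 0 < k := Nat.pos_of_ne_zero (by rintro rfl; simp at hb)
        refine ⟨b / k, mem_range.2 (Nat.div_lt_of_lt_mul hb), mem_image.2
          ⟨b % k, mem_range.2 (Nat.mod_lt _ hk), ?_⟩⟩
        congr 1
        have := Nat.div_add_mod b k
        nlinarith)
  rw [← sum_range_mul' (fun a => Hc (μ.ext (gam _ (win_pos hX))).w
    (fun q => res (node π k a) (μ.X q.1 q.2.2))
    (fun q => (μ.X q.1 q.2.1 - μ.X q.1 q.2.2, μ.X q.1 q.2.2 - μ.X q.1 0)))] at h2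
  rw [sum_add_distrib, sum_sub_distrib, sum_sub_distrib, sum_nodes hU, ← mul_sum] at h1
  rw [sum_sub_distrib] at h2
  simp only [sum_const, card_range, nsmul_eq_mul] at h1 h2
  have h3 : ∑ a ∈ range (n * m), ∑ ω, μ.w ω * ∑ p ∈ node π k a ∩ T ω, Real.log p ≤
      Real.log (c * (Z ^ k) ^ 2) := by
    rw [sum_comm]
    calc _ ≤ ∑ ω, μ.w ω * Real.log (c * (Z ^ k) ^ 2) := by
          refine sum_le_sum fun ω _ => ?_
          rw [← mul_sum]
          refine mul_le_mul_of_nonneg_left ?_ (μ.hw.nn ω)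
          have a1 : ∀ a, ∑ p ∈ node π k a ∩ T ω, Real.log p =
              ∑ p ∈ node π k a, if p ∈ T ω then Real.log p else 0 := fun a => by
            rw [← sum_filter, filter_mem_eq_inter]
          simp only [a1]
          rw [sum_nodes hU (fun p => if p ∈ T ω then Real.log p else 0),
            ← sum_image (g := π) (f := fun p => if p ∈ T ω then Real.log p else 0)
              (fun i hi j hj e => hU.inj i (mem_range.1 hi) j (mem_range.1 hj) e),
            ← sum_filter, filter_mem_eq_inter]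
          calc _ ≤ ∑ p ∈ T ω, Real.log p :=
                sum_le_sum_of_subset_of_nonneg inter_subset_right fun p _ _ => Real.log_natCast_nonneg p
            _ = Real.log ((∏ p ∈ T ω, p : ℕ) : ℝ) := (log_prod_primes _ (hT1 ω)).symm
            _ ≤ _ := Real.log_le_log (by exact_mod_cast prod_pos fun p hp => (hT1 ω p hp).pos)
                (by exact_mod_cast hT2 ω)
      _ = _ := by rw [← sum_mul, μ.hw.one, one_mul]
  unfold Law.Def
  rw [show n * (k * m) = n * m * k by ring]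
  push_cast at h1 h2 ⊢
  linarith

/-- the equidistribution kernel with `r` levels -/
noncomputable def EK (Z : ℕ) (hZ : 1 ≤ Z) (m : ℕ) : ℕ → ℕ → Smp
  | 0, _ => Smp.null
  | r + 1, k => (EK Z hZ m r (k * m)).seq (gam _ (win_pos (Nat.one_le_pow k Z hZ)))

lemma EK_n (Z : ℕ) (hZ : 1 ≤ Z) (m r : ℕ) : ∀ k, (EK Z hZ m r k).n = 0 := by
  induction r with
  | zero => intro k; rfl
  | succ r ih => intro k; change (EK Z hZ m r (k * m)).n + 0 = 0; rw [ih]

lemma Bc_win {Z k : ℕ} (hZ : 600 * D + 1 ≤ Z) (hk : 1 ≤ k) :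
    Bc D (win (Z ^ k)) ≤ 10 * k * Real.log Z := by
  unfold Bc win
  have h1 : 2 * D * (300 * (Z ^ k) ^ 4) + 1 ≤ Z ^ (5 * k) := by
    have a1 : 1 ≤ (Z ^ k) ^ 4 := Nat.one_le_pow _ _ (Nat.pow_pos (by omega))
    have a2 : Z ≤ Z ^ k := Nat.le_self_pow (by omega) Z
    calc _ ≤ (600 * D + 1) * (Z ^ k) ^ 4 := by nlinarith
      _ ≤ Z ^ k * (Z ^ k) ^ 4 := Nat.mul_le_mul_right _ (hZ.trans a2)
      _ = _ := by ring
  have h2 : (2 * D * ((300 * (Z ^ k) ^ 4 : ℕ) : ℝ) + 1) ≤ (Z : ℝ) ^ (5 * k) := by exact_mod_cast h1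
  have h3 := Real.log_le_log (by positivity) h2
  rw [Real.log_pow] at h3
  push_cast at h3 ⊢
  linarith

lemma EK_span {Z : ℕ} (hZ : 1 ≤ Z) (hD : 600 * D + 1 ≤ Z) {m : ℕ} (hm : 2 ≤ m) (r : ℕ) :
    ∀ k, 1 ≤ k → Bc D (EK Z hZ m r k).span ≤ 10 * k * ((m : ℝ) ^ r - 1) * Real.log Z := by
  induction r with
  | zero => intro k _; change Bc D 0 ≤ _; simp [Bc_zero]
  | succ r ih =>
    intro k hk
    change Bc D ((EK Z hZ m r (k * m)).span + win (Z ^ k)) ≤ _
    have h1 := ih (k * m) (by nlinarith)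
    have h2 := Bc_win hD hk
    have h3 := Bc_add D (EK Z hZ m r (k * m)).span (win (Z ^ k))
    have h4 : (0 : ℝ) ≤ Real.log Z := Real.log_natCast_nonneg Z
    have h5 : (2 : ℝ) ≤ m := by exact_mod_cast hm
    have h6 : (0 : ℝ) ≤ k * Real.log Z := by positivity
    push_cast at h1
    rw [pow_succ]
    nlinarith

theorem EK_def {c : ℕ} (hG : GeoC D c) {Z : ℕ} (hZ : 1 ≤ Z) (hc : c ≤ Z) (hD : 600 * D + 1 ≤ Z)
    {m : ℕ} (hm : 1 ≤ m) {π : ℕ → ℕ} {K : ℕ} (hU : Univ π K Z) (hK : 1 ≤ K) (r : ℕ) :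
    ∀ (k n : ℕ) (μ : Law D), n * k = K → m ^ r ∣ n →
      (μ.ext (EK Z hZ m r k)).Def π k n ≤ K * Real.log Z * (1 / 2 ^ r + 23 / m + 1 / k) := by
  have hl : (0 : ℝ) ≤ Real.log Z := Real.log_natCast_nonneg Z
  induction r with
  | zero =>
    intro k n μ hn _
    unfold Law.Def
    rw [hn]
    have h1 := theta_le hU
    have h2 : 0 ≤ ∑ a ∈ range n, (μ.ext (EK Z hZ m 0 k)).HY (node π k a) :=
      sum_nonneg fun a _ => H_nonneg (μ.ext _).hw _
    have h3 : (0 : ℝ) ≤ K * Real.log Z * (23 / m + 1 / k) := by positivity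
    simp only [pow_zero, div_one]
    nlinarith
  | succ r ih =>
    intro k n μ hn hd
    obtain ⟨n0, rfl⟩ := hd
    have hk : 1 ≤ k := Nat.pos_of_ne_zero (by rintro rfl; omega)
    have hn0 : 1 ≤ n0 := Nat.pos_of_ne_zero (by rintro rfl; omega)
    set n := m ^ r * n0 with hn'
    have hn1 : 1 ≤ n := Nat.mul_pos (Nat.pow_pos hm) hn0
    have e : m ^ (r + 1) * n0 = n * m := by rw [hn']; ring
    rw [e] at hn ⊢
    have h1 := ih (k * m) n μ (by rw [← hn]; ring) (Dvd.intro _ rfl)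
    have h2 := gam_step hG (μ.ext (EK Z hZ m r (k * m))) hZ (hn ▸ hU : Univ π (n * m * k) Z)
    change (μ.ext ((EK Z hZ m r (k * m)).seq _)).Def π k (n * m) ≤ _
    rw [Def_seq]
    have h3 := Bc_win hD hk
    have hc0 : (0 : ℝ) < c := by exact_mod_cast hG.1
    have hZ0 : (0 : ℝ) < Z := by exact_mod_cast hZ
    have h4 : Real.log c ≤ Real.log Z := Real.log_le_log hc0 (by exact_mod_cast hc)
    rw [Real.log_mul hc0.ne' (by positivity), Real.log_pow, Real.log_pow] at h2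
    have hK' : (K : ℝ) = n * m * k := by rw [← hn]; push_cast; ring
    have hk' : (1 : ℝ) ≤ k := by exact_mod_cast hk
    have hm' : (1 : ℝ) ≤ m := by exact_mod_cast hm
    have hn' : (1 : ℝ) ≤ n := by exact_mod_cast hn1
    set L := Real.log Z
    have e1 : K * L * (1 / 2 ^ r + 23 / m + 1 / ((k * m : ℕ) : ℝ)) =
        K * L / 2 ^ r + 23 * (n * k * L) + n * L := by
      rw [hK']; push_cast; field_simp
    have e2 : K * L * (1 / 2 ^ (r + 1) + 23 / m + 1 / (k : ℝ)) =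
        K * L / 2 ^ r / 2 + 23 * (n * k * L) + n * m * L := by
      rw [hK']; field_simp; ring
    rw [e1] at h1
    rw [e2]
    have b1 : (n : ℝ) * m * Real.log c ≤ n * m * L := by gcongr
    have b2 : (n : ℝ) * L ≤ n * m * L := by
      rw [mul_assoc]; exact mul_le_mul_of_nonneg_left (le_mul_of_one_le_left hl hm') (by positivity)
    have b3 : L ≤ k * L := le_mul_of_one_le_left hl hk'
    have b4 : k * L ≤ n * k * L := by
      rw [mul_assoc]; exact le_mul_of_one_le_left (by positivity) hn'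
    have b5 : (n : ℝ) * Bc D (win (Z ^ k)) ≤ n * (10 * k * L) := by gcongr
    push_cast at h2
    nlinarith

end Crest.Agent.R2
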