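import Crest.Agent.R2.Defs
import Crest.Prelude.Def_GaussMoat

set_option autoImplicit false

namespace Crest.Agent.R2

namespace FinalAux

/-- König's lemma: an infinite component of a locally finite graph contains an injective ray -/
lemma exists_ray {V : Type*} (G : SimpleGraph V) (hfin : ∀ v, {w | G.Adj v w}.Finite) (r : V)
    (hinf : {w | G.Reachable r w}.Infinite) :
    ∃ x : ℕ → V, Function.Injective x ∧ ∀ t, G.Adj (x t) (x (t + 1)) := by
  classical
  let par : V → V → Prop := fun v w => G.Adj v w ∧ G.dist r w = G.dist r v + 1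
  let desc : V → Set V := fun v => {w | Relation.ReflTransGen par v w}
  have hroot : ∀ n w, G.Reachable r w → G.dist r w = n → w ∈ desc r := by
    intro n
    induction n with
    | zero =>
      intro w hw h0
      have : r = w := (hw.dist_eq_zero_iff).1 h0
      subst this
      exact Relation.ReflTransGen.refl
    | succ n ih =>
      intro w hw hn
      obtain ⟨p, hp⟩ := hw.exists_walk_length_eq_dist
      have hp' : p.reverse.length = n + 1 := by rw [SimpleGraph.Walk.length_reverse, hp, hn]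
      generalize p.reverse = q at hp'
      cases q with
      | nil => simp at hp'
      | cons hadj q' =>
        rename_i u
        have hq : q'.length = n := by simpa using hp'
        have hu : G.Reachable r u := ⟨q'.reverse⟩
        have h1 : G.dist r u ≤ n := by
          have := G.dist_le q'.reverse
          rwa [SimpleGraph.Walk.length_reverse, hq] at this
        have h2 : G.dist r w ≤ G.dist r u + 1 := by
          obtain ⟨p2, hp2⟩ := hu.exists_walk_length_eq_dist
          have := G.dist_le (p2.concat hadj.symm)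
          rwa [SimpleGraph.Walk.length_concat, hp2] at this
        have h3 : G.dist r u = n := by omega
        exact Relation.ReflTransGen.tail (ih u hu h3) ⟨hadj.symm, by omega⟩
  have h0 : (desc r).Infinite := hinf.mono fun w hw => hroot _ w hw rfl
  have hstep : ∀ v, (desc v).Infinite → ∃ w, par v w ∧ (desc w).Infinite := by
    intro v hv
    by_contra hcon
    push Not at hcon
    apply hv
    have hsub : desc v ⊆ {v} ∪ ⋃ w ∈ {w | par v w}, desc w := by
      intro u hu
      rcases Relation.ReflTransGen.cases_head hu with h | ⟨c, hc, hcu⟩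
      · left; exact h.symm
      · right
        simp only [Set.mem_iUnion]
        exact ⟨c, hc, hcu⟩
    refine Set.Finite.subset ?_ hsub
    refine (Set.finite_singleton v).union (Set.Finite.biUnion ((hfin v).subset fun w hw => hw.1) ?_)
    intro w hw
    exact hcon w hw
  choose! nxt hn1 hn2 using hstep
  let x : ℕ → V := fun t => nxt^[t] r
  have hx : ∀ t, x (t + 1) = nxt (x t) := fun t => Function.iterate_succ_apply' _ _ _
  have hd : ∀ t, (desc (x t)).Infinite := by
    intro t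
    induction t with
    | zero => exact h0
    | succ t ih => rw [hx]; exact hn2 _ ih
  have hdist : ∀ t, G.dist r (x t) = t := by
    intro t
    induction t with
    | zero => simp [x]
    | succ t ih => rw [hx, (hn1 _ (hd t)).2, ih]
  refine ⟨x, fun s t hst => ?_, fun t => ?_⟩
  · rw [← hdist s, ← hdist t, hst]
  · rw [hx]; exact (hn1 _ (hd t)).1

/-- the sifted set -/
def Q (P : Finset ℕ) : Set (ℤ × ℤ) := {a | ∀ p ∈ P, ¬ (p : ℤ) ∣ lin p a}

/-- the graph on the sifted set -/
def G (P : Finset ℕ) (D : ℕ) : SimpleGraph (ℤ × ℤ) where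
  Adj a b := a ≠ b ∧ a ∈ Q P ∧ b ∈ Q P ∧ |b.1 - a.1| ≤ D ∧ |b.2 - a.2| ≤ D
  symm := ⟨fun a b h => ⟨h.1.symm, h.2.2.1, h.2.1, by rw [abs_sub_comm]; exact h.2.2.2.1,
    by rw [abs_sub_comm]; exact h.2.2.2.2⟩⟩
  loopless := ⟨fun a h => h.1 rfl⟩

lemma G_locfin (P : Finset ℕ) (D : ℕ) (v : ℤ × ℤ) : {w | (G P D).Adj v w}.Finite := by
  refine Set.Finite.subset
    ((Finset.Icc (v.1 - D) (v.1 + D) ×ˢ Finset.Icc (v.2 - D) (v.2 + D)).finite_toSet) ?_
  intro w hw
  obtain ⟨-, -, -, h1, h2⟩ := hw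
  rw [abs_le] at h1 h2
  simp only [Finset.coe_product, Finset.coe_Icc, Set.mem_prod, Set.mem_Icc]
  refine ⟨⟨?_, ?_⟩, ?_, ?_⟩ <;> linarith [h1.1, h1.2, h2.1, h2.2]

lemma G_comp_finite {P : Finset ℕ} {D : ℕ}
    (h : ∀ x : ℕ → ℤ × ℤ, IsPath D x → ∃ t, ∃ p ∈ P, (p : ℤ) ∣ lin p (x t)) (r : ℤ × ℤ) :
    {w | (G P D).Reachable r w}.Finite := by
  by_contra hinf
  obtain ⟨x, hx, hadj⟩ := exists_ray (G P D) (G_locfin P D) r hinf
  obtain ⟨t, p, hp, hd⟩ := h x ⟨hx, fun t => (hadj t).2.2.2.1, fun t => (hadj t).2.2.2.2⟩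
  exact (hadj t).2.1 p hp hd

lemma Q_shift {P : Finset ℕ} {u a : ℤ × ℤ} (hu : ∀ p ∈ P, (p : ℤ) ∣ u.1 ∧ (p : ℤ) ∣ u.2)
    (ha : a ∈ Q P) : a + u ∈ Q P := by
  intro p hp hd
  apply ha p hp
  have h1 : lin p (a + u) = lin p a + (u.1 + iota p * u.2) := by
    simp only [lin, Prod.fst_add, Prod.snd_add]; ring
  rw [h1] at hd
  exact (dvd_add_left (dvd_add (hu p hp).1 ((hu p hp).2.mul_left _))).1 hd

lemma reach_shift {P : Finset ℕ} {D : ℕ} {u a b : ℤ × ℤ}
    (hu : ∀ p ∈ P, (p : ℤ) ∣ u.1 ∧ (p : ℤ) ∣ u.2) (h : (G P D).Reachable a b) :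
    (G P D).Reachable (a + u) (b + u) := by
  obtain ⟨w⟩ := h
  induction w with
  | nil => exact SimpleGraph.Reachable.refl _
  | cons hadj _ ih =>
    refine SimpleGraph.Reachable.trans (SimpleGraph.Adj.reachable ?_) ih
    obtain ⟨h1, h2, h3, h4, h5⟩ := hadj
    refine ⟨fun h => h1 (add_right_cancel h), Q_shift hu h2, Q_shift hu h3, ?_, ?_⟩
    · simpa using h4
    · simpa using h5

lemma G_comp_bound {P : Finset ℕ} {D : ℕ} (hP : ∀ p ∈ P, p.Prime)
    (h : ∀ x : ℕ → ℤ × ℤ, IsPath D x → ∃ t, ∃ p ∈ P, (p : ℤ) ∣ lin p (x t)) :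
    ∃ B : ℕ, ∀ r, {w | (G P D).Reachable r w}.ncard ≤ B := by
  classical
  set M : ℤ := ∏ p ∈ P, (p : ℤ) with hM
  have hMpos : 0 < M := Finset.prod_pos fun p hp => by exact_mod_cast (hP p hp).pos
  refine ⟨(Finset.Ico 0 M ×ˢ Finset.Ico 0 M).sup fun r => {w | (G P D).Reachable r w}.ncard,
    fun r => ?_⟩
  set u : ℤ × ℤ := (-(M * (r.1 / M)), -(M * (r.2 / M))) with hu
  have hud : ∀ p ∈ P, (p : ℤ) ∣ u.1 ∧ (p : ℤ) ∣ u.2 := by
    intro p hp
    have : (p : ℤ) ∣ M := Finset.dvd_prod_of_mem _ hp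
    exact ⟨(dvd_neg).2 (this.mul_right _), (dvd_neg).2 (this.mul_right _)⟩
  have hmem : r + u ∈ Finset.Ico 0 M ×ˢ Finset.Ico 0 M := by
    have e1 : (r + u).1 = r.1 % M := by
      simp only [hu, Prod.fst_add]; rw [Int.emod_def]; ring
    have e2 : (r + u).2 = r.2 % M := by
      simp only [hu, Prod.snd_add]; rw [Int.emod_def]; ring
    rw [Finset.mem_product, e1, e2, Finset.mem_Ico, Finset.mem_Ico]
    exact ⟨⟨Int.emod_nonneg _ hMpos.ne', Int.emod_lt_of_pos _ hMpos⟩,
      Int.emod_nonneg _ hMpos.ne', Int.emod_lt_of_pos _ hMpos⟩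
  refine le_trans ?_ (Finset.le_sup (f := fun r => {w | (G P D).Reachable r w}.ncard) hmem)
  refine Set.ncard_le_ncard_of_injOn (fun w => w + u) (fun w hw => reach_shift hud hw)
    (fun a _ b _ hab => add_right_cancel hab) (G_comp_finite h _)

/-- a Gaussian prime killed by the sieve is small -/
lemma small_of_not_mem {p : ℕ} (hp : p.Prime) (h4 : p % 4 = 1) {z : GaussianInt}
    (hz : Irreducible z) (hd : (p : ℤ) ∣ lin p (z.re, z.im)) : |z.re| ≤ p ∧ |z.im| ≤ p := by
  have hi := iota_spec hp h4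
  have hN : (p : ℤ) ∣ z.norm := by
    have : z.norm = (z.re + iota p * z.im) * (z.re - iota p * z.im) +
        (iota p ^ 2 + 1) * z.im ^ 2 := by
      rw [Zsqrtd.norm_def]; ring
    rw [this]
    exact dvd_add (Dvd.dvd.mul_right hd _) (hi.mul_right _)
  have hN' : ((p : ℤ) : GaussianInt) ∣ z * star z := by
    rw [← Zsqrtd.norm_eq_mul_conj]
    exact Int.cast_dvd_cast _ _ hN
  have hp0 : ((p : ℤ) : GaussianInt) ≠ 0 := by
    have : (p : ℤ) ≠ 0 := by exact_mod_cast hp.ne_zero
    exact_mod_cast this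
  have hnormp : (((p : ℤ) : GaussianInt)).norm = (p : ℤ) * p := by
    rw [Zsqrtd.norm_intCast]
  have hpu : ¬ IsUnit ((p : ℤ) : GaussianInt) := by
    intro hu
    have h1 := (Zsqrtd.isUnit_iff_norm_isUnit _).1 hu
    rw [hnormp] at h1
    have h2 : IsUnit (p : ℤ) := isUnit_of_mul_isUnit_left h1
    rw [Int.isUnit_iff] at h2
    have := hp.two_le
    omega
  obtain ⟨π, hπ, hπp⟩ := WfDvdMonoid.exists_irreducible_factor hpu hp0
  have key : ∀ w : GaussianInt, Irreducible w → π ∣ w → w.norm ∣ (p : ℤ) * p := by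
    intro w hw hπw
    have h1 : w ∣ ((p : ℤ) : GaussianInt) := (hπ.associated_of_dvd hw hπw).symm.dvd.trans hπp
    obtain ⟨c, hc⟩ := h1
    rw [← hnormp, hc, Zsqrtd.norm_mul]
    exact Dvd.intro _ rfl
  have hdiv : z.norm ∣ (p : ℤ) * p := by
    rcases hπ.prime.dvd_or_dvd (hπp.trans hN') with h | h
    · exact key z hz h
    · have hs : Irreducible (star z) := by
        have := (MulEquiv.irreducible_iff (starRingAut (R := GaussianInt))).2 hz
        simpa using this
      have := key _ hs h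
      rwa [Zsqrtd.norm_conj] at this
  have hppos : (0 : ℤ) < p := by exact_mod_cast hp.pos
  have hle : z.norm ≤ (p : ℤ) * p := Int.le_of_dvd (by positivity) hdiv
  rw [Zsqrtd.norm_def] at hle
  constructor
  · apply abs_le_of_sq_le_sq' _ hppos.le |> abs_le.2
    nlinarith [sq_nonneg z.im]
  · apply abs_le_of_sq_le_sq' _ hppos.le |> abs_le.2
    nlinarith [sq_nonneg z.re]

lemma coord_le {D : ℝ} {z w : GaussianInt} (h : ‖GaussianInt.toComplex (z - w)‖ ≤ D) :
    |w.re - z.re| ≤ (⌈D⌉₊ : ℤ) ∧ |w.im - z.im| ≤ (⌈D⌉₊ : ℤ) := by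
  have hD : D ≤ (⌈D⌉₊ : ℝ) := Nat.le_ceil D
  have h1 := (Complex.abs_re_le_norm (GaussianInt.toComplex (z - w))).trans (h.trans hD)
  have h2 := (Complex.abs_im_le_norm (GaussianInt.toComplex (z - w))).trans (h.trans hD)
  rw [GaussianInt.toComplex_def] at h1 h2
  simp only [Complex.add_re, Complex.intCast_re, Complex.mul_re, Complex.I_re, mul_zero,
    Complex.intCast_im, Complex.I_im, mul_one, sub_self, add_zero, Complex.add_im, Complex.mul_im,
    zero_add, Zsqrtd.re_sub, Zsqrtd.im_sub] at h1 h2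
  constructor
  · rw [abs_sub_comm]; exact_mod_cast h1
  · rw [abs_sub_comm]; exact_mod_cast h2

end FinalAux

open FinalAux in
theorem final (h : ∀ D : ℕ, Core D) :
    ∀ D : ℝ, ∃ B : ℕ, ∀ c : (Crest.NumberTheoryR.gaussianPrimeGraph D).ConnectedComponent,
      c.supp.Finite ∧ c.supp.ncard ≤ B := by
  classical
  intro D
  obtain ⟨P, hP, hcore⟩ := h ⌈D⌉₊
  obtain ⟨B0, hB0⟩ := G_comp_bound (fun p hp => (hP p hp).1) hcore
  set D' : ℕ := ⌈D⌉₊ with hD'
  set M : ℤ := ∑ p ∈ P, (p : ℤ) with hM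
  let φ : GaussianInt → ℤ × ℤ := fun z => (z.re, z.im)
  have hφ : Function.Injective φ := by
    intro z w hzw
    have h1 := congrArg Prod.fst hzw
    have h2 := congrArg Prod.snd hzw
    exact Zsqrtd.ext h1 h2
  let N : Finset (ℤ × ℤ) := Finset.Icc (-(M + D')) (M + D') ×ˢ Finset.Icc (-(M + D')) (M + D')
  let U : Set (ℤ × ℤ) := ⋃ a ∈ N, {w | (G P D').Reachable a w}
  have hU : U.Finite := Set.Finite.biUnion N.finite_toSet fun a _ => G_comp_finite hcore a
  have hsmall : ∀ z : GaussianInt, Irreducible z → φ z ∉ Q P → |z.re| ≤ M ∧ |z.im| ≤ M := by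
    intro z hz hq
    simp only [Q, Set.mem_ofPred_eq, not_forall, not_not] at hq
    obtain ⟨p, hp, hd⟩ := hq
    have h1 := small_of_not_mem (hP p hp).1 (hP p hp).2 hz hd
    have h2 : (p : ℤ) ≤ M :=
      Finset.single_le_sum (f := fun p : ℕ => (p : ℤ)) (fun _ _ => by positivity) hp
    exact ⟨h1.1.trans h2, h1.2.trans h2⟩
  have hNU : ∀ z : GaussianInt, |z.re| ≤ M + D' → |z.im| ≤ M + D' → φ z ∈ U := by
    intro z h1 h2
    simp only [U, Set.mem_iUnion]
    refine ⟨φ z, ?_, SimpleGraph.Reachable.refl _⟩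
    simp only [N, Finset.mem_product, Finset.mem_Icc]
    exact ⟨abs_le.1 h1, abs_le.1 h2⟩
  refine ⟨B0 + U.ncard, fun c => ?_⟩
  obtain ⟨z0, rfl⟩ := c.exists_rep
  have hmain : ∀ w, (Crest.NumberTheoryR.gaussianPrimeGraph D).Reachable z0 w →
      φ w ∈ {w | (G P D').Reachable (φ z0) w} ∪ U := by
    intro w hw
    rw [SimpleGraph.reachable_iff_reflTransGen] at hw
    induction hw with
    | refl => left; exact SimpleGraph.Reachable.refl _
    | tail _ hadj ih =>
      rename_i a b _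
      obtain ⟨hne, ha, hb, hd⟩ := hadj
      obtain ⟨h1, h2⟩ := coord_le hd
      have hD0 : (0 : ℤ) ≤ D' := by positivity
      by_cases hqa : φ a ∈ Q P
      · by_cases hqb : φ b ∈ Q P
        · have hG : (G P D').Adj (φ a) (φ b) := ⟨fun h => hne (hφ h), hqa, hqb, h1, h2⟩
          rcases ih with ih | ih
          · left; exact SimpleGraph.Reachable.trans ih hG.reachable
          · right
            simp only [U, Set.mem_iUnion] at ih ⊢
            obtain ⟨x, hx, hxa⟩ := ih
            exact ⟨x, hx, SimpleGraph.Reachable.trans hxa hG.reachable⟩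
        · obtain ⟨h3, h4⟩ := hsmall b hb hqb
          right; exact hNU b (by linarith) (by linarith)
      · obtain ⟨h3, h4⟩ := hsmall a ha hqa
        right
        refine hNU b ?_ ?_
        · rw [abs_le] at h1 h3 ⊢; constructor <;> linarith [h1.1, h1.2, h3.1, h3.2]
        · rw [abs_le] at h2 h4 ⊢; constructor <;> linarith [h2.1, h2.2, h4.1, h4.2]
  have hfin : ({w | (G P D').Reachable (φ z0) w} ∪ U).Finite := (G_comp_finite hcore _).union hU
  have hmaps : ∀ w ∈ (SimpleGraph.ConnectedComponent.supp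
      (Quot.mk (Crest.NumberTheoryR.gaussianPrimeGraph D).Reachable z0 :
        (Crest.NumberTheoryR.gaussianPrimeGraph D).ConnectedComponent)),
      φ w ∈ {w | (G P D').Reachable (φ z0) w} ∪ U := by
    intro w hw
    apply hmain
    have := (SimpleGraph.ConnectedComponent.mem_supp_iff _ _).1 hw
    exact (SimpleGraph.ConnectedComponent.exact this).symm
  refine ⟨Set.Finite.of_finite_image (hfin.subset ?_) hφ.injOn, ?_⟩
  · rintro _ ⟨w, hw, rfl⟩; exact hmaps w hw
  · refine (Set.ncard_le_ncard_of_injOn φ hmaps hφ.injOn hfin).trans ?_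
    exact (Set.ncard_union_le _ _).trans (Nat.add_le_add_right (hB0 _) _)

end Crest.Agent.R2
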