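import Crest.Agent.R2.Defs

set_option autoImplicit false

namespace Crest.Agent.R2
namespace GeoAux

/-- sup norm -/
def nrm (u : ℤ × ℤ) : ℤ := max |u.1| |u.2|

lemma abs1_le (u : ℤ × ℤ) : |u.1| ≤ nrm u := le_max_left _ _
lemma abs2_le (u : ℤ × ℤ) : |u.2| ≤ nrm u := le_max_right _ _
lemma nrm_nonneg (u : ℤ × ℤ) : 0 ≤ nrm u := (abs_nonneg _).trans (abs1_le u)

lemma nrm_pos {u : ℤ × ℤ} (h : u ≠ 0) : 0 < nrm u := by
  by_contra hc
  have h1 : |u.1| ≤ 0 := (abs1_le u).trans (not_lt.1 hc)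
  have h2 : |u.2| ≤ 0 := (abs2_le u).trans (not_lt.1 hc)
  exact h (Prod.ext (abs_nonpos_iff.1 h1) (abs_nonpos_iff.1 h2))

lemma nrm_sub_le (a b : ℤ × ℤ) : nrm (a - b) ≤ nrm a + nrm b := by
  refine max_le ?_ ?_
  · calc |(a - b).1| = |a.1 - b.1| := rfl
      _ ≤ |a.1| + |b.1| := abs_sub _ _
      _ ≤ _ := add_le_add (abs1_le a) (abs1_le b)
  · calc |(a - b).2| = |a.2 - b.2| := rfl
      _ ≤ |a.2| + |b.2| := abs_sub _ _
      _ ≤ _ := add_le_add (abs2_le a) (abs2_le b)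

lemma nrm_smul (k : ℤ) (u : ℤ × ℤ) : nrm (k • u) = |k| * nrm u := by
  unfold nrm
  rw [mul_max_of_nonneg _ _ (abs_nonneg k), ← abs_mul, ← abs_mul]
  rfl

lemma wedge_smul (v : ℤ × ℤ) (k : ℤ) (u : ℤ × ℤ) : wedge v (k • u) = k * wedge v u := by
  simp [wedge]; ring

lemma wedge_sub (v a b : ℤ × ℤ) : wedge v (a - b) = wedge v a - wedge v b := by
  simp [wedge]; ring

lemma wedge_ineq (v u δ : ℤ × ℤ) :
    nrm v * |wedge u δ| ≤ nrm u * |wedge v δ| + nrm δ * |wedge v u| := by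
  have h1 : |v.1| * |wedge u δ| ≤ nrm u * |wedge v δ| + nrm δ * |wedge v u| := by
    have e : v.1 * wedge u δ = u.1 * wedge v δ - δ.1 * wedge v u := by simp [wedge]; ring
    rw [← abs_mul, e]
    refine (abs_sub _ _).trans ?_
    rw [abs_mul, abs_mul]
    exact add_le_add (mul_le_mul_of_nonneg_right (abs1_le _) (abs_nonneg _))
      (mul_le_mul_of_nonneg_right (abs1_le _) (abs_nonneg _))
  have h2 : |v.2| * |wedge u δ| ≤ nrm u * |wedge v δ| + nrm δ * |wedge v u| := by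
    have e : v.2 * wedge u δ = u.2 * wedge v δ - δ.2 * wedge v u := by simp [wedge]; ring
    rw [← abs_mul, e]
    refine (abs_sub _ _).trans ?_
    rw [abs_mul, abs_mul]
    exact add_le_add (mul_le_mul_of_nonneg_right (abs2_le _) (abs_nonneg _))
      (mul_le_mul_of_nonneg_right (abs2_le _) (abs_nonneg _))
  unfold nrm at *
  rcases le_total |v.1| |v.2| with h | h
  · rw [max_eq_right h]; exact h2
  · rw [max_eq_left h]; exact h1

lemma dvd_wedge {p : ℕ} {a b : ℤ × ℤ} (ha : (p : ℤ) ∣ lin p a) (hb : (p : ℤ) ∣ lin p b) :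
    (p : ℤ) ∣ wedge a b := by
  have e : wedge a b = lin p a * b.2 - a.2 * lin p b := by simp [wedge, lin]; ring
  rw [e]
  exact dvd_sub (ha.mul_right _) (hb.mul_left _)

lemma dvd_normsq {p : ℕ} (hp : p.Prime) (h4 : p % 4 = 1) {a : ℤ × ℤ} (ha : (p : ℤ) ∣ lin p a) :
    (p : ℤ) ∣ a.1 ^ 2 + a.2 ^ 2 := by
  have e : a.1 ^ 2 + a.2 ^ 2 = lin p a * (a.1 - iota p * a.2) + (iota p ^ 2 + 1) * a.2 ^ 2 := by
    simp [lin]; ring
  rw [e]
  exact dvd_add (ha.mul_right _) ((iota_spec hp h4).mul_right _)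

lemma lin_sub (p : ℕ) (a b : ℤ × ℤ) : lin p (a - b) = lin p a - lin p b := by
  simp [lin]; ring

lemma lin_smul (p : ℕ) (k : ℤ) (a : ℤ × ℤ) : lin p (k • a) = k * lin p a := by
  simp [lin]; ring

lemma prod_dvd_int (S : Finset ℕ) (hS : ∀ p ∈ S, p.Prime) (z : ℤ) (hz : ∀ p ∈ S, (p : ℤ) ∣ z) :
    ((∏ p ∈ S, p : ℕ) : ℤ) ∣ z := by
  rw [Int.natCast_dvd]
  refine Finset.prod_primes_dvd _ (fun p hp => (hS p hp).prime) (fun p hp => ?_)
  exact Int.natCast_dvd.1 (hz p hp)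

/-- the gauge of the box -/
def alpha (v : ℤ × ℤ) (A : ℤ) (u : ℤ × ℤ) : ℤ := max (A * nrm u) (nrm v * |wedge v u|)

lemma alpha_smul (v : ℤ × ℤ) (A k : ℤ) (u : ℤ × ℤ) :
    alpha v A (k • u) = |k| * alpha v A u := by
  unfold alpha
  rw [mul_max_of_nonneg _ _ (abs_nonneg k), nrm_smul, wedge_smul, abs_mul]
  congr 1 <;> ring

/-- a norming functional for the gauge -/
lemma exists_phi (v : ℤ × ℤ) (A : ℤ) (hA : 0 ≤ A) (u : ℤ × ℤ) :
    ∃ φ : ℤ × ℤ → ℤ, (∀ a b, φ (a - b) = φ a - φ b) ∧ (∀ (k : ℤ) a, φ (k • a) = k * φ a) ∧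
      (∀ w, |φ w| ≤ alpha v A w) ∧ |φ u| = alpha v A u := by
  rcases le_total (A * nrm u) (nrm v * |wedge v u|) with h | h
  · refine ⟨fun w => nrm v * wedge v w, fun a b => ?_, fun k a => ?_, fun w => ?_, ?_⟩
    · simp only [wedge_sub]; ring
    · simp only [wedge_smul]; ring
    · rw [abs_mul, abs_of_nonneg (nrm_nonneg v)]; exact le_max_right _ _
    · rw [abs_mul, abs_of_nonneg (nrm_nonneg v), alpha, max_eq_right h]
  · rcases le_total |u.1| |u.2| with h' | h'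
    · refine ⟨fun w => A * w.2, fun a b => ?_, fun k a => ?_, fun w => ?_, ?_⟩
      · simp; ring
      · simp; ring
      · rw [abs_mul, abs_of_nonneg hA]
        exact (mul_le_mul_of_nonneg_left (abs2_le w) hA).trans (le_max_left _ _)
      · rw [abs_mul, abs_of_nonneg hA, alpha, max_eq_left h, nrm, max_eq_right h']
    · refine ⟨fun w => A * w.1, fun a b => ?_, fun k a => ?_, fun w => ?_, ?_⟩
      · simp; ring
      · simp; ring
      · rw [abs_mul, abs_of_nonneg hA]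
        exact (mul_le_mul_of_nonneg_left (abs1_le w) hA).trans (le_max_left _ _)
      · rw [abs_mul, abs_of_nonneg hA, alpha, max_eq_left h, nrm, max_eq_left h']

/-- parallel vectors -/
lemma parallel {u w : ℤ × ℤ} (hu : u ≠ 0) (h : wedge u w = 0) :
    ∃ k m : ℤ, k ≠ 0 ∧ k • w = m • u := by
  unfold wedge at h
  by_cases h1 : u.1 = 0
  · have h2 : u.2 ≠ 0 := fun h2 => hu (Prod.ext h1 h2)
    refine ⟨u.2, w.2, h2, Prod.ext ?_ ?_⟩
    · simp only [Prod.smul_fst, smul_eq_mul]; linarith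
    · simp only [Prod.smul_snd, smul_eq_mul]; ring
  · refine ⟨u.1, w.1, h1, Prod.ext ?_ ?_⟩
    · simp only [Prod.smul_fst, smul_eq_mul]; ring
    · simp only [Prod.smul_snd, smul_eq_mul]; linarith

lemma count (v : ℤ × ℤ) (A N : ℤ) (hR : 0 < nrm v) (hRA : nrm v ≤ A) (hN : 0 < N)
    (L : ℤ × ℤ → Prop) (hL : ∀ a b, L a → L b → N ∣ wedge a b) (F : Finset (ℤ × ℤ))
    (hF : ∀ a ∈ F, ∀ b ∈ F, L (a - b) ∧ nrm (a - b) ≤ 2 * nrm v ∧ |wedge v (a - b)| ≤ 2 * A)
    (h2 : 1 < F.card) :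
    ∃ u : ℤ × ℤ, u ≠ 0 ∧ L u ∧ ∃ a J : ℤ, 0 ≤ J ∧ A * nrm u ≤ a ∧ nrm v * |wedge v u| ≤ a ∧
      J * a ≤ 2 * A * nrm v ∧ (F.card : ℤ) * N ≤ 64 * A + 4 * J * N := by
  classical
  set R := nrm v with hRdef
  have hA : 0 < A := hR.trans_le hRA
  have hαF : ∀ a ∈ F, ∀ b ∈ F, alpha v A (a - b) ≤ 2 * A * R := by
    intro a ha b hb
    obtain ⟨-, h1, h2⟩ := hF a ha b hb
    refine max_le ?_ ?_
    · nlinarith
    · rw [← hRdef]; nlinarith
  have hαpos : ∀ w : ℤ × ℤ, w ≠ 0 → 0 < alpha v A w := fun w hw =>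
    (mul_pos hA (nrm_pos hw)).trans_le (le_max_left _ _)
  obtain ⟨f0, hf0, f1, hf1, hne⟩ := Finset.one_lt_card.1 h2
  have hex : ∃ n : ℕ, ∃ u : ℤ × ℤ, u ≠ 0 ∧ L u ∧ alpha v A u = n :=
    ⟨(alpha v A (f0 - f1)).toNat, f0 - f1, sub_ne_zero.2 hne, (hF f0 hf0 f1 hf1).1,
      (Int.toNat_of_nonneg (hαpos _ (sub_ne_zero.2 hne)).le).symm⟩
  obtain ⟨u, hu0, huL, hua⟩ := Nat.find_spec hex
  have hmin : ∀ w : ℤ × ℤ, w ≠ 0 → L w → alpha v A u ≤ alpha v A w := by
    intro w hw hwL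
    have : Nat.find hex ≤ (alpha v A w).toNat :=
      Nat.find_min' hex ⟨w, hw, hwL, (Int.toNat_of_nonneg (hαpos _ hw).le).symm⟩
    rw [hua, ← Int.toNat_of_nonneg (hαpos _ hw).le]
    exact_mod_cast this
  set a := alpha v A u with hadef
  have ha : 0 < a := hαpos u hu0
  have ha1 : A * nrm u ≤ a := le_max_left _ _
  have ha2 : R * |wedge v u| ≤ a := le_max_right _ _
  have haK : a ≤ 2 * A * R :=
    (hmin _ (sub_ne_zero.2 hne) (hF f0 hf0 f1 hf1).1).trans (hαF f0 hf0 f1 hf1)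
  obtain ⟨φ, hφsub, hφsmul, hφle, hφu⟩ := exists_phi v A hA.le u
  set K : ℤ := 4 * a / (R * N) with hK
  set J : ℤ := 2 * A * R / a with hJ
  have hRN : 0 < R * N := mul_pos hR hN
  have hK0 : 0 ≤ K := Int.ediv_nonneg (by positivity) hRN.le
  have hJ1 : 1 ≤ J := Int.le_ediv_of_mul_le ha (by linarith)
  have hKm : K * (R * N) ≤ 4 * a := Int.ediv_mul_le _ hRN.ne'
  have hJm : J * a ≤ 2 * A * R := Int.ediv_mul_le _ ha.ne'
  have hJm' : 2 * A * R < (J + 1) * a := Int.lt_ediv_add_one_mul_self _ ha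
  refine ⟨u, hu0, huL, a, J, by linarith, ha1, ha2, hJm, ?_⟩
  have hcard : F.card ≤ (Finset.Icc (-K) K ×ˢ Finset.Icc (-J - 1) J).card := by
    refine Finset.card_le_card_of_injOn (fun d => (wedge u (d - f0) / N, φ (d - f0) / a)) ?_ ?_
    · intro d hd
      have hd' : d ∈ F := hd
      obtain ⟨h1, h2, h3⟩ := hF d hd' f0 hf0
      obtain ⟨k, hk⟩ := hL _ _ huL h1
      have hw := wedge_ineq v u (d - f0)
      have hb : R * |wedge u (d - f0)| ≤ 4 * a := by
        have e1 : nrm u * |wedge v (d - f0)| ≤ nrm u * (2 * A) :=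
          mul_le_mul_of_nonneg_left h3 (nrm_nonneg u)
        have e2 : nrm (d - f0) * |wedge v u| ≤ (2 * R) * |wedge v u| :=
          mul_le_mul_of_nonneg_right h2 (abs_nonneg _)
        rw [← hRdef] at hw
        nlinarith
      have hkK : |k| ≤ K := by
        refine Int.le_ediv_of_mul_le hRN ?_
        rw [hk, abs_mul, abs_of_pos hN] at hb
        linarith
      have hφb : |φ (d - f0)| ≤ 2 * A * R := (hφle _).trans (hαF d hd' f0 hf0)
      simp only [Finset.coe_product, Set.mem_prod, Finset.coe_Icc, Set.mem_Icc]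
      rw [hk, Int.mul_ediv_cancel_left _ hN.ne']
      refine ⟨abs_le.1 hkK, ?_, ?_⟩
      · refine Int.le_ediv_of_mul_le ha ?_
        have := (abs_le.1 hφb).1
        nlinarith
      · exact Int.ediv_le_ediv ha (abs_le.1 hφb).2
    · intro d hd d' hd' hdd
      have hd1 : d ∈ F := hd
      have hd2 : d' ∈ F := hd'
      simp only [Prod.mk.injEq] at hdd
      obtain ⟨e1, e2⟩ := hdd
      by_contra hne'
      have hw0 : d - d' ≠ 0 := sub_ne_zero.2 hne'
      obtain ⟨k, hk⟩ := hL _ _ huL (hF d hd1 f0 hf0).1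
      obtain ⟨k', hk'⟩ := hL _ _ huL (hF d' hd2 f0 hf0).1
      rw [hk, hk', Int.mul_ediv_cancel_left _ hN.ne', Int.mul_ediv_cancel_left _ hN.ne'] at e1
      have esub : d - d' = (d - f0) - (d' - f0) := by abel
      have hpar : wedge u (d - d') = 0 := by rw [esub, wedge_sub, hk, hk', e1, sub_self]
      obtain ⟨s, m, hs, hsm⟩ := parallel hu0 hpar
      have q1 : |s| * alpha v A (d - d') = |m| * a := by
        rw [← alpha_smul, hsm, alpha_smul]
      have q2 : |s| * |φ (d - d')| = |m| * a := by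
        rw [← abs_mul, ← hφsmul, hsm, hφsmul, abs_mul, hφu]
      have q3 : |φ (d - d')| = alpha v A (d - d') :=
        mul_left_cancel₀ (abs_pos.2 hs).ne' (q2.trans q1.symm)
      have q4 : a ≤ |φ (d - d')| := q3 ▸ hmin _ hw0 (hF d hd1 d' hd2).1
      rw [esub, hφsub] at q4
      have r1 := Int.emod_add_mul_ediv (φ (d - f0)) a
      have r2 := Int.emod_add_mul_ediv (φ (d' - f0)) a
      have r3 := Int.emod_nonneg (φ (d - f0)) ha.ne'
      have r4 := Int.emod_nonneg (φ (d' - f0)) ha.ne'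
      have r5 := Int.emod_lt_of_pos (φ (d - f0)) ha
      have r6 := Int.emod_lt_of_pos (φ (d' - f0)) ha
      rw [e2] at r1
      rcases le_abs.1 q4 with q | q <;> linarith
  rw [Finset.card_product, Int.card_Icc, Int.card_Icc] at hcard
  have hcard' : (F.card : ℤ) ≤ (2 * K + 1) * (2 * J + 2) := by
    have := (Nat.cast_le (α := ℤ)).2 hcard
    push_cast at this
    rw [Int.toNat_of_nonneg (by linarith), Int.toNat_of_nonneg (by linarith)] at this
    refine this.trans (le_of_eq ?_); ring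
  have hKJ : K * J * N ≤ 8 * A := by
    have h1 : (K * (R * N)) * (J * a) ≤ (4 * a) * (2 * A * R) :=
      mul_le_mul hKm hJm (by positivity) (by positivity)
    have h3 : (K * J * N) * (R * a) ≤ (8 * A) * (R * a) := by linarith
    exact le_of_mul_le_mul_right h3 (mul_pos hR ha)
  have h4 : (F.card : ℤ) ≤ (2 * K + 1) * (4 * J) :=
    hcard'.trans (mul_le_mul_of_nonneg_left (by linarith) (by linarith))
  have h5 : (F.card : ℤ) * N ≤ (2 * K + 1) * (4 * J) * N := mul_le_mul_of_nonneg_right h4 hN.le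
  nlinarith

lemma path_bound {D : ℕ} {x : ℕ → ℤ × ℤ} (hx : IsPath D x) (a k : ℕ) :
    nrm (x (a + k) - x a) ≤ D * k := by
  induction k with
  | zero => simp [nrm]
  | succ k ih =>
    have e : x (a + (k + 1)) - x a = (x (a + k + 1) - x (a + k)) - (x a - x (a + k)) := by
      rw [← add_assoc]; abel
    have h1 : nrm (x (a + k + 1) - x (a + k)) ≤ D := max_le (hx.step1 _) (hx.step2 _)
    have h2 : nrm (x a - x (a + k)) = nrm (x (a + k) - x a) := by
      unfold nrm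
      simp only [Prod.fst_sub, Prod.snd_sub]
      rw [abs_sub_comm (x a).1, abs_sub_comm (x a).2]
    rw [e]
    refine (nrm_sub_le _ _).trans ?_
    push_cast
    linarith

lemma diff_bound {D : ℕ} {x : ℕ → ℤ × ℤ} (hx : IsPath D x) {l a b : ℕ} (ha : a < l) (hb : b < l) :
    nrm (x a - x b) ≤ D * l := by
  have hD : (0 : ℤ) ≤ D := Int.natCast_nonneg _
  rcases le_total a b with h | h
  · obtain ⟨k, rfl⟩ := Nat.exists_eq_add_of_le h
    have h2 : nrm (x a - x (a + k)) = nrm (x (a + k) - x a) := by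
      unfold nrm
      simp only [Prod.fst_sub, Prod.snd_sub]
      rw [abs_sub_comm (x a).1, abs_sub_comm (x a).2]
    rw [h2]
    refine (path_bound hx a k).trans (mul_le_mul_of_nonneg_left ?_ hD)
    exact_mod_cast (by omega : k ≤ l)
  · obtain ⟨k, rfl⟩ := Nat.exists_eq_add_of_le h
    refine (path_bound hx b k).trans (mul_le_mul_of_nonneg_left ?_ hD)
    exact_mod_cast (by omega : k ≤ l)

lemma mem_diffs {x : ℕ → ℤ × ℤ} {l : ℕ} {d : ℤ × ℤ} :
    d ∈ diffs x l ↔ ∃ a b, a < l ∧ b < l ∧ x a - x b = d := by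
  simp only [diffs, Finset.mem_image, Finset.mem_product, Finset.mem_range, Prod.exists]
  constructor
  · rintro ⟨a, b, ⟨ha, hb⟩, h⟩; exact ⟨a, b, ha, hb, h⟩
  · rintro ⟨a, b, ha, hb, h⟩; exact ⟨a, b, ⟨ha, hb⟩, h⟩

lemma le_card_diffs {x : ℕ → ℤ × ℤ} (hx : Function.Injective x) (l : ℕ) :
    l ≤ (diffs x l).card := by
  conv_lhs => rw [← Finset.card_range l]
  refine Finset.card_le_card_of_injOn (fun s => x s - x 0) ?_ ?_
  · intro s hs
    have hs' : s < l := by simpa using hs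
    exact Finset.mem_coe.2 (mem_diffs.2 ⟨s, 0, hs', by omega, rfl⟩)
  · intro s _ t _ h
    exact hx (sub_left_injective h)

lemma card_le_box (F : Finset (ℤ × ℤ)) (R : ℤ) (hR : 0 ≤ R) (h : ∀ d ∈ F, nrm d ≤ R) :
    (F.card : ℤ) ≤ (2 * R + 1) ^ 2 := by
  have hc : F.card ≤ (Finset.Icc (-R) R ×ˢ Finset.Icc (-R) R).card := by
    refine Finset.card_le_card fun d hd => ?_
    simp only [Finset.mem_product, Finset.mem_Icc]
    exact ⟨abs_le.1 ((abs1_le d).trans (h d hd)), abs_le.1 ((abs2_le d).trans (h d hd))⟩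
  rw [Finset.card_product, Int.card_Icc] at hc
  have := (Nat.cast_le (α := ℤ)).2 hc
  push_cast at this
  rw [Int.toNat_of_nonneg (by linarith)] at this
  refine this.trans (le_of_eq ?_); ring

/-- the resonant direction -/
lemma exists_T (v : ℤ × ℤ) (X : ℕ) (hX : 1 ≤ X) (hR : 8 * (X : ℤ) ^ 2 < nrm v) :
    ∃ T : Finset ℕ, (∀ p ∈ T, p.Prime) ∧ ∏ p ∈ T, p ≤ 8 * X ^ 2 ∧
      ∀ u : ℤ × ℤ, u ≠ 0 → nrm u ≤ 2 * X → |wedge v u| ≤ 2 * X →
        ∀ S : Finset ℕ, (∀ p ∈ S, p.Prime ∧ p % 4 = 1) → (∀ p ∈ S, (p : ℤ) ∣ lin p u) →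
          ((∏ p ∈ S \ T, p : ℕ) : ℤ) ≤ nrm u := by
  by_cases hQ : ∃ u0 : ℤ × ℤ, u0 ≠ 0 ∧ nrm u0 ≤ 2 * X ∧ |wedge v u0| ≤ 2 * X
  swap
  · refine ⟨∅, by simp, ?_, fun u h1 h2 h3 => (hQ ⟨u, h1, h2, h3⟩).elim⟩
    rw [Finset.prod_empty]; nlinarith
  obtain ⟨u0, h0, h1, h2⟩ := hQ
  have hg : 0 < Int.gcd u0.1 u0.2 := by
    rw [Int.gcd_pos_iff]
    by_contra hc
    push Not at hc
    exact h0 (Prod.ext hc.1 hc.2)
  obtain ⟨m', n', hgcd, e1, e2⟩ := Int.exists_gcd_one hg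
  set g : ℤ := (Int.gcd u0.1 u0.2 : ℤ) with hgdef
  have hg1 : 1 ≤ g := by rw [hgdef]; exact_mod_cast hg
  set v0 : ℤ × ℤ := (m', n') with hv0
  have eu0 : u0 = g • v0 := by
    refine Prod.ext ?_ ?_
    · simp only [Prod.smul_fst, smul_eq_mul, hv0]; linarith
    · simp only [Prod.smul_snd, smul_eq_mul, hv0]; linarith
  have hv00 : v0 ≠ 0 := by
    intro hc; rw [hc, smul_zero] at eu0; exact h0 eu0
  have hnv0 : nrm v0 ≤ 2 * X := by
    have := nrm_smul g v0
    rw [← eu0, abs_of_pos (by linarith)] at this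
    have := nrm_nonneg v0
    nlinarith
  set M : ℕ := m'.natAbs ^ 2 + n'.natAbs ^ 2 with hM
  have hMc : (M : ℤ) = m' ^ 2 + n' ^ 2 := by
    rw [hM]; push_cast; rw [sq_abs, sq_abs]
  have hM0 : M ≠ 0 := by
    intro hc
    rw [hc, Nat.cast_zero] at hMc
    have a1 : m' = 0 := by nlinarith [sq_nonneg m', sq_nonneg n']
    have a2 : n' = 0 := by nlinarith [sq_nonneg m', sq_nonneg n']
    exact hv00 (by rw [hv0, a1, a2]; rfl)
  have hMle : M ≤ 8 * X ^ 2 := by
    have a1 : |m'| ≤ 2 * X := (abs1_le v0).trans hnv0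
    have a2 : |n'| ≤ 2 * X := (abs2_le v0).trans hnv0
    have b1 : m' ^ 2 ≤ (2 * X) ^ 2 := sq_le_sq' (abs_le.1 a1).1 (abs_le.1 a1).2
    have b2 : n' ^ 2 ≤ (2 * X) ^ 2 := sq_le_sq' (abs_le.1 a2).1 (abs_le.1 a2).2
    have : (M : ℤ) ≤ 8 * (X : ℤ) ^ 2 := by rw [hMc]; linarith
    exact_mod_cast this
  refine ⟨M.primeFactors, fun p hp => Nat.prime_of_mem_primeFactors hp,
    (Nat.le_of_dvd (Nat.pos_of_ne_zero hM0) (Nat.prod_primeFactors_dvd M)).trans hMle, ?_⟩
  intro u hu hu1 hu2 S hS hSu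
  have hw : wedge u u0 = 0 := by
    have hw := wedge_ineq v u u0
    have a1 : nrm u * |wedge v u0| ≤ (2 * X) * (2 * X) :=
      mul_le_mul hu1 h2 (abs_nonneg _) (by positivity)
    have a2 : nrm u0 * |wedge v u| ≤ (2 * X) * (2 * X) :=
      mul_le_mul h1 hu2 (abs_nonneg _) (by positivity)
    by_contra hc
    have a3 : 1 ≤ |wedge u u0| := Int.one_le_abs hc
    have a4 := nrm_nonneg v
    nlinarith
  have hw0 : wedge u v0 = 0 := by
    rw [eu0, wedge_smul] at hw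
    exact (mul_eq_zero.1 hw).resolve_left (by linarith)
  have hbez := Int.gcd_eq_gcd_ab m' n'
  rw [hgcd] at hbez
  set m : ℤ := Int.gcdA m' n' * u.1 + Int.gcdB m' n' * u.2 with hm
  have hum : u = m • v0 := by
    simp only [wedge, hv0] at hw0
    push_cast at hbez
    refine Prod.ext ?_ ?_
    · simp only [Prod.smul_fst, smul_eq_mul, hv0, hm]
      linear_combination u.1 * hbez + Int.gcdB m' n' * hw0
    · simp only [Prod.smul_snd, smul_eq_mul, hv0, hm]
      linear_combination u.2 * hbez - Int.gcdA m' n' * hw0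
  have hm0 : m ≠ 0 := by
    intro hc; rw [hc, zero_smul] at hum; exact hu hum
  have hdvd : ((∏ p ∈ S \ M.primeFactors, p : ℕ) : ℤ) ∣ m := by
    refine prod_dvd_int _ (fun p hp => (hS p (Finset.mem_sdiff.1 hp).1).1) _ fun p hp => ?_
    obtain ⟨hpS, hpT⟩ := Finset.mem_sdiff.1 hp
    obtain ⟨hpp, hp4⟩ := hS p hpS
    have h3 := hSu p hpS
    rw [hum, lin_smul] at h3
    rcases (Nat.prime_iff_prime_int.1 hpp).dvd_or_dvd h3 with h4 | h4
    · exact h4
    · exfalso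
      refine hpT (Nat.mem_primeFactors.2 ⟨hpp, ?_, hM0⟩)
      have h5 := dvd_normsq hpp hp4 h4
      simp only [hv0] at h5
      rw [← hMc] at h5
      exact_mod_cast h5
  have h6 : ((∏ p ∈ S \ M.primeFactors, p : ℕ) : ℤ) ≤ |m| :=
    Int.le_of_dvd (abs_pos.2 hm0) ((dvd_abs _ _).2 hdvd)
  have h7 : nrm u = |m| * nrm v0 := by rw [← nrm_smul, ← hum]
  have h8 : 1 ≤ nrm v0 := nrm_pos hv00
  have h9 := abs_nonneg m
  nlinarith

end GeoAux

open GeoAux in
theorem geo (D : ℕ) (h : CrossStmt D) : GeoStmt D := by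
  classical
  obtain ⟨c0, hc0⟩ := h
  refine ⟨72 * (c0 + D) + 8, by omega, fun x hx X hX => ?_⟩
  set l := win X with hl
  set Δ := diffs x l with hΔ
  have hlX : l = 300 * X ^ 4 := rfl
  have hl0 : 0 < l := by rw [hlX]; positivity
  have hlΔ : l ≤ Δ.card := le_card_diffs hx.inj l
  have hne : Δ.Nonempty := Finset.card_pos.1 (hl0.trans_le hlΔ)
  obtain ⟨v, hv, hvmax⟩ := Finset.exists_max_image Δ nrm hne
  have hX' : (1 : ℤ) ≤ X := by exact_mod_cast hX
  have hR : 8 * (X : ℤ) ^ 2 < nrm v := by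
    have h1 := card_le_box Δ (nrm v) (nrm_nonneg v) hvmax
    have h2 : (300 * (X : ℤ) ^ 4) ≤ Δ.card := by
      have := (Nat.cast_le (α := ℤ)).2 hlΔ
      rw [hlX] at this
      exact_mod_cast this
    by_contra hc
    push Not at hc
    have h3 : (1 : ℤ) ≤ (X : ℤ) ^ 2 := one_le_pow₀ hX'
    have h4 : (2 * nrm v + 1) ^ 2 ≤ (17 * (X : ℤ) ^ 2) ^ 2 :=
      pow_le_pow_left₀ (by have := nrm_nonneg v; linarith) (by linarith) 2
    have h5 : (0 : ℤ) < (X : ℤ) ^ 4 := by positivity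
    nlinarith
  have hXR : (X : ℤ) ≤ nrm v := by nlinarith
  have hR0 : 0 < nrm v := by linarith
  set A : ℤ := ((c0 : ℤ) + D) * Δ.card with hA
  have hc00 : (0 : ℤ) ≤ (c0 : ℤ) * Δ.card := by positivity
  have hD0 : (0 : ℤ) ≤ (D : ℤ) * Δ.card := by positivity
  obtain ⟨a0, b0, ha0, hb0, hv0⟩ := mem_diffs.1 hv
  have hRA : nrm v ≤ A := by
    have h1 := diff_bound hx ha0 hb0
    rw [hv0] at h1
    have h2 : (D : ℤ) * l ≤ D * Δ.card :=
      mul_le_mul_of_nonneg_left (by exact_mod_cast hlΔ) (Int.natCast_nonneg _)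
    rw [hA]; linarith
  have hW : ∀ d ∈ Δ, |wedge v d| ≤ A := by
    intro d hd
    obtain ⟨a1, b1, ha1, hb1, hd1⟩ := mem_diffs.1 hd
    have h1 := hc0 x hx l b0 a0 b1 a1 hb0 ha0 hb1 ha1
    rw [hv0, hd1] at h1
    rw [hA]; linarith
  obtain ⟨T, hT1, hT2, hT3⟩ := exists_T v X hX hR
  refine ⟨T, hT1, hT2.trans (Nat.mul_le_mul_right _ (by omega)), fun S hS hSX d₀ => ?_⟩
  set F := Δ.filter fun d => ∀ p ∈ S, (p : ℤ) ∣ lin p (d - d₀) with hF
  set N : ℕ := ∏ p ∈ S, p with hN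
  set P : ℕ := ∏ p ∈ S ∩ T, p with hP
  set M : ℕ := ∏ p ∈ S \ T, p with hM
  have hNPM : N = P * M := (Finset.prod_inter_mul_prod_sdiff S T fun p => p).symm
  have hN0 : 0 < N := Finset.prod_pos fun p hp => (hS p hp).1.pos
  have hP0 : 0 < P := Finset.prod_pos fun p hp => (hS p (Finset.mem_inter.1 hp).1).1.pos
  have hP1 : (1 : ℤ) ≤ P := by exact_mod_cast hP0
  have hN0' : (0 : ℤ) < N := by exact_mod_cast hN0
  have hNX : (N : ℤ) ≤ X := by exact_mod_cast hSX
  have hA0 : 0 < A := hR0.trans_le hRA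
  suffices hmain : (F.card : ℤ) * N ≤ 72 * A * P by
    have h1 : (72 * A * P : ℤ) ≤ ((72 * (c0 + D) + 8 : ℕ) : ℤ) * Δ.card * P := by
      refine mul_le_mul_of_nonneg_right ?_ (by linarith)
      push_cast
      rw [hA]
      have : (0 : ℤ) ≤ Δ.card := Int.natCast_nonneg _
      linarith
    exact_mod_cast hmain.trans h1
  have hAP : A ≤ A * P := le_mul_of_one_le_right hA0.le hP1
  by_cases h2 : 1 < F.card
  swap
  · have h3 : (F.card : ℤ) ≤ 1 := by exact_mod_cast not_lt.1 h2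
    have h4 : (F.card : ℤ) * N ≤ 1 * N := mul_le_mul_of_nonneg_right h3 hN0'.le
    linarith
  obtain ⟨u, hu0, huL, a, J, hJ, ha1, ha2, hJa, hcount⟩ :=
    count v A N hR0 hRA hN0' (fun u => ∀ p ∈ S, (p : ℤ) ∣ lin p u)
      (fun a b ha hb => prod_dvd_int S (fun p hp => (hS p hp).1) _
        fun p hp => dvd_wedge (ha p hp) (hb p hp)) F
      (by
        intro a ha b hb
        obtain ⟨ha1, ha2⟩ := Finset.mem_filter.1 ha
        obtain ⟨hb1, hb2⟩ := Finset.mem_filter.1 hb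
        refine ⟨fun p hp => ?_, ?_, ?_⟩
        · have e : a - b = (a - d₀) - (b - d₀) := by abel
          rw [e, lin_sub]
          exact dvd_sub (ha2 p hp) (hb2 p hp)
        · have := nrm_sub_le a b
          have := hvmax a ha1
          have := hvmax b hb1
          linarith
        · rw [wedge_sub]
          have := abs_sub (wedge v a) (wedge v b)
          have := hW a ha1
          have := hW b hb1
          linarith) h2
  by_cases hcase : 2 * nrm v * N ≤ a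
  · have h1 : J * (2 * nrm v * N) ≤ J * a := mul_le_mul_of_nonneg_left hcase hJ
    have h3 : (J * N) * (2 * nrm v) ≤ A * (2 * nrm v) := by linarith
    have h4 : J * N ≤ A := le_of_mul_le_mul_right h3 (by linarith)
    linarith
  · push Not at hcase
    have h1 : nrm u ≤ 2 * X := by
      have e1 : nrm v * N ≤ A * X := mul_le_mul hRA hNX hN0'.le hA0.le
      have e2 : A * nrm u ≤ A * (2 * X) := by linarith
      exact le_of_mul_le_mul_left e2 hA0
    have h3 : |wedge v u| ≤ 2 * X := by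
      have e1 : nrm v * N ≤ nrm v * X := mul_le_mul_of_nonneg_left hNX hR0.le
      have e2 : nrm v * |wedge v u| ≤ nrm v * (2 * X) := by linarith
      exact le_of_mul_le_mul_left e2 hR0
    have h4 : (M : ℤ) ≤ nrm u := hT3 u hu0 h1 h3 S hS huL
    have h5 : A * M ≤ a := (mul_le_mul_of_nonneg_left h4 hA0.le).trans ha1
    have h6 : J * (A * M) ≤ J * a := mul_le_mul_of_nonneg_left h5 hJ
    have h7 : A * (J * M) ≤ A * (2 * nrm v) := by linarith
    have h8 : J * M ≤ 2 * A := (le_of_mul_le_mul_left h7 hA0).trans (by linarith)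
    have h9 : (N : ℤ) = P * M := by exact_mod_cast hNPM
    have h10 : (J * M) * P ≤ (2 * A) * P := mul_le_mul_of_nonneg_right h8 (by linarith)
    have h11 : J * N = (J * M) * P := by rw [h9]; ring
    linarith

end Crest.Agent.R2
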