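import Mathlib
import Crest.Agent.R2.Defs

set_option autoImplicit false

namespace Crest.Agent.R2

open Finset

/-- `log p` on primes `≡ 1 mod 4`, zero elsewhere -/
noncomputable def fP (n : ℕ) : ℝ := if n.Prime ∧ n % 4 = 1 then Real.log n else 0

lemma fP_nonneg (n : ℕ) : 0 ≤ fP n := by
  unfold fP; split_ifs
  · exact Real.log_natCast_nonneg n
  · exact le_rfl

/-- dyadic block sum -/
noncomputable def blk (j : ℕ) : ℝ := ∑ n ∈ Ico (2 ^ j) (2 ^ (j + 1)), fP n / n

lemma blk_nonneg (j : ℕ) : 0 ≤ blk j :=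
  sum_nonneg fun n _ => div_nonneg (fP_nonneg n) (Nat.cast_nonneg n)

lemma blk_le_div (j : ℕ) :
    blk j ≤ (∑ n ∈ Ico (2 ^ j) (2 ^ (j + 1)), fP n) / 2 ^ j := by
  rw [blk, sum_div]
  refine sum_le_sum fun n hn => ?_
  have h1 : (2 : ℝ) ^ j ≤ n := by exact_mod_cast (mem_Ico.1 hn).1
  exact div_le_div_of_nonneg_left (fP_nonneg n) (by positivity) h1

lemma blk_le_three (j : ℕ) : blk j ≤ 3 := by
  refine (blk_le_div j).trans ?_
  have h1 : (∑ n ∈ Ico (2 ^ j) (2 ^ (j + 1)), fP n) ≤ Chebyshev.theta ((2 ^ (j + 1) : ℕ) : ℝ) := by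
    rw [Chebyshev.theta_eq_sum_Icc, Nat.floor_natCast, sum_filter]
    calc (∑ n ∈ Ico (2 ^ j) (2 ^ (j + 1)), fP n)
        ≤ ∑ n ∈ Ico (2 ^ j) (2 ^ (j + 1)), (if n.Prime then Real.log n else 0) := by
          refine sum_le_sum fun n _ => ?_
          unfold fP
          by_cases h : n.Prime
          · simp only [h, true_and, if_true]
            split_ifs
            · exact le_rfl
            · exact Real.log_natCast_nonneg n
          · simp [h]
      _ ≤ _ := by
          refine sum_le_sum_of_subset_of_nonneg ?_ ?_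
          · intro n hn
            rw [mem_Ico] at hn
            rw [mem_Icc]; omega
          · intro n _ _
            split_ifs
            · exact Real.log_natCast_nonneg n
            · exact le_rfl
  have h2 := Chebyshev.theta_le_log4_mul_x (x := ((2 ^ (j + 1) : ℕ) : ℝ)) (by positivity)
  have h3 : Real.log 4 ≤ 3 / 2 := by
    have : Real.log 4 = 2 * Real.log 2 := by
      rw [show (4 : ℝ) = 2 ^ 2 by norm_num, Real.log_pow]; norm_num
    have := Real.log_two_lt_d9
    linarith
  rw [div_le_iff₀ (by positivity)]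
  have h4 : ((2 ^ (j + 1) : ℕ) : ℝ) = 2 * 2 ^ j := by push_cast; ring
  rw [h4] at h1 h2
  have h5 : (0 : ℝ) < 2 ^ j := by positivity
  nlinarith

lemma blk_le_count (j : ℕ) : blk j ≤ (blockCount j : ℝ) * (j + 1) / 2 ^ j := by
  refine (blk_le_div j).trans ?_
  refine div_le_div_of_nonneg_right ?_ (by positivity)
  unfold fP blockCount
  rw [← sum_filter]
  rw [← nsmul_eq_mul]
  refine sum_le_card_nsmul _ _ _ fun n hn => ?_
  have hn' := mem_Ico.1 (mem_filter.1 hn).1
  have hp := (mem_filter.1 hn).2.1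
  have h1 : (n : ℝ) ≤ 2 ^ (j + 1) := by exact_mod_cast hn'.2.le
  have h0 : (0 : ℝ) < n := by exact_mod_cast hp.pos
  calc Real.log n ≤ Real.log (2 ^ (j + 1)) := Real.log_le_log h0 h1
    _ = (j + 1) * Real.log 2 := by rw [Real.log_pow]; push_cast; ring
    _ ≤ j + 1 := by
      have := Real.log_two_lt_d9
      have h2 : (0 : ℝ) ≤ j + 1 := by positivity
      nlinarith

lemma sum_range_two_pow (g : ℕ → ℝ) (N : ℕ) :
    ∑ n ∈ range (2 ^ N), g n = g 0 + ∑ j ∈ range N, ∑ n ∈ Ico (2 ^ j) (2 ^ (j + 1)), g n := by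
  induction N with
  | zero => simp
  | succ N ih =>
    rw [sum_range_succ, ← add_assoc, ← ih, range_eq_Ico, range_eq_Ico]
    exact (sum_Ico_consecutive g (Nat.zero_le _) (Nat.pow_le_pow_right (by norm_num) (by omega))).symm

open ArithmeticFunction.vonMangoldt in
lemma lower_bound : ∃ C : ℝ, ∀ y : ℝ, 0 < y → y ≤ 1 →
    1 / (2 * y) - C ≤ ∑' n : ℕ, fP n / (n : ℝ) ^ (1 + y) := by
  obtain ⟨C, hC⟩ := LSeries_residueClass_lower_bound (q := 4) (a := 1) isUnit_one
  have hs := summable_residueClass_non_primes_div (q := 4) (1 : ZMod 4)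
  refine ⟨C + ∑' n : ℕ, (if n.Prime then 0 else residueClass (1 : ZMod 4) n) / n, fun y hy hy1 => ?_⟩
  have h1 := hC (x := 1 + y) ⟨by linarith, by linarith⟩
  have ht : ((Nat.totient 4 : ℕ) : ℝ) = 2 := by
    have : Nat.totient 4 = 2 := by decide
    rw [this]; norm_num
  rw [ht] at h1
  have hsum : Summable fun n : ℕ => residueClass (1 : ZMod 4) n / (n : ℝ) ^ (1 + y) :=
    LSeries.summable_real_of_abscissaOfAbsConv_lt <|
      (abscissaOfAbsConv_residueClass_le_one (1 : ZMod 4)).trans_lt <| by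
        exact_mod_cast (by linarith : (1 : ℝ) < 1 + y)
  have hprime : ∀ n : ℕ, n.Prime → residueClass (1 : ZMod 4) n = fP n := by
    intro n hn
    unfold fP residueClass
    have : ((n : ZMod 4) = 1) ↔ n % 4 = 1 := by
      rw [show (1 : ZMod 4) = ((1 : ℕ) : ZMod 4) by simp, ZMod.natCast_eq_natCast_iff']
    by_cases h : n % 4 = 1
    · rw [Set.indicator_of_mem (by simpa using this.2 h), if_pos ⟨hn, h⟩,
        ArithmeticFunction.vonMangoldt_apply_prime hn]
    · rw [Set.indicator_of_notMem (by simpa using fun h' => h (this.1 h')), if_neg (by tauto)]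
  have hle : ∀ n : ℕ, fP n / (n : ℝ) ^ (1 + y) ≤ residueClass (1 : ZMod 4) n / (n : ℝ) ^ (1 + y) := by
    intro n
    refine div_le_div_of_nonneg_right ?_ (by positivity)
    by_cases hn : n.Prime
    · exact (hprime n hn).ge
    · unfold fP; rw [if_neg (by tauto)]; exact residueClass_nonneg _ _
  have hsum2 : Summable fun n : ℕ => fP n / (n : ℝ) ^ (1 + y) :=
    Summable.of_nonneg_of_le (fun n => div_nonneg (fP_nonneg n) (by positivity)) hle hsum
  have h2 : ∑' n : ℕ, residueClass (1 : ZMod 4) n / (n : ℝ) ^ (1 + y) ≤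
      ∑' n : ℕ, (fP n / (n : ℝ) ^ (1 + y) +
        (if n.Prime then 0 else residueClass (1 : ZMod 4) n) / n) := by
    refine Summable.tsum_le_tsum (fun n => ?_) hsum (hsum2.add hs)
    by_cases hn : n.Prime
    · simp [hn, hprime n hn]
    · rw [if_neg hn]
      have h3 : 0 ≤ fP n / (n : ℝ) ^ (1 + y) := div_nonneg (fP_nonneg n) (by positivity)
      rcases n.eq_zero_or_pos with rfl | hn0
      · simp [fP]
      · have h4 : residueClass (1 : ZMod 4) n / (n : ℝ) ^ (1 + y) ≤
            residueClass (1 : ZMod 4) n / n := by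
          refine div_le_div_of_nonneg_left (residueClass_nonneg _ _) (by exact_mod_cast hn0) ?_
          conv_lhs => rw [← Real.rpow_one n]
          exact Real.rpow_le_rpow_of_exponent_le (by exact_mod_cast hn0) (by linarith)
        linarith
  rw [hsum2.tsum_add hs] at h2
  have h5 : (2 : ℝ)⁻¹ / (1 + y - 1) = 1 / (2 * y) := by
    rw [show 1 + y - 1 = y by ring]; field_simp
  rw [h5] at h1
  linarith

lemma block_g_le (y : ℝ) (hy : 0 < y) (j : ℕ) :
    ∑ n ∈ Ico (2 ^ j) (2 ^ (j + 1)), fP n / (n : ℝ) ^ (1 + y) ≤ blk j * ((2 : ℝ) ^ (-y)) ^ j := by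
  rw [blk, sum_mul]
  refine sum_le_sum fun n hn => ?_
  have h1 : (2 : ℝ) ^ j ≤ n := by exact_mod_cast (mem_Ico.1 hn).1
  have h0 : (0 : ℝ) < n := lt_of_lt_of_le (by positivity) h1
  rw [Real.rpow_add h0, Real.rpow_one, ← div_div, div_eq_mul_inv (fP n / n)]
  refine mul_le_mul_of_nonneg_left ?_ (div_nonneg (fP_nonneg n) h0.le)
  rw [← Real.rpow_neg h0.le, ← Real.rpow_natCast, ← Real.rpow_mul (by norm_num), mul_comm,
    Real.rpow_mul (by norm_num), Real.rpow_natCast]
  exact Real.rpow_le_rpow_of_nonpos (by positivity) h1 (by linarith)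

lemma middle_ge : ∃ C : ℝ, ∀ J : ℕ, 1 ≤ J → 2 * (J : ℝ) - C ≤ ∑ j ∈ Ico J (84 * J), blk j := by
  obtain ⟨C, hC⟩ := lower_bound
  refine ⟨C, fun J hJ => ?_⟩
  have hJ' : (1 : ℝ) ≤ J := by exact_mod_cast hJ
  set y : ℝ := 1 / (12 * J) with hy
  have hy0 : 0 < y := by positivity
  have hy1 : y ≤ 1 := by
    rw [hy, div_le_one (by positivity)]; linarith
  have h1 := hC y hy0 hy1
  have h2 : 1 / (2 * y) = 6 * J := by rw [hy]; field_simp; ring
  set r : ℝ := (2 : ℝ) ^ (-y) with hr
  have hr0 : 0 < r := by positivity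
  have hr1 : r < 1 := Real.rpow_lt_one_of_one_lt_of_neg (by norm_num) (by linarith)
  have hr12 : r ^ (12 * J) = 1 / 2 := by
    rw [hr, ← Real.rpow_natCast, ← Real.rpow_mul (by norm_num)]
    have : -y * ((12 * J : ℕ) : ℝ) = -1 := by rw [hy]; push_cast; field_simp
    rw [this, Real.rpow_neg_one]; norm_num
  have hr84 : r ^ (84 * J) = 1 / 128 := by
    rw [show 84 * J = (12 * J) * 7 by ring, pow_mul, hr12]; norm_num
  have hbern : 1 / 2 ≤ 12 * J * (1 - r) := by
    have := one_add_mul_le_pow (a := r - 1) (by linarith) (12 * J)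
    rw [show 1 + (r - 1) = r by ring, hr12] at this
    push_cast at this
    linarith
  have hgeo : ∀ M : ℕ, ∑ j ∈ Ico (84 * J) (84 * J + M), r ^ j ≤ J / 3 := by
    intro M
    rw [sum_Ico_eq_sum_range]
    simp only [pow_add, ← mul_sum, hr84]
    have h3 : ∑ i ∈ range (84 * J + M - 84 * J), r ^ i ≤ (1 - r)⁻¹ :=
      (sum_le_hasSum _ (fun i _ => by positivity) (hasSum_geometric_of_lt_one hr0.le hr1))
    have h4 : (1 - r)⁻¹ ≤ 24 * J := by
      rw [inv_le_comm₀ (by linarith) (by positivity), inv_le_iff_one_le_mul₀ (by positivity)]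
      linarith
    linarith
  have h3 : ∑' n : ℕ, fP n / (n : ℝ) ^ (1 + y) ≤ 4 * J + ∑ j ∈ Ico J (84 * J), blk j := by
    refine Real.tsum_le_of_sum_range_le (fun n => div_nonneg (fP_nonneg n) (by positivity)) fun M => ?_
    calc ∑ n ∈ range M, fP n / (n : ℝ) ^ (1 + y)
        ≤ ∑ n ∈ range (2 ^ (84 * J + M)), fP n / (n : ℝ) ^ (1 + y) := by
          refine sum_le_sum_of_subset_of_nonneg (range_subset_range.2 ?_)
            fun n _ _ => div_nonneg (fP_nonneg n) (by positivity)
          exact le_trans (Nat.lt_two_pow_self).le (Nat.pow_le_pow_right (by norm_num) (by omega))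
      _ ≤ ∑ j ∈ range (84 * J + M), blk j * r ^ j := by
          rw [sum_range_two_pow]
          have : fP 0 / ((0 : ℕ) : ℝ) ^ (1 + y) = 0 := by simp [fP]
          rw [this, zero_add]
          exact sum_le_sum fun j _ => block_g_le y hy0 j
      _ = ∑ j ∈ Ico 0 J, blk j * r ^ j + ∑ j ∈ Ico J (84 * J), blk j * r ^ j +
            ∑ j ∈ Ico (84 * J) (84 * J + M), blk j * r ^ j := by
          rw [range_eq_Ico, sum_Ico_consecutive _ (by omega) (by omega),
            sum_Ico_consecutive _ (by omega) (by omega)]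
      _ ≤ ∑ _j ∈ Ico 0 J, (3 : ℝ) + ∑ j ∈ Ico J (84 * J), blk j +
            ∑ j ∈ Ico (84 * J) (84 * J + M), 3 * r ^ j := by
          have hp : ∀ j : ℕ, r ^ j ≤ 1 := fun j => pow_le_one₀ hr0.le hr1.le
          gcongr with j _ j _ j _
          · have := blk_le_three j
            have := blk_nonneg j
            have := hp j
            nlinarith
          · have := blk_nonneg j
            have := hp j
            nlinarith
          · exact blk_le_three j
      _ ≤ _ := by
          rw [← mul_sum]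
          have := hgeo M
          simp only [sum_const, Nat.card_Ico, nsmul_eq_mul, Nat.sub_zero]
          linarith
  linarith

theorem primeStmt : PrimeStmt := by
  obtain ⟨C, hC⟩ := middle_ge
  refine ⟨84, 14112, by norm_num, by norm_num, ?_⟩
  filter_upwards [Filter.eventually_ge_atTop 1, Filter.eventually_ge_atTop ⌈C⌉₊] with J hJ hJC
  have hJ' : (1 : ℝ) ≤ J := by exact_mod_cast hJ
  have hJC' : C ≤ J := (Nat.le_ceil C).trans (by exact_mod_cast hJC)
  have h1 := hC J hJ
  set G := (Ico J (84 * J)).filter fun j => 2 ^ j ≤ 14112 * J * blockCount j with hG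
  have h2 : ∑ j ∈ Ico J (84 * J), blk j ≤
      ∑ j ∈ Ico J (84 * J), ((if 2 ^ j ≤ 14112 * J * blockCount j then (3 : ℝ) else 0) + 1 / 168) := by
    refine sum_le_sum fun j hj => ?_
    split_ifs with h
    · have := blk_le_three j
      linarith
    · refine (blk_le_count j).trans ?_
      have h3 : (14112 : ℝ) * J * blockCount j ≤ 2 ^ j := by exact_mod_cast (not_le.1 h).le
      have h4 : (j : ℝ) + 1 ≤ 84 * J := by exact_mod_cast (mem_Ico.1 hj).2
      rw [div_le_iff₀ (by positivity)]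
      have h5 : (0 : ℝ) ≤ blockCount j := Nat.cast_nonneg _
      nlinarith
  rw [sum_add_distrib, ← sum_filter, sum_const, sum_const, Nat.card_Ico, ← hG] at h2
  have h6 : ((84 * J - J : ℕ) : ℝ) ≤ 84 * J := by exact_mod_cast Nat.sub_le _ _
  simp only [nsmul_eq_mul] at h2
  have h7 : (J : ℝ) ≤ 14112 * G.card := by
    have : (0 : ℝ) ≤ G.card := Nat.cast_nonneg _
    linarith
  exact_mod_cast h7

end Crest.Agent.R2
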