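import Crest.Agent.R2.Spread

/-! The sets of admissible residues shrink along a sample; entropy gain. -/

set_option autoImplicit false

namespace Crest.Agent.R2

open Finset Crest.Agent.Lib.FinEnt

variable {D : ℕ}

abbrev Fam := (p : ℕ) → Finset (ZMod p)

/-- remove the residues of the sampled points -/
noncomputable def upd (s : Smp) (y : Pth) (a : s.A) (V : Fam) : Fam :=
  fun p => V p \ (s.pts a).image fun o => lz p (y o)

noncomputable def Phi (π : ℕ → ℕ) (K : ℕ) (V : Fam) : ℝ := ∑ i ∈ range K, Real.log (V (π i)).card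

def Gd (π : ℕ → ℕ) (K M : ℕ) (V : Fam) : Finset ℕ :=
  (range K).filter fun i => π i ≤ M * (V (π i)).card

def AvU (π : ℕ → ℕ) (K : ℕ) (y : Pth) : Prop := ∀ t, ∀ i < K, lz (π i) (y t) ≠ 0

lemma upd_zero {π : ℕ → ℕ} {K : ℕ} {y : Pth} (hy : AvU π K y) (s : Smp) (a : s.A) {V : Fam}
    (hV : ∀ i < K, 0 ∈ V (π i)) : ∀ i < K, 0 ∈ upd s y a V (π i) := fun i hi =>
  mem_sdiff.2 ⟨hV i hi, fun h => by
    obtain ⟨o, _, ho⟩ := mem_image.1 h
    exact hy o i hi ho⟩

lemma upd_seq (s t : Smp) (y : Pth) (a : s.A) (b : t.A) (V : Fam) :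
    upd (s.seq t) y (a, b) V = upd t (sh (s.fin a) y) b (upd s y a V) := by
  funext p
  simp only [upd, image_union, image_image, sdiff_sdiff_left, sup_eq_union]
  rfl

lemma upd_ker (s : Smp) (hs : s.n = 0) (y : Pth) (a : s.A) (V : Fam) : upd s y a V = V := by
  funext p
  have : s.pts a = ∅ := card_eq_zero.1 (by rw [s.hn, hs])
  simp [upd, this]

lemma Gd_upd (π : ℕ → ℕ) (K M : ℕ) (s : Smp) (y : Pth) (a : s.A) (V : Fam) :
    ((Gd π K M (upd s y a V)).card : ℝ) ≤ (Gd π K M V).card := by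
  exact_mod_cast card_le_card fun i hi => mem_filter.2 ⟨(mem_filter.1 hi).1,
    le_trans (mem_filter.1 hi).2 (Nat.mul_le_mul_left _ (card_le_card sdiff_subset))⟩

/-- shrinking property with strength `g` -/
def Sh (D : ℕ) (π : ℕ → ℕ) (K M : ℕ) (s : Smp) (g : ℝ) : Prop :=
  ∀ y, IsPath D y → AvU π K y → ∀ V : Fam, (∀ i < K, 0 ∈ V (π i)) →
    ∑ a, s.k y a * (Phi π K (upd s y a V) + g * (Gd π K M (upd s y a V)).card) ≤
      Phi π K V + g * K / 2

lemma Sh.seq {π : ℕ → ℕ} {K M : ℕ} {s t : Smp} {g g' : ℝ} (h : Sh D π K M s g)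
    (h' : Sh D π K M t g') (hg : 0 ≤ g) : Sh D π K M (s.seq t) (g + g') := by
  intro y hy hav V hV
  have h1 := h y hy hav V hV
  rw [sum_ext (s.k y) (fun a => t.k (sh (s.fin a) y)) fun q =>
    Phi π K (upd (s.seq t) y q V) + (g + g') * (Gd π K M (upd (s.seq t) y q V)).card]
  have h2 : ∀ a, ∑ b, t.k (sh (s.fin a) y) b * (Phi π K (upd (s.seq t) y (a, b) V) +
      (g + g') * (Gd π K M (upd (s.seq t) y (a, b) V)).card) ≤
      Phi π K (upd s y a V) + g * (Gd π K M (upd s y a V)).card + g' * K / 2 := by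
    intro a
    have a1 := h' (sh (s.fin a) y) (hy.sh _) (fun t => hav _) _ (upd_zero hav s a hV)
    have a2 : ∑ b, t.k (sh (s.fin a) y) b *
        (g * (Gd π K M (upd t (sh (s.fin a) y) b (upd s y a V))).card) ≤
        ∑ b, t.k (sh (s.fin a) y) b * (g * (Gd π K M (upd s y a V)).card) :=
      sum_le_sum fun b _ => mul_le_mul_of_nonneg_left
        (mul_le_mul_of_nonneg_left (Gd_upd _ _ _ _ _ _ _) hg) ((t.hk _).nn b)
    rw [← sum_mul, (t.hk _).one, one_mul] at a2
    simp only [upd_seq, add_mul, mul_add, sum_add_distrib] at a1 a2 ⊢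
    linarith
  calc _ ≤ ∑ a, s.k y a * (Phi π K (upd s y a V) + g * (Gd π K M (upd s y a V)).card +
        g' * K / 2) := sum_le_sum fun a _ => mul_le_mul_of_nonneg_left (h2 a) ((s.hk y).nn a)
    _ ≤ _ := by
      simp only [mul_add _ _ (g' * K / 2), sum_add_distrib, ← sum_mul, (s.hk y).one, one_mul]
      linarith

lemma Sh.pow2 {π : ℕ → ℕ} {K M : ℕ} {s : Smp} {g : ℝ} (h : Sh D π K M s g) (hg : 0 ≤ g) (n : ℕ) :
    Sh D π K M (s.pow2 n) (2 ^ n * g) := by
  induction n with
  | zero => simpa [Smp.pow2] using h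
  | succ n ih =>
    have := ih.seq ih (by positivity)
    rwa [show 2 ^ n * g + 2 ^ n * g = 2 ^ (n + 1) * g by ring] at this

/-- intensity of the point process of a sampler -/
noncomputable def Smp.inten (t : Smp) (y : Pth) (o : Fin t.span) : ℝ :=
  (∑ a, t.k y a * if (o : ℕ) ∈ t.pts a then 1 else 0) / t.n

lemma sum_inten (t : Smp) (y : Pth) (f : ℕ → ℝ) :
    ∑ o, t.inten y o * f o = (∑ a, t.k y a * ∑ o ∈ t.pts a, f o) / t.n := by
  simp only [Smp.inten, div_mul_eq_mul_div, ← sum_div, sum_mul]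
  rw [sum_comm]
  congr 1
  refine sum_congr rfl fun a _ => ?_
  simp only [mul_assoc, ← mul_sum]
  congr 1
  rw [Fin.sum_univ_eq_sum_range fun o => (if o ∈ t.pts a then (1 : ℝ) else 0) * f o]
  simp only [ite_mul, one_mul, zero_mul]
  rw [← sum_filter, filter_mem_eq_inter, inter_eq_right.2]
  exact fun o ho => mem_range.2 ((t.hpts a o ho).trans_le (t.hfin a))

lemma inten_isP (t : Smp) (ht : 0 < t.n) (y : Pth) : IsP (t.inten y) where
  nn o := div_nonneg (sum_nonneg fun a _ => mul_nonneg ((t.hk y).nn a)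
    (by split_ifs <;> norm_num)) (by positivity)
  one := by
    have := sum_inten t y fun _ => 1
    have h : (t.n : ℝ) ≠ 0 := by exact_mod_cast ht.ne'
    simpa [t.hn, ← sum_mul, (t.hk y).one, h] using this

/-- all points of a sample lie within `d` of each other -/
def Tight (t : Smp) (d : ℕ) : Prop := ∀ a, ∀ o ∈ t.pts a, ∀ o' ∈ t.pts a, o ≤ o' + d

lemma log_upd {y : Pth} (hy : IsPath D y) (t : Smp) {d : ℕ} (ht : Tight t d) (a : t.A) {p : ℕ}
    (hp : p.Prime ∧ p % 4 = 1) (hd : 2 * (D * d) ^ 2 < p) (V : Fam) (h0 : 0 ∈ upd t y a V p) :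
    Real.log (upd t y a V p).card ≤ Real.log (V p).card -
      (∑ o ∈ t.pts a, if lz p (y o) ∈ V p then (1 : ℝ) else 0) / (V p).card := by
  have h1 : (upd t y a V p).card + ((t.pts a).filter fun o => lz p (y o) ∈ V p).card =
      (V p).card := by
    rw [← card_sdiff_add_card_inter (V p) ((t.pts a).image fun o => lz p (y o))]
    congr 1
    rw [← card_image_of_injOn (f := fun o => lz p (y o))]
    · congr 1
      ext c
      simp only [mem_image, mem_filter, mem_inter]
      constructor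
      · rintro ⟨o, ⟨h1, h2⟩, rfl⟩; exact ⟨h2, o, h1, rfl⟩
      · rintro ⟨h2, o, h1, rfl⟩; exact ⟨o, ⟨h1, h2⟩, rfl⟩
    · intro o ho o' ho' e
      have ho := (mem_filter.1 ho).1
      have ho' := (mem_filter.1 ho').1
      by_contra hne
      have a1 := norm_bounds (fun e => hne (hy.inj (sub_eq_zero.1 e)))
        (hy.mem_box (ht a o ho o' ho') (ht a o' ho' o ho))
      have a2 := dvd_norm hp (a := y o - y o') (by rw [lz_sub]; exact sub_eq_zero.2 e)
      have := Nat.le_of_dvd a1.1 a2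
      omega
  have h2 : (0 : ℝ) < (upd t y a V p).card := by exact_mod_cast card_pos.2 ⟨_, h0⟩
  rw [sum_boole]
  have h3 : ((upd t y a V p).card : ℝ) + ((t.pts a).filter fun o => lz p (y o) ∈ V p).card =
      (V p).card := by exact_mod_cast h1
  have h4 : (0 : ℝ) < (V p).card := by
    rw [← h3]; positivity
  have h5 := Real.log_le_sub_one_of_pos (div_pos h2 h4)
  rw [Real.log_div h2.ne' h4.ne'] at h5
  have h6 : ((upd t y a V p).card : ℝ) / (V p).card - 1 =
      -((((t.pts a).filter fun o => lz p (y o) ∈ V p).card : ℝ) / (V p).card) := by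
    field_simp; linarith
  linarith

lemma sh_law (μ : Law D) {π : ℕ → ℕ} {K M Z : ℕ} (hU : Univ π K Z) (hav : ∀ ω, AvU π K (μ.X ω))
    (t : Smp) (ht0 : 0 < t.n) {d : ℕ} (ht : Tight t d) (hd : ∀ i < K, 2 * (D * d) ^ 2 < π i)
    {g : ℝ} (hg : 0 ≤ g) (hg' : ∀ i < K, g * π i ≤ t.n) (V : Fam) (hV : ∀ i < K, 0 ∈ V (π i))
    (hs : ((Gd π K M V).card : ℝ) - K / 2 ≤
      ∑ i ∈ Gd π K M V, π i / (V (π i)).card * μ.hit t.inten (π i) (V (π i))) :
    ∑ ω, μ.w ω * ∑ a, t.k (μ.X ω) a * (Phi π K (upd t (μ.X ω) a V) +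
      g * (Gd π K M (upd t (μ.X ω) a V)).card) ≤ Phi π K V + g * K / 2 := by
  have hn : (0 : ℝ) < t.n := by exact_mod_cast ht0
  have h1 : ∀ ω a, Phi π K (upd t (μ.X ω) a V) + g * (Gd π K M (upd t (μ.X ω) a V)).card ≤
      (Phi π K V + g * (Gd π K M V).card) - ∑ i ∈ Gd π K M V,
        (∑ o ∈ t.pts a, if lz (π i) (μ.X ω o) ∈ V (π i) then (1 : ℝ) else 0) / (V (π i)).card := by
    intro ω a
    have a1 := sum_le_sum fun i (hi : i ∈ range K) =>
      log_upd (μ.path ω) t ht a (hU.prime i (mem_range.1 hi)) (hd i (mem_range.1 hi)) V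
        (upd_zero (hav ω) t a hV i (mem_range.1 hi))
    have a2 : ∑ i ∈ Gd π K M V,
        (∑ o ∈ t.pts a, if lz (π i) (μ.X ω o) ∈ V (π i) then (1 : ℝ) else 0) / (V (π i)).card ≤
        ∑ i ∈ range K,
        (∑ o ∈ t.pts a, if lz (π i) (μ.X ω o) ∈ V (π i) then (1 : ℝ) else 0) / (V (π i)).card :=
      sum_le_sum_of_subset_of_nonneg (filter_subset _ _) fun i _ _ =>
        div_nonneg (sum_nonneg fun _ _ => by split_ifs <;> norm_num) (by positivity)
    have a3 := mul_le_mul_of_nonneg_left (Gd_upd π K M t (μ.X ω) a V) hg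
    rw [sum_sub_distrib] at a1
    unfold Phi
    linarith
  have h2 : ∑ ω, μ.w ω * ∑ a, t.k (μ.X ω) a * ∑ i ∈ Gd π K M V,
      (∑ o ∈ t.pts a, if lz (π i) (μ.X ω o) ∈ V (π i) then (1 : ℝ) else 0) / (V (π i)).card =
      ∑ i ∈ Gd π K M V, t.n / (V (π i)).card * μ.hit t.inten (π i) (V (π i)) := by
    have : ∀ i, t.n / (V (π i)).card * μ.hit t.inten (π i) (V (π i)) =
        ∑ ω, μ.w ω * ∑ a, t.k (μ.X ω) a *
        ((∑ o ∈ t.pts a, if lz (π i) (μ.X ω o) ∈ V (π i) then (1 : ℝ) else 0) / (V (π i)).card) := by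
      intro i
      rw [Law.hit, mul_sum]
      refine sum_congr rfl fun ω _ => ?_
      rw [sum_inten t (μ.X ω) fun o => if lz (π i) (μ.X ω o) ∈ V (π i) then 1 else 0]
      simp only [← mul_div_assoc, ← sum_div]
      field_simp
    simp only [this, mul_sum]
    rw [sum_comm (s := Gd π K M V)]
    refine sum_congr rfl fun ω _ => ?_
    rw [sum_comm (s := Gd π K M V)]
  have h3 : g * ∑ i ∈ Gd π K M V, π i / (V (π i)).card * μ.hit t.inten (π i) (V (π i)) ≤
      ∑ i ∈ Gd π K M V, t.n / (V (π i)).card * μ.hit t.inten (π i) (V (π i)) := by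
    rw [mul_sum]
    refine sum_le_sum fun i hi => ?_
    rw [← mul_assoc, ← mul_div_assoc]
    refine mul_le_mul_of_nonneg_right (div_le_div_of_nonneg_right
      (hg' i (mem_range.1 (mem_filter.1 hi).1)) (by positivity)) ?_
    exact sum_nonneg fun ω _ => mul_nonneg (μ.hw.nn ω) (sum_nonneg fun o _ =>
      mul_nonneg ((inten_isP t ht0 _).nn o) (by split_ifs <;> norm_num))
  have h4 := sum_le_sum fun ω (_ : ω ∈ univ) => mul_le_mul_of_nonneg_left
    (sum_le_sum fun a (_ : a ∈ univ) => mul_le_mul_of_nonneg_left (h1 ω a) ((t.hk (μ.X ω)).nn a))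
    (μ.hw.nn ω)
  simp only [mul_sub, sum_sub_distrib, ← sum_mul, (t.hk _).one, μ.hw.one, one_mul] at h4
  rw [h2] at h4
  have h5 := mul_le_mul_of_nonneg_left hs hg
  linarith

lemma sh_base {π : ℕ → ℕ} {K M Z : ℕ} (hU : Univ π K Z) (κ : Smp) (hκ : κ.n = 0)
    (t : Smp) (ht0 : 0 < t.n) {d : ℕ} (ht : Tight t d) (hd : ∀ i < K, 2 * (D * d) ^ 2 < π i)
    {g : ℝ} (hg : 0 ≤ g) (hg' : ∀ i < K, g * π i ≤ t.n)
    (hs : ∀ (μ : Law D) (V : Fam), ((Gd π K M V).card : ℝ) - K / 2 ≤
      ∑ i ∈ Gd π K M V, π i / (V (π i)).card * (μ.ext κ).hit t.inten (π i) (V (π i))) :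
    Sh D π K M (κ.seq t) g := by
  intro y hy hav V hV
  have := sh_law ((Law.pt y hy).ext κ) hU (fun q t => hav _) t ht0 ht hd hg hg' V hV (hs _ V)
  rw [sum_ext (κ.k y) (fun a => t.k (sh (κ.fin a) y)) fun q =>
    Phi π K (upd (κ.seq t) y q V) + g * (Gd π K M (upd (κ.seq t) y q V)).card]
  simp only [upd_seq, upd_ker κ hκ]
  rw [Fintype.sum_prod_type, Fintype.sum_unique] at this
  simpa only [Lib.FinEnt.ext, one_mul] using this

/-- uniform jump -/
@[reducible] noncomputable def unif (L : ℕ) (hL : 0 < L) : Smp where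
  A := Fin L
  k _ _ := (L : ℝ)⁻¹
  hk _ := ⟨fun _ => by positivity, by
    have : (L : ℝ) ≠ 0 := by exact_mod_cast hL.ne'
    simp [this]⟩
  pts _ := ∅
  n := 0
  hn _ := rfl
  fin a := a
  span := L
  hpts _ _ h := absurd h (by simp)
  hfin a := a.2.le

lemma tight_unif (L : ℕ) (hL : 0 < L) (t : Smp) : Tight ((unif L hL).seq t) t.span := by
  intro a o ho o' ho'
  simp only [empty_union, mem_image] at ho ho'
  obtain ⟨u, hu, rfl⟩ := ho
  obtain ⟨u', _, rfl⟩ := ho'
  have := (t.hpts _ _ hu).trans_le (t.hfin _)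
  omega

lemma inten_unif (L : ℕ) (hL : 0 < L) (t : Smp) (ht : 0 < t.n) (y : Pth)
    (o : Fin ((unif L hL).seq t).span) : ((unif L hL).seq t).inten y o ≤ t.span / L := by
  unfold Smp.inten
  have hn : (1 : ℝ) ≤ ((unif L hL).seq t).n := by
    exact_mod_cast (show 1 ≤ 0 + t.n by omega)
  have hL' : (0 : ℝ) < L := by exact_mod_cast hL
  rw [sum_ext (fun _ : Fin L => (L : ℝ)⁻¹) (fun a => t.k (sh a y)) fun q =>
    if (o : ℕ) ∈ ((unif L hL).seq t).pts q then 1 else 0]
  refine (div_le_self ?_ hn).trans ?_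
  · exact sum_nonneg fun a _ => mul_nonneg (by positivity) (sum_nonneg fun b _ =>
      mul_nonneg ((t.hk _).nn b) (by split_ifs <;> norm_num))
  · rw [← mul_sum, mul_comm, ← div_eq_mul_inv]
    refine div_le_div_of_nonneg_right ?_ hL'.le
    calc _ ≤ ∑ a : Fin L, if (a : ℕ) ∈ Ioc (o - t.span : ℤ).toNat o ∪ {0} ∧ (a : ℕ) ≤ o ∧
            (o : ℕ) < a + t.span then (1 : ℝ) else 0 := by
          refine sum_le_sum fun a _ => ?_
          split_ifs with h
          · calc _ ≤ ∑ b, t.k (sh a y) b * 1 := sum_le_sum fun b _ =>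
                  mul_le_mul_of_nonneg_left (by split_ifs <;> norm_num) ((t.hk _).nn b)
              _ = 1 := by simp [(t.hk _).one]
          · refine le_of_eq (sum_eq_zero fun b _ => ?_)
            rw [if_neg, mul_zero]
            intro ho
            simp only [empty_union, mem_image] at ho
            obtain ⟨u, hu, e⟩ := ho
            have := (t.hpts _ _ hu).trans_le (t.hfin _)
            apply h
            simp only [mem_union, mem_Ioc, mem_singleton]
            omega
      _ ≤ _ := by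
          rw [sum_boole]
          norm_cast
          calc _ ≤ (range t.span).card := by
                refine card_le_card_of_injOn (fun a : Fin L => (o : ℕ) - a) (fun a ha => ?_)
                  fun a ha b hb e => ?_
                · have := (mem_filter.1 ha).2.2
                  simp only [coe_range, Set.mem_Iio]; omega
                · have h1 := (mem_filter.1 ha).2.2
                  have h2 := (mem_filter.1 hb).2.2
                  simp only at e
                  exact Fin.ext (by omega)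
            _ = _ := card_range _

/-- all residues -/
def full : Fam := fun p => (range p).image Nat.cast

lemma full_eq (p : ℕ) [NeZero p] : full p = univ :=
  eq_univ_of_forall fun c => mem_image.2 ⟨c.val, mem_range.2 c.val_lt, ZMod.natCast_zmod_val c⟩

lemma Sh.final {π : ℕ → ℕ} {K M Z : ℕ} (hU : Univ π K Z) {s : Smp} {g : ℝ} (h : Sh D π K M s g)
    (hM : 1 ≤ M) (hg : g ≤ Real.log M) {y : Pth} (hy : IsPath D y) (hav : AvU π K y) :
    ∑ a, s.k y a * Phi π K (upd s y a full) ≤ ∑ i ∈ range K, Real.log (π i) - g * K / 4 := by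
  have hne : ∀ i < K, NeZero (π i) := fun i hi => ⟨(hU.prime i hi).1.ne_zero⟩
  have h0 : ∀ i < K, 0 ∈ full (π i) := fun i hi => by
    have := hne i hi
    rw [full_eq]; exact mem_univ _
  have h1 := h y hy hav full h0
  have h2 : Phi π K full = ∑ i ∈ range K, Real.log (π i) := sum_congr rfl fun i hi => by
    have := hne i (mem_range.1 hi)
    rw [full_eq, card_univ, ZMod.card]
  have hM' : (0 : ℝ) < M := by exact_mod_cast hM
  have h3 : ∀ a, Phi π K (upd s y a full) - g * (Gd π K M (upd s y a full)).card ≤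
      ∑ i ∈ range K, Real.log (π i) - g * K := by
    intro a
    have a1 : ∀ i ∈ range K, Real.log (upd s y a full (π i)).card -
        g * (if π i ≤ M * (upd s y a full (π i)).card then 1 else 0) ≤ Real.log (π i) - g := by
      intro i hi
      have := hne i (mem_range.1 hi)
      have b1 : (0 : ℝ) < (upd s y a full (π i)).card := by
        exact_mod_cast card_pos.2 ⟨_, upd_zero hav s a h0 i (mem_range.1 hi)⟩
      split_ifs with hc
      · have b2 : ((upd s y a full (π i)).card : ℝ) ≤ π i := by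
          exact_mod_cast (card_le_univ _).trans (ZMod.card _).le
        have := Real.log_le_log b1 b2
        linarith
      · have b2 : (M : ℝ) * (upd s y a full (π i)).card ≤ π i := by exact_mod_cast (not_le.1 hc).le
        have := Real.log_le_log (mul_pos hM' b1) b2
        rw [Real.log_mul hM'.ne' b1.ne'] at this
        linarith
    have a2 := sum_le_sum a1
    rw [sum_sub_distrib, sum_sub_distrib, ← mul_sum, sum_boole, sum_const, card_range,
      nsmul_eq_mul] at a2
    unfold Phi Gd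
    linarith
  have h4 := sum_le_sum fun a (_ : a ∈ univ) => mul_le_mul_of_nonneg_left (h3 a) ((s.hk y).nn a)
  rw [← sum_mul, (s.hk y).one, one_mul] at h4
  simp only [mul_add, mul_sub, sum_add_distrib, sum_sub_distrib] at h1 h4
  linarith

lemma HY_le (μ : Law D) (P : Finset ℕ) (hP : ∀ p ∈ P, 0 < p) : μ.HY P ≤ ∑ p ∈ P, Real.log p := by
  refine (H_le_sum μ.hw P (fun p ω => res {p} (μ.X ω 0)) _ fun q q' e => res_eq_iff.2 fun p hp =>
    res_eq_iff.1 (e p hp) p (mem_singleton_self p)).trans (sum_le_sum fun p hp => ?_)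
  have : NeZero p := ⟨(hP p hp).ne'⟩
  have a2 := H_le_log_card μ.hw (fun q => lz p (μ.X q 0)) univ fun _ => mem_univ _
  rw [card_univ, ZMod.card] at a2
  refine le_trans (H_mono μ.hw fun q q' e => res_eq_iff.2 fun p' hp' => ?_) a2
  rw [mem_singleton.1 hp']; exact e

/-- entropy gain from one block of primes -/
theorem gain (μ : Law D) {π : ℕ → ℕ} {n k M Z : ℕ} (hU : Univ π (n * k) Z) {s : Smp} {g : ℝ}
    (h : Sh D π (n * k) M s g) (hM : 1 ≤ M) (hg : g ≤ Real.log M)
    (hav : ∀ ω, AvU π (n * k) (μ.X ω)) (P P' : Finset ℕ) (hP : ∀ p ∈ P, 0 < p) (hPP : P ⊆ P')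
    (hP' : ∀ i < n * k, π i ∈ P') :
    n * μ.F s P' ≤ n * μ.F s P - g * (n * k : ℕ) / 4 + μ.Def π k n + n * ∑ p ∈ P, Real.log p := by
  have hw := (μ.ext s).hw
  set w := (μ.ext s).w with hwd
  set I : μ.Ω × s.A → _ := fun q => s.info (μ.X q.1) q.2 with hI
  set Y : Finset ℕ → μ.Ω × s.A → _ := fun S q => res S (μ.X q.1 0) with hY
  set φ : ℕ → ℝ := fun p => ∑ q, w q * Real.log (upd s (μ.X q.1) q.2 full p).card with hφ
  have hYe : ∀ S, H w (Y S) = μ.HY S := fun S => (push_ext μ s).H_eq fun ω => res S (μ.X ω 0)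
  have h1 : ∀ i < n * k, Hc w (Y {π i}) I ≤ φ (π i) := by
    intro i hi
    have : NeZero (π i) := ⟨(hU.prime i hi).1.ne_zero⟩
    have a1 := Hc_le_log_card hw (fun q => lz (π i) (μ.X q.1 0)) I
      (fun q => univ \ (I q).1.image fun r => -lz (π i) r) (fun q q' e => by simp only [e])
      (fun q => mem_sdiff.2 ⟨mem_univ _, fun hq => by
        simp only [hI, Smp.info, image_image, mem_image, Function.comp, lz_sub] at hq
        obtain ⟨o, _, ho⟩ := hq
        exact hav q.1 o i hi (by linear_combination -ho)⟩)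
    have a2 : ∀ q : μ.Ω × s.A, (univ \ (I q).1.image fun r => -lz (π i) r).card =
        (upd s (μ.X q.1) q.2 full (π i)).card := by
      intro q
      rw [upd, full_eq, card_univ_sdiff, card_univ_sdiff]
      congr 1
      rw [← card_image_of_injective ((s.pts q.2).image fun o => lz (π i) (μ.X q.1 o))
        (sub_right_injective (b := lz (π i) (μ.X q.1 0)))]
      simp only [hI, Smp.info, image_image]
      congr 2
      funext o
      simp [lz_sub]
    simp only [a2] at a1
    refine le_trans (Hc_mono_left hw fun q q' e => res_eq_iff.2 fun p' hp' => ?_) a1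
    rw [mem_singleton.1 hp']; exact congrArg Prod.fst e
  have h2 : ∀ a ∈ range n, μ.F s P' ≤ μ.F s P - μ.HY (node π k a) + μ.HY P +
      ∑ p ∈ node π k a, φ p := by
    intro a ha
    have ha := mem_range.1 ha
    set S := node π k a
    have a1 : μ.F s P' ≤ Hc w I fun q => (Y S q, Y P q) :=
      Hc_mono_right hw I fun q q' e => Prod.ext
        (res_eq_iff.2 fun p hp => res_eq_iff.1 e p (by
          obtain ⟨i, hi, rfl⟩ := mem_node ha hp
          exact hP' i hi))
        (res_eq_iff.2 fun p hp => res_eq_iff.1 e p (hPP hp))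
    have a2 := Hc_chain hw I (Y S) (Y P)
    have a3 := Hc_chain hw (Y S) I (Y P)
    have a4 : Hc w (fun q => (Y S q, I q)) (Y P) ≤ Hc w (fun q => (I q, Y S q)) (Y P) :=
      Hc_mono_left hw fun q q' e => by
        simp only [Prod.mk.injEq] at e ⊢; exact ⟨e.1.2, e.1.1⟩
    have a5 := H_sub_le_Hc hw (Y S) (Y P)
    have a6 : Hc w (Y S) (fun q => (I q, Y P q)) ≤ Hc w (Y S) I :=
      Hc_mono_right hw _ fun q q' e => congrArg Prod.fst e
    have a7 := Hc_le_sum hw S (fun p => Y {p}) I (Y S) fun q q' e => res_eq_iff.2 fun p hp =>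
      res_eq_iff.1 (e p hp) p (mem_singleton_self p)
    have a8 : ∑ p ∈ S, Hc w (Y {p}) I ≤ ∑ p ∈ S, φ p := sum_le_sum fun p hp => by
      obtain ⟨i, hi, rfl⟩ := mem_node ha hp
      exact h1 i hi
    have a9 : μ.F s P = Hc w I (Y P) := rfl
    rw [hYe, hYe] at a5
    linarith
  have h3 := sum_le_sum h2
  rw [sum_add_distrib, sum_add_distrib, sum_sub_distrib, sum_nodes hU] at h3
  simp only [sum_const, card_range, nsmul_eq_mul] at h3
  have h4 : ∑ i ∈ range (n * k), φ (π i) ≤
      ∑ i ∈ range (n * k), Real.log (π i) - g * (n * k : ℕ) / 4 := by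
    simp only [hφ]
    rw [sum_comm]
    simp only [← mul_sum]
    rw [sum_ext μ.w (fun ω => s.k (μ.X ω)) fun q =>
      ∑ i ∈ range (n * k), Real.log (upd s (μ.X q.1) q.2 full (π i)).card]
    calc _ ≤ ∑ ω, μ.w ω * (∑ i ∈ range (n * k), Real.log (π i) - g * (n * k : ℕ) / 4) :=
          sum_le_sum fun ω _ => mul_le_mul_of_nonneg_left
            (h.final hU hM hg (μ.path ω) (hav ω)) (μ.hw.nn ω)
      _ = _ := by rw [← sum_mul, μ.hw.one, one_mul]
  have h5 := mul_le_mul_of_nonneg_left (HY_le μ P hP) (Nat.cast_nonneg (α := ℝ) n)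
  unfold Law.Def
  linarith

end Crest.Agent.R2
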