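import Crest.Agent.R2.Defs
import Crest.Agent.Lib.FinEnt

/-! Samplers of points along a random lattice path, and the entropy of what they see. -/

set_option autoImplicit false

namespace Crest.Agent.R2

open Finset Crest.Agent.Lib.FinEnt

abbrev Pth := ℕ → ℤ × ℤ

/-- shifted path -/
def sh (n : ℕ) (y : Pth) : Pth := fun o => y (n + o)

lemma sh_sh (a b : ℕ) (y : Pth) : sh a (sh b y) = sh (b + a) y := by
  funext o; simp [sh, add_assoc]

lemma sh_zero (y : Pth) : sh 0 y = y := by funext o; simp [sh]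

lemma IsPath.sh {D : ℕ} {y : Pth} (h : IsPath D y) (n : ℕ) : IsPath D (sh n y) where
  inj a b e := by have := h.inj e; omega
  step1 t := h.step1 (n + t)
  step2 t := h.step2 (n + t)

lemma IsPath.disp {D : ℕ} {y : Pth} (h : IsPath D y) (a n : ℕ) :
    |(y (a + n)).1 - (y a).1| ≤ D * n ∧ |(y (a + n)).2 - (y a).2| ≤ D * n := by
  induction n with
  | zero => simp
  | succ n ih =>
    have h1 := h.step1 (a + n)
    have h2 := h.step2 (a + n)
    rw [abs_le] at h1 h2
    rw [abs_le, abs_le] at ih ⊢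
    rw [← add_assoc]
    push_cast
    refine ⟨⟨?_, ?_⟩, ?_, ?_⟩ <;> nlinarith [ih.1.1, ih.1.2, ih.2.1, ih.2.2]

/-- the box `[-r, r]²` -/
noncomputable def box (r : ℕ) : Finset (ℤ × ℤ) := Icc (-(r : ℤ)) r ×ˢ Icc (-(r : ℤ)) r

lemma card_box (r : ℕ) : (box r).card = (2 * r + 1) ^ 2 := by
  rw [box, card_product, Int.card_Icc, sq]
  have : ((r : ℤ) + 1 - -(r : ℤ)).toNat = 2 * r + 1 := by omega
  rw [this]

lemma mem_box {r : ℕ} {a : ℤ × ℤ} : a ∈ box r ↔ |a.1| ≤ r ∧ |a.2| ≤ r := by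
  simp [box, abs_le]

lemma IsPath.mem_box {D : ℕ} {y : Pth} (h : IsPath D y) {s s' l : ℕ} (h1 : s ≤ s' + l)
    (h2 : s' ≤ s + l) : y s - y s' ∈ box (D * l) := by
  rw [R2.mem_box]
  have hD : (0 : ℤ) ≤ D := by positivity
  rcases le_total s s' with h3 | h3
  · obtain ⟨n, rfl⟩ := Nat.exists_eq_add_of_le h3
    have := h.disp s n
    have hn : (n : ℤ) ≤ l := by exact_mod_cast (by omega : n ≤ l)
    have := mul_le_mul_of_nonneg_left hn hD
    rw [Prod.fst_sub, Prod.snd_sub, abs_sub_comm, abs_sub_comm (y s).2]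
    push_cast; constructor <;> linarith
  · obtain ⟨n, rfl⟩ := Nat.exists_eq_add_of_le h3
    have := h.disp s' n
    have hn : (n : ℤ) ≤ l := by exact_mod_cast (by omega : n ≤ l)
    have := mul_le_mul_of_nonneg_left hn hD
    rw [Prod.fst_sub, Prod.snd_sub]
    push_cast; constructor <;> linarith

/-- entropy cost of a displacement over at most `l` steps -/
noncomputable def Bc (D l : ℕ) : ℝ := 2 * Real.log (2 * D * l + 1)

lemma Bc_nonneg (D l : ℕ) : 0 ≤ Bc D l :=
  mul_nonneg (by norm_num) (Real.log_nonneg (by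
    have : (0 : ℝ) ≤ 2 * D * l := by positivity
    linarith))

lemma Bc_zero (D : ℕ) : Bc D 0 = 0 := by simp [Bc]

lemma Bc_mono (D : ℕ) {l l' : ℕ} (h : l ≤ l') : Bc D l ≤ Bc D l' := by
  unfold Bc
  have : (l : ℝ) ≤ l' := by exact_mod_cast h
  gcongr

lemma Bc_add (D l l' : ℕ) : Bc D (l + l') ≤ Bc D l + Bc D l' := by
  unfold Bc
  rw [← mul_add, ← Real.log_mul (by positivity) (by positivity)]
  gcongr
  push_cast
  have : (0 : ℝ) ≤ (2 * D * l) * (2 * D * l') := by positivity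
  nlinarith

lemma Bc_mul (D c l : ℕ) (hc : 1 ≤ c) : Bc D (c * l) ≤ Bc D l + 2 * Real.log c := by
  unfold Bc
  have h1 : (1 : ℝ) ≤ c := by exact_mod_cast hc
  rw [← mul_add, ← Real.log_mul (by positivity) (by positivity)]
  gcongr
  push_cast
  nlinarith

lemma H_box {Ω : Type*} [Fintype Ω] {w : Ω → ℝ} (hw : IsP w) (D l : ℕ) (f : Ω → ℤ × ℤ)
    (hf : ∀ ω, f ω ∈ box (D * l)) : H w f ≤ Bc D l := by
  refine (H_le_log_card hw f _ hf).trans (le_of_eq ?_)
  rw [card_box, Bc]; push_cast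
  rw [Real.log_pow]; push_cast; ring_nf

/-- residue of a lattice point modulo a prime above `p` -/
noncomputable def lz (p : ℕ) (a : ℤ × ℤ) : ZMod p := (lin p a : ℤ)

lemma lz_add (p : ℕ) (a b : ℤ × ℤ) : lz p (a + b) = lz p a + lz p b := by
  simp only [lz, lin, Prod.fst_add, Prod.snd_add]; push_cast; ring

lemma lz_sub (p : ℕ) (a b : ℤ × ℤ) : lz p (a - b) = lz p a - lz p b := by
  simp only [lz, lin, Prod.fst_sub, Prod.snd_sub]; push_cast; ring

lemma lz_eq_zero {p : ℕ} {a : ℤ × ℤ} : lz p a = 0 ↔ (p : ℤ) ∣ lin p a :=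
  ZMod.intCast_zmod_eq_zero_iff_dvd _ _

lemma lz_eq_iff {p : ℕ} {a b : ℤ × ℤ} : lz p a = lz p b ↔ (p : ℤ) ∣ lin p (a - b) := by
  rw [← lz_eq_zero, lz_sub, sub_eq_zero]

/-- residues modulo all primes of `S` -/
noncomputable def res (S : Finset ℕ) (a : ℤ × ℤ) : (p : ℕ) → ZMod p :=
  fun p => if p ∈ S then lz p a else 0

lemma res_eq_iff {S : Finset ℕ} {a b : ℤ × ℤ} :
    res S a = res S b ↔ ∀ p ∈ S, lz p a = lz p b := by
  constructor
  · intro h p hp
    have := congrFun h p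
    simpa only [res, if_pos hp] using this
  · intro h; funext p
    simp only [res]; split_ifs with hp; exacts [h p hp, rfl]

/-- the path avoids the sieve -/
def Avoid (P : Finset ℕ) (y : Pth) : Prop := ∀ t, ∀ p ∈ P, lz p (y t) ≠ 0

/-- a sampler: a path-dependent kernel choosing offsets of `n` points and an end time -/
structure Smp where
  A : Type
  [fA : Fintype A]
  k : Pth → A → ℝ
  hk : ∀ y, IsP (k y)
  pts : A → Finset ℕ
  n : ℕ
  hn : ∀ a, (pts a).card = n
  fin : A → ℕ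
  span : ℕ
  hpts : ∀ a, ∀ o ∈ pts a, o < fin a
  hfin : ∀ a, fin a ≤ span

attribute [instance] Smp.fA

/-- a random path -/
structure Law (D : ℕ) where
  Ω : Type
  [fΩ : Fintype Ω]
  w : Ω → ℝ
  hw : IsP w
  X : Ω → Pth
  path : ∀ ω, IsPath D (X ω)

attribute [instance] Law.fΩ

variable {D : ℕ}

def Law.Av (μ : Law D) (P : Finset ℕ) : Prop := ∀ ω, Avoid P (μ.X ω)

/-- run a sampler and move to its end time -/
@[reducible] def Law.ext (μ : Law D) (s : Smp) : Law D where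
  Ω := μ.Ω × s.A
  w := Lib.FinEnt.ext μ.w fun ω => s.k (μ.X ω)
  hw := μ.hw.ext fun _ => s.hk _
  X q := sh (s.fin q.2) (μ.X q.1)
  path q := (μ.path q.1).sh _

lemma Law.Av.ext {μ : Law D} {P : Finset ℕ} (h : μ.Av P) (s : Smp) : (μ.ext s).Av P :=
  fun q _ => h q.1 _

lemma Law.Av.mono {μ : Law D} {P Q : Finset ℕ} (h : μ.Av P) (hQ : Q ⊆ P) : μ.Av Q :=
  fun ω t p hp => h ω t p (hQ hp)

/-- a deterministic path -/
@[reducible] def Law.pt (y : Pth) (h : IsPath D y) : Law D where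
  Ω := Unit
  w _ := 1
  hw := ⟨fun _ => zero_le_one, by simp⟩
  X _ := y
  path _ := h

/-- what a sampler sees: relative positions of its points and of its end point -/
def Smp.info (s : Smp) (y : Pth) (a : s.A) : Finset (ℤ × ℤ) × (ℤ × ℤ) :=
  ((s.pts a).image fun o => y o - y 0, y (s.fin a) - y 0)

/-- conditional entropy of the sample given the residues of the starting point -/
noncomputable def Law.F (μ : Law D) (s : Smp) (P : Finset ℕ) : ℝ :=
  Hc (μ.ext s).w (fun q : μ.Ω × s.A => s.info (μ.X q.1) q.2) (fun q => res P (μ.X q.1 0))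

/-- entropy of the residues of the starting point -/
noncomputable def Law.HY (μ : Law D) (S : Finset ℕ) : ℝ := H μ.w fun ω => res S (μ.X ω 0)

/-- sequential composition -/
@[reducible] def Smp.seq (s t : Smp) : Smp where
  A := s.A × t.A
  k y := Lib.FinEnt.ext (s.k y) fun a => t.k (sh (s.fin a) y)
  hk y := (s.hk y).ext fun _ => t.hk _
  pts q := s.pts q.1 ∪ (t.pts q.2).image (s.fin q.1 + ·)
  n := s.n + t.n
  hn q := by
    rw [card_union_of_disjoint, card_image_of_injective _ (add_right_injective _), s.hn, t.hn]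
    rw [disjoint_left]
    intro o ho ho'
    obtain ⟨o', _, rfl⟩ := mem_image.1 ho'
    have := s.hpts _ _ ho
    omega
  fin q := s.fin q.1 + t.fin q.2
  span := s.span + t.span
  hpts q o ho := by
    rcases mem_union.1 ho with h | h
    · have := s.hpts _ _ h; omega
    · obtain ⟨o', h', rfl⟩ := mem_image.1 h
      have := t.hpts _ _ h'; omega
  hfin q := add_le_add (s.hfin _) (t.hfin _)

lemma push_assoc (μ : Law D) (s t : Smp) :
    Push ((μ.ext s).ext t).w (μ.ext (s.seq t)).w (Equiv.prodAssoc μ.Ω s.A t.A) :=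
  push_equiv _ fun q => by
    change μ.w q.1.1 * s.k (μ.X q.1.1) q.1.2 * t.k (sh (s.fin q.1.2) (μ.X q.1.1)) q.2 =
      μ.w q.1.1 * (s.k (μ.X q.1.1) q.1.2 * t.k (sh (s.fin q.1.2) (μ.X q.1.1)) q.2)
    ring

lemma push_ext (μ : Law D) (s : Smp) : Push (μ.ext s).w μ.w (Prod.fst : μ.Ω × s.A → μ.Ω) :=
  push_fst fun _ => s.hk _

lemma HY_seq (μ : Law D) (s t : Smp) (S : Finset ℕ) :
    (μ.ext (s.seq t)).HY S = ((μ.ext s).ext t).HY S := by
  unfold Law.HY
  rw [← (push_assoc μ s t).H_eq]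
  refine congrArg (H _) (funext fun q => ?_)
  change res S (sh (s.fin q.1.2 + t.fin q.2) (μ.X q.1.1) 0) =
    res S (sh (t.fin q.2) (sh (s.fin q.1.2) (μ.X q.1.1)) 0)
  rw [sh_sh]

lemma F_nonneg (μ : Law D) (s : Smp) (P : Finset ℕ) : 0 ≤ μ.F s P := Hc_nonneg (μ.ext s).hw _ _

lemma F_seq (μ : Law D) (s t : Smp) (P : Finset ℕ) :
    μ.F (s.seq t) P ≤ μ.F s P + (μ.ext s).F t P := by
  unfold Law.F
  rw [← (push_assoc μ s t).Hc_eq, ← (push_ext (μ.ext s) t).Hc_eq]
  have hw := ((μ.ext s).ext t).hw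
  set I1 : (μ.Ω × s.A) × t.A → _ := fun q => s.info (μ.X q.1.1) q.1.2 with hI1
  set I2 : (μ.Ω × s.A) × t.A → _ := fun q => t.info (sh (s.fin q.1.2) (μ.X q.1.1)) q.2 with hI2
  set Y1 : (μ.Ω × s.A) × t.A → _ := fun q => res P (μ.X q.1.1 0) with hY1
  set Y2 : (μ.Ω × s.A) × t.A → _ := fun q => res P (sh (s.fin q.1.2) (μ.X q.1.1) 0) with hY2
  have h1 := Hc_chain hw I1 I2 Y1
  have h2 : Hc ((μ.ext s).ext t).w I2 (fun q => (I1 q, Y1 q)) ≤ Hc ((μ.ext s).ext t).w I2 Y2 := by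
    refine Hc_mono_right hw I2 fun q q' e => ?_
    simp only [hI1, hY1, hY2, Smp.info, Prod.mk.injEq, res_eq_iff, sh, add_zero] at e ⊢
    intro p hp
    have a1 := congrArg (lz p) e.1.2
    have a2 := e.2 p hp
    rw [lz_sub, lz_sub] at a1
    linear_combination a1 + a2
  have h3 : Hc ((μ.ext s).ext t).w (fun q : (μ.Ω × s.A) × t.A =>
      (s.seq t).info (μ.X q.1.1) (q.1.2, q.2)) Y1 ≤
      Hc ((μ.ext s).ext t).w (fun q => (I1 q, I2 q)) Y1 := by
    refine Hc_mono_left hw fun q q' e => ?_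
    have key : ∀ q : (μ.Ω × s.A) × t.A, (s.seq t).info (μ.X q.1.1) (q.1.2, q.2) =
        ((I1 q).1 ∪ (I2 q).1.image ((I1 q).2 + ·), (I1 q).2 + (I2 q).2) := by
      intro q
      simp only [hI1, hI2, Smp.info, sh, image_union, image_image, add_zero]
      refine Prod.ext ?_ ?_
      · simp only
        congr 2
        funext o; simp
      · simp
    simp only [Prod.mk.injEq] at e
    simp only [key, e.1.1, e.1.2]
  exact h3.trans (by rw [h1]; exact add_le_add le_rfl h2)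

lemma HY_shift (μ : Law D) (s : Smp) (S : Finset ℕ) :
    μ.HY S - Bc D s.span ≤ (μ.ext s).HY S := by
  unfold Law.HY
  rw [← (push_ext μ s).H_eq]
  have hw := (μ.ext s).hw
  have h1 := H_box hw D s.span (fun q : μ.Ω × s.A => μ.X q.1 (s.fin q.2) - μ.X q.1 0)
    fun q => (μ.path q.1).mem_box (by simpa using s.hfin _) (by omega)
  have h2 := H_pair_le hw (fun q : μ.Ω × s.A => res S ((μ.ext s).X q 0))
    (fun q : μ.Ω × s.A => μ.X q.1 (s.fin q.2) - μ.X q.1 0)
  have h3 : H (μ.ext s).w (fun q : μ.Ω × s.A => res S (μ.X q.1 0)) ≤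
      H (μ.ext s).w (fun q : μ.Ω × s.A =>
        (res S ((μ.ext s).X q 0), μ.X q.1 (s.fin q.2) - μ.X q.1 0)) := by
    refine H_mono hw fun q q' e => ?_
    simp only [Prod.mk.injEq, res_eq_iff, sh, add_zero] at e ⊢
    intro p hp
    have a1 := congrArg (lz p) e.2
    have a2 := e.1 p hp
    rw [lz_sub, lz_sub] at a1
    linear_combination a2 - a1
  linarith

/-- a sampler whose point set is constant `{0}` or empty costs only its displacement -/
lemma F_ker (μ : Law D) (s : Smp) (P : Finset ℕ) (c : Finset ℕ) (hc : c ⊆ {0})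
    (hs : ∀ a, s.pts a = c) : μ.F s P ≤ Bc D s.span := by
  unfold Law.F
  have hw := (μ.ext s).hw
  have h1 := H_box hw D s.span (fun q : μ.Ω × s.A => μ.X q.1 (s.fin q.2) - μ.X q.1 0)
    fun q => (μ.path q.1).mem_box (by simpa using s.hfin _) (by omega)
  refine (Hc_le_H hw _ _).trans (le_trans (H_mono hw fun q q' e => ?_) h1)
  simp only [Smp.info, hs, Prod.mk.injEq] at e ⊢
  refine ⟨image_congr fun o ho => ?_, e⟩
  have := mem_singleton.1 (hc (mem_coe.1 ho))
  simp [this]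

lemma F_ker0 (μ : Law D) (s : Smp) (P : Finset ℕ) (hs : s.n = 0) : μ.F s P ≤ Bc D s.span :=
  F_ker μ s P ∅ (empty_subset _) fun a => card_eq_zero.1 (by rw [s.hn, hs])

/-- the sampler doing nothing -/
@[reducible] def Smp.null : Smp where
  A := Unit
  k _ _ := 1
  hk _ := ⟨fun _ => zero_le_one, by simp⟩
  pts _ := ∅
  n := 0
  hn _ := rfl
  fin _ := 0
  span := 0
  hpts _ _ h := absurd h (by simp)
  hfin _ := le_rfl

/-- the sampler taking one point -/
@[reducible] def Smp.unit : Smp where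
  A := Unit
  k _ _ := 1
  hk _ := ⟨fun _ => zero_le_one, by simp⟩
  pts _ := {0}
  n := 1
  hn _ := rfl
  fin _ := 1
  span := 1
  hpts _ _ h := by simpa using h
  hfin _ := le_rfl

/-- `2 ^ h` consecutive copies -/
def Smp.pow2 (s : Smp) : ℕ → Smp
  | 0 => s
  | h + 1 => (s.pow2 h).seq (s.pow2 h)

lemma pow2_n (s : Smp) (h : ℕ) : (s.pow2 h).n = 2 ^ h * s.n := by
  induction h with
  | zero => simp [Smp.pow2]
  | succ h ih => change (s.pow2 h).n + (s.pow2 h).n = _; rw [ih]; ring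

lemma pow2_span (s : Smp) (h : ℕ) : (s.pow2 h).span = 2 ^ h * s.span := by
  induction h with
  | zero => simp [Smp.pow2]
  | succ h ih => change (s.pow2 h).span + (s.pow2 h).span = _; rw [ih]; ring

/-- uniform entropy bound for a sampler -/
def Ent (D : ℕ) (s : Smp) (P : Finset ℕ) (e : ℝ) : Prop :=
  ∀ μ : Law D, μ.Av P → μ.F s P ≤ e

lemma Ent.seq {s t : Smp} {P : Finset ℕ} {e e' : ℝ} (h : Ent D s P e) (h' : Ent D t P e') :
    Ent D (s.seq t) P (e + e') := fun μ hμ =>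
  (F_seq μ s t P).trans (add_le_add (h μ hμ) (h' _ (hμ.ext s)))

lemma Ent.pow2 {s : Smp} {P : Finset ℕ} {e : ℝ} (h : Ent D s P e) (n : ℕ) :
    Ent D (s.pow2 n) P (2 ^ n * e) := by
  induction n with
  | zero => simpa [Smp.pow2] using h
  | succ n ih => have := ih.seq ih; rwa [show 2 ^ n * e + 2 ^ n * e = 2 ^ (n + 1) * e by ring] at this

lemma ent_ker (s : Smp) (P : Finset ℕ) (hs : s.n = 0) : Ent D s P (Bc D s.span) :=
  fun μ _ => F_ker0 μ s P hs

lemma ent_unit : Ent D Smp.unit ∅ (Bc D 1) :=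
  fun μ _ => F_ker μ Smp.unit ∅ {0} subset_rfl fun _ => rfl

lemma core_of_ent {s : Smp} {P : Finset ℕ} {e : ℝ} (h : Ent D s P e) (he : e < 0)
    (hP : ∀ p ∈ P, p.Prime ∧ p % 4 = 1) : Core D := by
  refine ⟨P, hP, fun x hx => ?_⟩
  by_contra hc
  push Not at hc
  have := h (Law.pt x hx) fun _ t p hp h0 => hc t p hp (lz_eq_zero.1 h0)
  have := F_nonneg (Law.pt x hx) s P
  linarith

end Crest.Agent.R2
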