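import Crest.Agent.R2.Equi

/-! Spread lemma: a point sampled after an equidistributed start hits sets of residues. -/

set_option autoImplicit false

namespace Crest.Agent.R2

open Finset Crest.Agent.Lib.FinEnt

variable {D : ℕ}

section pi
variable {A : Type} [Fintype A] {Q : A → ℝ} {M : ℕ}

/-- iid weights -/
def piw (Q : A → ℝ) (M : ℕ) (a : Fin M → A) : ℝ := ∏ j, Q (a j)

lemma sum_pi (Q : A → ℝ) (h : Fin M → A → ℝ) :
    ∑ a, piw Q M a * ∏ j, h j (a j) = ∏ j, ∑ o, Q o * h j o := by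
  classical
  rw [prod_univ_sum, Fintype.piFinset_univ]
  simp only [piw, prod_mul_distrib]

lemma piw_isP (hQ : IsP Q) (M : ℕ) : IsP (piw Q M) where
  nn a := prod_nonneg fun j _ => hQ.nn _
  one := by simpa [hQ.one] using sum_pi (M := M) Q fun _ _ => 1

lemma sum_pi_one (hQ : IsP Q) (j : Fin M) (φ : A → ℝ) :
    ∑ a, piw Q M a * φ (a j) = ∑ o, Q o * φ o := by
  have := sum_pi Q fun i o => if i = j then φ o else 1
  simp only [prod_ite_eq', mem_univ, if_true] at this
  rw [this]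
  have h2 : ∀ i, ∑ o, Q o * (if i = j then φ o else 1) = if i = j then ∑ o, Q o * φ o else 1 := by
    intro i; split_ifs <;> simp [hQ.one]
  simp only [h2, prod_ite_eq', mem_univ, if_true]

lemma sum_pi_two (hQ : IsP Q) {j j' : Fin M} (hj : j ≠ j') (φ ψ : A → ℝ) :
    ∑ a, piw Q M a * (φ (a j) * ψ (a j')) = (∑ o, Q o * φ o) * ∑ o, Q o * ψ o := by
  have := sum_pi Q fun i o => (if i = j then φ o else 1) * (if i = j' then ψ o else 1)
  simp only [prod_mul_distrib, prod_ite_eq', mem_univ, if_true] at this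
  rw [this]
  have h2 : ∀ i, ∑ o, Q o * ((if i = j then φ o else 1) * (if i = j' then ψ o else 1)) =
      (if i = j then ∑ o, Q o * φ o else 1) * (if i = j' then ∑ o, Q o * ψ o else 1) := by
    intro i
    by_cases h1 : i = j
    · have : i ≠ j' := h1 ▸ hj
      simp [h1, hj]
    · by_cases h2 : i = j' <;> simp [h1, h2, hQ.one, hj.symm]
  simp only [h2, prod_mul_distrib, prod_ite_eq', mem_univ, if_true]

end pi

lemma exp_neg_le {u : ℝ} (hu : 0 ≤ u) : Real.exp (-u) ≤ 1 - u + u ^ 2 / 2 := by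
  have h1 := Real.quadratic_le_exp_of_nonneg hu
  rw [Real.exp_neg, inv_le_iff_one_le_mul₀ (Real.exp_pos u)]
  have h2 : 0 ≤ 1 - u + u ^ 2 / 2 := by nlinarith [sq_nonneg (u - 1)]
  calc (1 : ℝ) ≤ (1 - u + u ^ 2 / 2) * (1 + u + u ^ 2 / 2) := by nlinarith [sq_nonneg (u ^ 2)]
    _ ≤ _ := mul_le_mul_of_nonneg_left h1 h2

lemma logZ_le {p : ℕ} [NeZero p] (f : ZMod p → ℝ) (f0 : ∀ y, 0 ≤ f y) (hf : ∑ y, f y = p)
    {s : ℝ} (hs : 0 ≤ s) :
    Real.log (∑ y, Real.exp (-(s * f y))) ≤ Real.log p - s + s ^ 2 / 2 * ((∑ y, f y ^ 2) / p) := by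
  have hp : (0 : ℝ) < p := by exact_mod_cast Nat.pos_of_neZero p
  have hZ : 0 < ∑ y, Real.exp (-(s * f y)) := sum_pos (fun _ _ => Real.exp_pos _) univ_nonempty
  have h1 : ∑ y, Real.exp (-(s * f y)) ≤ ∑ y, (1 - s * f y + s ^ 2 / 2 * f y ^ 2) :=
    sum_le_sum fun y _ => (exp_neg_le (mul_nonneg hs (f0 y))).trans (le_of_eq (by ring))
  rw [sum_add_distrib, sum_sub_distrib, ← mul_sum, ← mul_sum, hf] at h1
  simp only [sum_const, card_univ, ZMod.card, nsmul_eq_mul, mul_one] at h1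
  have h2 := Real.log_le_sub_one_of_pos (div_pos hZ hp)
  rw [Real.log_div hZ.ne' hp.ne'] at h2
  have h3 : (∑ y, Real.exp (-(s * f y))) / p ≤ 1 - s + s ^ 2 / 2 * ((∑ y, f y ^ 2) / p) := by
    rw [div_le_iff₀ hp]
    refine h1.trans (le_of_eq ?_)
    field_simp
  linarith

/-- collision probability -/
noncomputable def coll {A β : Type} [Fintype A] (Q : A → ℝ) (R : A → β) : ℝ :=
  ∑ o, Q o * pr Q R (R o)

lemma coll_nonneg {A β : Type} [Fintype A] {Q : A → ℝ} (hQ : IsP Q) (R : A → β) : 0 ≤ coll Q R :=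
  sum_nonneg fun _ _ => mul_nonneg (hQ.nn _) (pr_nonneg hQ _ _)

lemma sum_ind {p : ℕ} [NeZero p] (V : Finset (ZMod p)) (r : ZMod p) :
    ∑ c : ZMod p, (if c + r ∈ V then (1 : ℝ) else 0) = V.card := by
  have := Equiv.sum_comp (Equiv.addRight r) fun c => if c ∈ V then (1 : ℝ) else 0
  exact Eq.trans this (by simp)

lemma second_moment {A : Type} [Fintype A] {Q : A → ℝ} (hQ : IsP Q) {p : ℕ} [NeZero p]
    (R : A → ZMod p) (V : Finset (ZMod p)) (M : ℕ) :
    ∑ a, piw Q M a * ∑ c : ZMod p, (∑ j, if c + R (a j) ∈ V then (1 : ℝ) else 0) ^ 2 ≤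
      M * V.card + M ^ 2 * (V.card ^ 2 * coll Q R) := by
  set u : ZMod p → A → ℝ := fun c o => if c + R o ∈ V then 1 else 0 with hu
  have h1 : ∑ c, ∑ o, Q o * u c o = V.card := by
    rw [sum_comm]
    simp only [← mul_sum, hu, sum_ind, ← sum_mul, hQ.one, one_mul]
  have h2 : ∑ c, (∑ o, Q o * u c o) ^ 2 ≤ V.card ^ 2 * coll Q R := by
    have a1 : ∀ c, ∑ o, Q o * u c o = ∑ v ∈ V, pr Q R (v - c) := fun c => by
      rw [sum_fiber Q R univ (fun _ => mem_univ _) fun r => if c + r ∈ V then 1 else 0,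
        ← (Equiv.subRight c).sum_comp]
      simp
    have a2 : coll Q R = ∑ r, pr Q R r ^ 2 := by
      rw [coll, sum_fiber Q R univ (fun _ => mem_univ _) fun r => pr Q R r]
      simp only [sq]
    calc _ ≤ ∑ c, (V.card : ℝ) * ∑ v ∈ V, pr Q R (v - c) ^ 2 :=
          sum_le_sum fun c _ => by rw [a1]; exact sq_sum_le_card_mul_sum_sq
      _ = V.card * ∑ v ∈ V, ∑ c, pr Q R (v - c) ^ 2 := by rw [← mul_sum, sum_comm]
      _ = V.card * ∑ v ∈ V, coll Q R := by
          congr 1
          refine sum_congr rfl fun v _ => ?_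
          rw [a2]
          exact (Equiv.subLeft v).sum_comp fun r => pr Q R r ^ 2
      _ = _ := by rw [sum_const, nsmul_eq_mul]; ring
  have h3 : ∀ c, ∀ j j' : Fin M, ∑ a, piw Q M a * (u c (a j) * u c (a j')) ≤
      (if j = j' then ∑ o, Q o * u c o else 0) + (∑ o, Q o * u c o) ^ 2 := by
    intro c j j'
    split_ifs with h
    · subst h
      have : ∀ o, u c o * u c o = u c o := fun o => by simp only [hu]; split_ifs <;> simp
      simp only [this]
      rw [sum_pi_one hQ j (u c)]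
      exact le_add_of_nonneg_right (sq_nonneg _)
    · rw [sum_pi_two hQ h, zero_add, sq]
  calc _ = ∑ c, ∑ j : Fin M, ∑ j' : Fin M, ∑ a, piw Q M a * (u c (a j) * u c (a j')) := by
        simp only [sq, sum_mul_sum]
        simp only [mul_sum]
        rw [sum_comm]
        refine sum_congr rfl fun c _ => ?_
        rw [sum_comm]
        refine sum_congr rfl fun j _ => ?_
        rw [sum_comm]
    _ ≤ ∑ c, ∑ j : Fin M, ∑ j' : Fin M,
          ((if j = j' then ∑ o, Q o * u c o else 0) + (∑ o, Q o * u c o) ^ 2) :=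
        sum_le_sum fun c _ => sum_le_sum fun j _ => sum_le_sum fun j' _ => h3 c j j'
    _ = M * ∑ c, ∑ o, Q o * u c o + M ^ 2 * ∑ c, (∑ o, Q o * u c o) ^ 2 := by
        simp only [sum_add_distrib, sum_ite_eq, mem_univ, if_true, sum_const, card_univ,
          Fintype.card_fin, nsmul_eq_mul, ← mul_sum]
        ring
    _ ≤ _ := by rw [h1]; gcongr

/-- probability that the sampled point has residue in `V` -/
noncomputable def Law.hit (μ : Law D) {L : ℕ} (Q : Pth → Fin L → ℝ) (p : ℕ)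
    (V : Finset (ZMod p)) : ℝ :=
  ∑ ω, μ.w ω * ∑ o, Q (μ.X ω) o * if lz p (μ.X ω o) ∈ V then 1 else 0

/-- mean collision probability modulo `p` -/
noncomputable def Law.coll (μ : Law D) {L : ℕ} (Q : Pth → Fin L → ℝ) (p : ℕ) : ℝ :=
  ∑ ω, μ.w ω * R2.coll (Q (μ.X ω)) fun o => lz p (μ.X ω o - μ.X ω 0)

lemma spread_prime (μ : Law D) {L : ℕ} (Q : Pth → Fin L → ℝ) (hQ : ∀ y, IsP (Q y)) {M : ℕ}
    {p : ℕ} (hp : 0 < p) (V : Finset (ZMod p)) (hV : p ≤ M * V.card) {s : ℝ} (hs : 0 ≤ s) :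
    Hc (Lib.FinEnt.ext μ.w fun ω => piw (Q (μ.X ω)) M) (fun q => lz p (μ.X q.1 0))
        (fun q j => μ.X q.1 (q.2 j) - μ.X q.1 0) ≤
      s * (p / V.card * μ.hit Q p V) + Real.log p - s + s ^ 2 / 2 * (1 + p * μ.coll Q p) := by
  have : NeZero p := ⟨hp.ne'⟩
  have hw := μ.hw.ext fun ω => piw_isP (hQ (μ.X ω)) M
  have hM : (0 : ℝ) < M := by
    exact_mod_cast Nat.pos_of_ne_zero (by rintro rfl; omega)
  have hV0 : (0 : ℝ) < V.card := by
    exact_mod_cast Nat.pos_of_ne_zero (by intro h; rw [h] at hV; omega)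
  have hp' : (0 : ℝ) < p := by exact_mod_cast hp
  set f : μ.Ω × (Fin M → Fin L) → ZMod p → ℝ := fun q c =>
    p / (M * V.card) * ∑ j, if c + lz p (μ.X q.1 (q.2 j) - μ.X q.1 0) ∈ V then 1 else 0 with hf
  have f0 : ∀ q c, 0 ≤ f q c := fun q c =>
    mul_nonneg (by positivity) (sum_nonneg fun _ _ => by split_ifs <;> norm_num)
  have f1 : ∀ q, ∑ c, f q c = p := fun q => by
    simp only [hf]
    rw [← mul_sum, sum_comm]
    simp only [sum_ind, sum_const, card_univ, Fintype.card_fin, nsmul_eq_mul]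
    field_simp
  have hZ : ∀ q, 0 < ∑ c, Real.exp (-(s * f q c)) := fun q =>
    sum_pos (fun _ _ => Real.exp_pos _) univ_nonempty
  have h1 := gibbs' hw (fun q => lz p (μ.X q.1 0)) (fun q j => μ.X q.1 (q.2 j) - μ.X q.1 0)
    (fun q c => Real.exp (-(s * f q c)) / ∑ c, Real.exp (-(s * f q c)))
    (fun q q' e => by
      have : f q = f q' := by
        funext c; simp only [hf]; congr 1
        refine sum_congr rfl fun j _ => ?_
        have e' := congrFun e j
        simp only at e'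
        rw [e']
      simp only [this])
    (fun q c => div_nonneg (Real.exp_pos _).le (hZ q).le)
    (fun q t => by
      rw [← sum_div, div_le_one (hZ q)]
      exact sum_le_sum_of_subset_of_nonneg (subset_univ _) fun _ _ _ => (Real.exp_pos _).le)
    (fun q _ => div_pos (Real.exp_pos _) (hZ q))
  refine h1.trans ?_
  have h2 : ∀ q, -Real.log (Real.exp (-(s * f q (lz p (μ.X q.1 0)))) /
      ∑ c, Real.exp (-(s * f q c))) ≤
      s * f q (lz p (μ.X q.1 0)) + (Real.log p - s) + s ^ 2 / 2 * ((∑ c, f q c ^ 2) / p) := by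
    intro q
    rw [Real.log_div (Real.exp_pos _).ne' (hZ q).ne', Real.log_exp]
    have := logZ_le (f q) (f0 q) (f1 q) hs
    linarith
  refine (sum_le_sum fun q _ => mul_le_mul_of_nonneg_left (h2 q) (hw.nn q)).trans ?_
  simp only [mul_add, sum_add_distrib]
  rw [← sum_mul, hw.one, one_mul]
  have h3 : ∑ q, Lib.FinEnt.ext μ.w (fun ω => piw (Q (μ.X ω)) M) q *
      (s * f q (lz p (μ.X q.1 0))) = s * (p / V.card * μ.hit Q p V) := by
    rw [sum_ext μ.w _ fun q => s * f q (lz p (μ.X q.1 0)), Law.hit, mul_sum, mul_sum]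
    refine sum_congr rfl fun ω _ => ?_
    simp only [hf, lz_sub, add_sub_cancel]
    have : ∀ j : Fin M, ∑ a, piw (Q (μ.X ω)) M a * (if lz p (μ.X ω (a j)) ∈ V then (1 : ℝ) else 0)
        = ∑ o, Q (μ.X ω) o * if lz p (μ.X ω o) ∈ V then 1 else 0 := fun j =>
      sum_pi_one (hQ _) j fun o => if lz p (μ.X ω o) ∈ V then 1 else 0
    have e : ∑ a : Fin M → Fin L, piw (Q (μ.X ω)) M a * (s * (p / (M * V.card) *
        ∑ j, if lz p (μ.X ω (a j)) ∈ V then (1 : ℝ) else 0)) = s * (p / (M * V.card)) *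
        ∑ j, ∑ a : Fin M → Fin L, piw (Q (μ.X ω)) M a *
          (if lz p (μ.X ω (a j)) ∈ V then (1 : ℝ) else 0) := by
      rw [sum_comm, mul_sum]
      refine sum_congr rfl fun a _ => ?_
      rw [← mul_sum]; ring
    rw [e]
    simp only [this, sum_const, card_univ, Fintype.card_fin, nsmul_eq_mul]
    field_simp
  have h4 : ∑ q, Lib.FinEnt.ext μ.w (fun ω => piw (Q (μ.X ω)) M) q *
      (s ^ 2 / 2 * ((∑ c, f q c ^ 2) / p)) ≤ s ^ 2 / 2 * (1 + p * μ.coll Q p) := by
    rw [sum_ext μ.w _ fun q => s ^ 2 / 2 * ((∑ c, f q c ^ 2) / p)]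
    have e : s ^ 2 / 2 * (1 + p * μ.coll Q p) = ∑ ω, μ.w ω * (s ^ 2 / 2 *
        (1 + p * R2.coll (Q (μ.X ω)) fun o => lz p (μ.X ω o - μ.X ω 0))) := by
      simp only [mul_add, sum_add_distrib, mul_one, ← sum_mul, μ.hw.one, one_mul, Law.coll,
        mul_sum]
      congr 1
      exact sum_congr rfl fun ω _ => by ring
    rw [e]
    refine sum_le_sum fun ω _ => mul_le_mul_of_nonneg_left ?_ (μ.hw.nn ω)
    have a1 := second_moment (hQ (μ.X ω)) (fun o => lz p (μ.X ω o - μ.X ω 0)) V M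
    have a2 : ∑ a, piw (Q (μ.X ω)) M a * (s ^ 2 / 2 * ((∑ c, f (ω, a) c ^ 2) / p)) =
        s ^ 2 / 2 * (p / (M * V.card) ^ 2 * ∑ a, piw (Q (μ.X ω)) M a * ∑ c : ZMod p,
          (∑ j, if c + lz p (μ.X ω (a j) - μ.X ω 0) ∈ V then (1 : ℝ) else 0) ^ 2) := by
      rw [mul_sum, mul_sum]
      refine sum_congr rfl fun a _ => ?_
      simp only [hf, mul_pow, ← mul_sum]
      field_simp
    rw [a2]
    refine mul_le_mul_of_nonneg_left ?_ (by positivity)
    refine (mul_le_mul_of_nonneg_left a1 (by positivity)).trans ?_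
    have a3 : (p : ℝ) ≤ M * V.card := by exact_mod_cast hV
    have a4 : (p : ℝ) / (M * V.card) ^ 2 * (M * V.card) ≤ 1 := by
      rw [div_mul_eq_mul_div, div_le_one (by positivity)]
      nlinarith [mul_pos hM hV0]
    rw [mul_add]
    refine add_le_add a4 (le_of_eq ?_)
    field_simp
  linarith

lemma dvd_norm {p : ℕ} (hp : p.Prime ∧ p % 4 = 1) {a : ℤ × ℤ} (h : lz p a = 0) :
    p ∣ (a.1 ^ 2 + a.2 ^ 2).natAbs := by
  rw [← Int.natCast_dvd]
  have h1 := lz_eq_zero.1 h
  have h2 := iota_spec hp.1 hp.2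
  have : a.1 ^ 2 + a.2 ^ 2 = lin p a * (a.1 - iota p * a.2) + (iota p ^ 2 + 1) * a.2 ^ 2 := by
    unfold lin; ring
  rw [this]
  exact dvd_add (h1.mul_right _) (h2.mul_right _)

lemma norm_bounds {r : ℕ} {a : ℤ × ℤ} (h0 : a ≠ 0) (ha : a ∈ box r) :
    0 < (a.1 ^ 2 + a.2 ^ 2).natAbs ∧ (a.1 ^ 2 + a.2 ^ 2).natAbs ≤ 2 * r ^ 2 := by
  rw [mem_box] at ha
  constructor
  · rw [Int.natAbs_pos]
    intro h
    exact h0 (Prod.ext (by simp only [Prod.fst_zero]; nlinarith) (by simp only [Prod.snd_zero]; nlinarith))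
  · have h1 : a.1 ^ 2 ≤ (r : ℤ) ^ 2 := by rw [← sq_abs]; gcongr; exact ha.1
    have h2 : a.2 ^ 2 ≤ (r : ℤ) ^ 2 := by rw [← sq_abs]; gcongr; exact ha.2
    zify
    rw [abs_of_nonneg (by positivity)]
    linarith

lemma sum_log_dvd {π : ℕ → ℕ} {K Z : ℕ} (hU : Univ π K Z) {r : ℕ} {a : ℤ × ℤ} (h0 : a ≠ 0)
    (ha : a ∈ box r) :
    ∑ i ∈ range K, (if lz (π i) a = 0 then Real.log (π i) else 0) ≤ Real.log (2 * r ^ 2 : ℕ) := by
  classical
  rw [← sum_image (g := π) (f := fun p => if lz p a = 0 then Real.log p else 0)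
    (fun i hi j hj e => hU.inj i (mem_range.1 hi) j (mem_range.1 hj) e), ← sum_filter]
  have hp : ∀ p ∈ ((range K).image π).filter fun p => lz p a = 0, p.Prime ∧ p % 4 = 1 := by
    intro p hp
    obtain ⟨i, hi, rfl⟩ := mem_image.1 (mem_filter.1 hp).1
    exact hU.prime i (mem_range.1 hi)
  rw [← log_prod_primes _ fun p h => (hp p h).1]
  have h1 := norm_bounds h0 ha
  refine Real.log_le_log (by exact_mod_cast prod_pos fun p h => (hp p h).1.pos) ?_
  exact_mod_cast (Nat.le_of_dvd h1.1 (prod_primes_dvd _ (fun p h => (hp p h).1.prime)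
    fun p h => dvd_norm (hp p h) (mem_filter.1 h).2)).trans h1.2

/-- Gallagher's larger sieve inequality -/
lemma gallagher (μ : Law D) {L : ℕ} (Q : Pth → Fin L → ℝ) (hQ : ∀ y, IsP (Q y)) {η : ℝ}
    (hη : ∀ y o, Q y o ≤ η) {π : ℕ → ℕ} {K Z : ℕ} (hU : Univ π K Z) :
    ∑ i ∈ range K, Real.log (π i) * μ.coll Q (π i) ≤
      η * (K * Real.log Z) + Real.log (2 * (D * L) ^ 2 : ℕ) := by
  classical
  unfold Law.coll
  simp only [mul_sum]
  rw [sum_comm]
  calc _ ≤ ∑ ω, μ.w ω * (η * (K * Real.log Z) + Real.log (2 * (D * L) ^ 2 : ℕ)) := by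
        refine sum_le_sum fun ω _ => ?_
        simp only [mul_left_comm _ (μ.w ω)]
        rw [← mul_sum]
        refine mul_le_mul_of_nonneg_left ?_ (μ.hw.nn ω)
        set y := μ.X ω
        have e1 : ∑ i ∈ range K, Real.log (π i) * coll (Q y) (fun o => lz (π i) (y o - y 0)) =
            ∑ o, Q y o * ∑ o', Q y o' * ∑ i ∈ range K,
              if lz (π i) (y o' - y o) = 0 then Real.log (π i) else 0 := by
          simp only [coll, pr, mul_sum]
          rw [sum_comm]
          refine sum_congr rfl fun o _ => ?_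
          rw [sum_comm]
          refine sum_congr rfl fun o' _ => sum_congr rfl fun i _ => ?_
          simp only [lz_sub, sub_left_inj, sub_eq_zero]
          split_ifs <;> ring
        rw [e1]
        calc _ ≤ ∑ o, Q y o * (η * (K * Real.log Z) + Real.log (2 * (D * L) ^ 2 : ℕ)) := by
              refine sum_le_sum fun o _ => mul_le_mul_of_nonneg_left ?_ ((hQ y).nn o)
              calc _ ≤ ∑ o', Q y o' * ((if o' = o then K * Real.log Z else 0) +
                      Real.log (2 * (D * L) ^ 2 : ℕ)) := by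
                    refine sum_le_sum fun o' _ => mul_le_mul_of_nonneg_left ?_ ((hQ y).nn o')
                    split_ifs with h
                    · subst h
                      simp only [sub_self, lz, lin, Prod.fst_zero, Prod.snd_zero, mul_zero,
                        add_zero, Int.cast_zero, if_true]
                      exact (theta_le hU).trans
                        (le_add_of_nonneg_right (Real.log_natCast_nonneg _))
                    · rw [zero_add]
                      refine sum_log_dvd hU (fun e => h (Fin.ext ((μ.path ω).inj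
                        (sub_eq_zero.1 e)))) ((μ.path ω).mem_box ?_ ?_)
                      · have := o'.2; omega
                      · have := o.2; omega
                _ ≤ _ := by
                    simp only [mul_add, sum_add_distrib, mul_ite, mul_zero, sum_ite_eq', mem_univ,
                      if_true, ← sum_mul, (hQ y).one, one_mul]
                    have : (0 : ℝ) ≤ K * Real.log Z := mul_nonneg (by positivity)
                      (Real.log_natCast_nonneg _)
                    gcongr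
                    exact hη y o
          _ = _ := by rw [← sum_mul, (hQ y).one, one_mul]
    _ = _ := by rw [← sum_mul, μ.hw.one, one_mul]

theorem spread (μ : Law D) {L : ℕ} (Q : Pth → Fin L → ℝ) (hQ : ∀ y, IsP (Q y)) {M : ℕ}
    {π : ℕ → ℕ} {n k Z : ℕ} (hU : Univ π (n * k) Z) (V : (p : ℕ) → Finset (ZMod p))
    (G : Finset ℕ) (hG : G ⊆ range (n * k)) (hV : ∀ i ∈ G, π i ≤ M * (V (π i)).card)
    {s : ℝ} (hs : 0 ≤ s) :
    s * G.card ≤ s * ∑ i ∈ G, π i / (V (π i)).card * μ.hit Q (π i) (V (π i)) +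
      s ^ 2 / 2 * ∑ i ∈ range (n * k), (1 + π i * μ.coll Q (π i)) +
      (μ.Def π k n + n * (M * Bc D L)) := by
  have hw := μ.hw.ext fun ω => piw_isP (hQ (μ.X ω)) M
  set w := Lib.FinEnt.ext μ.w fun ω => piw (Q (μ.X ω)) M with hwd
  set W : μ.Ω × (Fin M → Fin L) → Fin M → ℤ × ℤ := fun q j => μ.X q.1 (q.2 j) - μ.X q.1 0 with hW
  set h : ℕ → ℝ := fun p => Hc w (fun q => lz p (μ.X q.1 0)) W with hh
  have hpos : ∀ i ∈ range (n * k), 0 < π i := fun i hi => (hU.prime i (mem_range.1 hi)).1.pos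
  have h1 := sum_le_sum fun i (hi : i ∈ G) =>
    spread_prime μ Q hQ (hpos i (hG hi)) (V (π i)) (hV i hi) hs
  have h2 : ∀ i ∈ range (n * k), 0 ≤ Real.log (π i) - h (π i) := fun i hi => by
    have : NeZero (π i) := ⟨(hpos i hi).ne'⟩
    have a1 := Hc_le_H hw (fun q => lz (π i) (μ.X q.1 0)) W
    have a2 := H_le_log_card hw (fun q => lz (π i) (μ.X q.1 0)) univ fun _ => mem_univ _
    rw [card_univ, ZMod.card] at a2
    simp only [hh]; linarith
  have h3 : ∑ i ∈ G, (Real.log (π i) - h (π i)) ≤ ∑ i ∈ range (n * k), (Real.log (π i) - h (π i)) :=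
    sum_le_sum_of_subset_of_nonneg hG fun i hi _ => h2 i hi
  have h4 : H w W ≤ M * Bc D L := by
    have a1 := H_le_sum hw univ (fun j q => W q j) W fun q q' e => funext fun j => e j (mem_univ _)
    have a2 := sum_le_sum fun j (_ : j ∈ (univ : Finset (Fin M))) =>
      H_box hw D L (fun q => W q j) fun q =>
        (μ.path q.1).mem_box (by have := (q.2 j).2; omega) (by omega)
    simp only [sum_const, card_univ, Fintype.card_fin, nsmul_eq_mul] at a2
    linarith
  have h5 : ∀ a ∈ range n, μ.HY (node π k a) - M * Bc D L ≤ ∑ p ∈ node π k a, h p := by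
    intro a _
    have a1 := Hc_le_sum hw (node π k a) (fun p (q : μ.Ω × (Fin M → Fin L)) => res {p} (μ.X q.1 0)) W
      (fun q => res (node π k a) (μ.X q.1 0)) fun q q' e => res_eq_iff.2 fun p hp =>
        res_eq_iff.1 (e p hp) p (mem_singleton_self p)
    have a2 : ∀ p ∈ node π k a, Hc w (fun q : μ.Ω × (Fin M → Fin L) => res {p} (μ.X q.1 0)) W ≤
        h p := fun p _ => Hc_mono_left hw fun q q' e => res_eq_iff.2 fun p' hp' => by
      rw [mem_singleton.1 hp']; exact congrArg Prod.fst e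
    have a3 := sum_le_sum a2
    have a4 := H_sub_le_Hc hw (fun q : μ.Ω × (Fin M → Fin L) => res (node π k a) (μ.X q.1 0)) W
    have a5 : H w (fun q : μ.Ω × (Fin M → Fin L) => res (node π k a) (μ.X q.1 0)) =
        μ.HY (node π k a) :=
      (push_fst fun ω => piw_isP (hQ (μ.X ω)) M).H_eq fun ω => res (node π k a) (μ.X ω 0)
    linarith
  have h6 := sum_le_sum h5
  rw [sum_nodes hU, sum_sub_distrib, sum_const, card_range, nsmul_eq_mul] at h6
  have h7 : ∑ i ∈ G, (1 + π i * μ.coll Q (π i)) ≤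
      ∑ i ∈ range (n * k), (1 + π i * μ.coll Q (π i)) :=
    sum_le_sum_of_subset_of_nonneg hG fun i _ _ => add_nonneg zero_le_one
      (mul_nonneg (by positivity)
        (sum_nonneg fun ω _ => mul_nonneg (μ.hw.nn ω) (coll_nonneg (hQ _) _)))
  have h8 := mul_le_mul_of_nonneg_left h7 (by positivity : 0 ≤ s ^ 2 / 2)
  rw [sum_add_distrib, sum_sub_distrib, sum_add_distrib, ← mul_sum, ← mul_sum, sum_const,
    nsmul_eq_mul] at h1
  rw [sum_sub_distrib, sum_sub_distrib] at h3
  unfold Law.Def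
  simp only [hh] at h3 h6
  linarith

end Crest.Agent.R2
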