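import Crest.Agent.R2.Tree

/-! Choice of parameters for one stage, and the iteration. -/

set_option autoImplicit false

namespace Crest.Agent.R2

open Finset Crest.Agent.Lib.FinEnt

variable {D : ℕ}

lemma exists_pow_between {n t : ℕ} (hn : 1 ≤ n) (ht : n ≤ t) :
    ∃ h, t ≤ n * 2 ^ h ∧ n * 2 ^ h ≤ 2 * t := by
  have hex : ∃ h, t ≤ n * 2 ^ h := ⟨t, by
    have := Nat.lt_two_pow_self (n := t); nlinarith⟩
  refine ⟨Nat.find hex, Nat.find_spec hex, ?_⟩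
  rcases h : Nat.find hex with _ | h'
  · omega
  · have := Nat.find_min hex (m := h') (by omega)
    rw [pow_succ, ← mul_assoc]; omega

lemma exists_enum (S : Finset ℕ) :
    ∃ π : ℕ → ℕ, (∀ i < S.card, π i ∈ S) ∧ ∀ i < S.card, ∀ j < S.card, π i = π j → i = j := by
  refine ⟨fun i => if h : i < S.card then S.equivFin.symm ⟨i, h⟩ else 0, fun i hi => ?_,
    fun i hi j hj e => ?_⟩
  · simp only [dif_pos hi]; exact Subtype.property _
  · simp only [dif_pos hi, dif_pos hj] at e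
    have := S.equivFin.symm.injective (Subtype.ext e)
    exact congrArg Fin.val this

lemma exists_class (G : Finset ℕ) {T : ℕ} (hT : 1 ≤ T) :
    ∃ J ⊆ G, G.card ≤ T * J.card ∧ ∀ i ∈ J, ∀ h ∈ J, i < h → i + T ≤ h := by
  have h1 : G.card = ∑ r ∈ range T, (G.filter fun i => i % T = r).card :=
    card_eq_sum_card_fiberwise fun i _ => mem_coe.2 (mem_range.2 (Nat.mod_lt _ hT))
  obtain ⟨r, _, hr⟩ := exists_le_of_sum_le (s := range T) (f := fun _ => G.card)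
    (g := fun r => T * (G.filter fun i => i % T = r).card) ⟨0, mem_range.2 hT⟩ (by
      rw [← mul_sum, ← h1, sum_const, card_range, smul_eq_mul])
  refine ⟨_, filter_subset _ _, hr, fun i hi h hh e => ?_⟩
  have a1 := (mem_filter.1 hi).2
  have a2 := (mem_filter.1 hh).2
  have a3 : T ∣ h - i := (Nat.modEq_iff_dvd' e.le).1 (a1.trans a2.symm)
  have := Nat.le_of_dvd (by omega) a3
  omega

lemma sum_two_pow_lt (n : ℕ) : ∑ i ∈ range n, 2 ^ i ≤ 2 ^ n := by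
  induction n with
  | zero => simp
  | succ n ih => rw [sum_range_succ, pow_succ]; omega

lemma exists_s (W : ℕ) {p : ℕ → Prop} (hp : ∀ᶠ J in Filter.atTop, p J) :
    ∃ s, W ≤ s ∧ W * s ^ 4 ≤ 2 ^ s ∧ p (64 * s ^ 2) := by
  have h1 := (tendsto_pow_const_div_const_pow_of_one_lt 4 (by norm_num : (1 : ℝ) < 2)).const_mul (W : ℝ)
  rw [mul_zero] at h1
  have h2 := h1.eventually_le_const zero_lt_one
  have h3 : Filter.Tendsto (fun s : ℕ => 64 * s ^ 2) Filter.atTop Filter.atTop :=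
    Filter.tendsto_atTop_mono (fun s => by simp only [id]; nlinarith) Filter.tendsto_id
  obtain ⟨s, hs1, hs2, hs3⟩ := ((Filter.eventually_ge_atTop W).and (h2.and (h3.eventually hp))).exists
  refine ⟨s, hs1, ?_, hs3⟩
  rw [← mul_div_assoc, div_le_one (by positivity)] at hs2
  exact_mod_cast hs2

lemma Ent.mono {s : Smp} {P : Finset ℕ} {e e' : ℝ} (h : Ent D s P e) (he : e ≤ e') :
    Ent D s P e' := fun μ hμ => (h μ hμ).trans he

lemma log_two_pow (n : ℕ) : (n : ℝ) / 2 ≤ Real.log ((2 ^ n : ℕ) : ℝ) ∧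
    Real.log ((2 ^ n : ℕ) : ℝ) ≤ n := by
  push_cast
  rw [Real.log_pow]
  have h1 := Real.log_two_gt_d9
  have h2 := Real.log_two_lt_d9
  have h3 : (0 : ℝ) ≤ n := by positivity
  constructor <;> nlinarith

/-- shrinking for one block, with explicit parameters -/
lemma sh_num {c A C s κ j K : ℕ} (hG : GeoC D c) (hA : 1 ≤ A) (hC : 1 ≤ C) (hs : 1 ≤ s)
    (hZ : 1 ≤ 2 ^ (A * (64 * s ^ 2))) (hc : c ≤ 2 ^ (A * (64 * s ^ 2)))
    (hD : 600 * D + 1 ≤ 2 ^ (A * (64 * s ^ 2))) (hW : 28000 * 4096 * A ^ 2 * C * s ^ 4 ≤ 2 ^ s)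
    (hκ : 2 ^ κ ≤ 2 * (C * (64 * s ^ 2))) (hκb : κ ≤ 16 * s ^ 2) (hj : 64 * s ^ 2 ≤ j)
    (hj' : j < A * (64 * s ^ 2)) (hK : K * 2 ^ κ = 2 ^ j) {π : ℕ → ℕ}
    (hU : Univ π K (2 ^ (A * (64 * s ^ 2)))) (hπ : ∀ i < K, 2 ^ j ≤ π i ∧ π i < 2 ^ (j + 1))
    (t : Smp) (ht0 : 0 < t.n) (ht1 : t.span ≤ 2 ^ (17 * s ^ 2))
    (ht2 : D * t.span ≤ 2 ^ (17 * s ^ 2)) :
    Sh D π K (2 ^ (4 * s ^ 2)) (step _ hZ (2 ^ s) s (2 ^ (8 * s ^ 2)) t) (t.n / 2 ^ (j + 1)) := by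
  have hs2 : 1 ≤ s ^ 2 := Nat.one_le_pow _ _ hs
  have hK1 : K = 2 ^ (j - κ - 8 * s ^ 2) * 2 ^ (8 * s ^ 2) := by
    refine Nat.eq_of_mul_eq_mul_right (Nat.pow_pos (by norm_num) : 0 < 2 ^ κ) ?_
    rw [hK, ← pow_add, ← pow_add]; congr 1; omega
  have hKZ : K ≤ 2 ^ (A * (64 * s ^ 2)) := by
    calc K ≤ K * 2 ^ κ := Nat.le_mul_of_pos_right _ (Nat.pow_pos (by norm_num))
      _ ≤ _ := by rw [hK]; exact Nat.pow_le_pow_right (by norm_num) hj'.le
  have hK0 : 1 ≤ K := by rw [hK1]; exact Nat.mul_pos (Nat.pow_pos (by norm_num)) (Nat.pow_pos (by norm_num))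
  have hA' : (1 : ℝ) ≤ A := by exact_mod_cast hA
  have hC' : (1 : ℝ) ≤ C := by exact_mod_cast hC
  have hs' : (1 : ℝ) ≤ (s : ℝ) ^ 2 := by exact_mod_cast hs2
  have hl := (log_two_pow (A * (64 * s ^ 2))).2
  have hl0 : (0 : ℝ) ≤ Real.log ((2 ^ (A * (64 * s ^ 2)) : ℕ) : ℝ) := Real.log_natCast_nonneg _
  set L := Real.log ((2 ^ (A * (64 * s ^ 2)) : ℕ) : ℝ) with hL
  push_cast at hl
  have hACs : (64 : ℝ) ≤ A * C * (64 * s ^ 2) := by
    have : (1 : ℝ) ≤ A * C := one_le_mul_of_one_le_of_one_le hA' hC'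
    nlinarith
  subst hK1
  refine sh_block hG hZ hc hD (Nat.pow_pos (by norm_num)) hU hK0 ?_ t ht0 ?_ (fun i hi => ?_)
    (q := 1 / (200 * (A * C * (64 * s ^ 2)))) (R := 2 ^ (j + 2) / (64 * s ^ 2)) (by positivity)
    (by positivity) (fun i hi => ?_) ?_ ?_ (by positivity) fun i hi => ?_
  · rw [← pow_mul]; exact pow_dvd_pow _ (by nlinarith [Nat.sub_add_cancel (show κ ≤ j by omega), Nat.sub_add_cancel (show 8 * s ^ 2 ≤ j - κ by omega)])
  · rw [sq (2 ^ _)]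
    refine Nat.mul_le_mul (ht1.trans (Nat.pow_le_pow_right (by norm_num) ?_)) hKZ
    nlinarith
  · calc 2 * (D * t.span) ^ 2 ≤ 2 * (2 ^ (17 * s ^ 2)) ^ 2 := by gcongr
      _ = 2 ^ (34 * s ^ 2 + 1) := by rw [← pow_mul, pow_succ]; ring
      _ < 2 ^ j := Nat.pow_lt_pow_right (by norm_num) (by omega)
      _ ≤ _ := (hπ i hi).1
  · have a1 : (π i : ℝ) ≤ 2 ^ (j + 1) := by exact_mod_cast (hπ i hi).2.le
    have a2 := (log_two_pow j).1
    have a3 : Real.log ((2 ^ j : ℕ) : ℝ) ≤ Real.log (π i) :=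
      Real.log_le_log (by positivity) (by exact_mod_cast (hπ i hi).1)
    have a4 : (64 * s ^ 2 : ℝ) ≤ j := by exact_mod_cast hj
    calc (π i : ℝ) ≤ 2 ^ (j + 1) := a1
      _ = 2 ^ (j + 2) / (64 * s ^ 2) * (64 * s ^ 2 / 2) := by field_simp; ring
      _ ≤ _ := by gcongr; linarith
  · set K := 2 ^ (j - κ - 8 * s ^ 2) * 2 ^ (8 * s ^ 2)
    have a1 : (2 : ℝ) ^ j ≤ K * (2 * (C * (64 * s ^ 2))) := by
      have : 2 ^ j ≤ K * (2 * (C * (64 * s ^ 2))) := by rw [← hK]; gcongr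
      exact_mod_cast this
    have a2 : 2 ^ (j + 2) / (64 * s ^ 2) * L ≤ 8 * (A * C * (64 * s ^ 2)) * K := by
      calc _ ≤ 2 ^ (j + 2) / (64 * (s : ℝ) ^ 2) * (A * (64 * s ^ 2)) := by gcongr
        _ = 4 * A * 2 ^ j := by field_simp; ring
        _ ≤ 4 * A * (K * (2 * (C * (64 * s ^ 2)))) := by gcongr
        _ = _ := by ring
    have a3 : (0 : ℝ) ≤ K := by positivity
    rw [div_mul_eq_mul_div, one_mul, div_le_iff₀ (by positivity)]
    nlinarith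
  · have a1 : (2 : ℝ) ^ s ≤ 2 ^ (4 * s ^ 2) := pow_le_pow_right₀ (by norm_num) (by nlinarith)
    have a2 : (2 : ℝ) ^ s ≤ 2 ^ (8 * s ^ 2) := pow_le_pow_right₀ (by norm_num) (by nlinarith)
    have a3 : (1 : ℝ) / 2 ^ (8 * s ^ 2) ≤ 1 / 2 ^ s := by gcongr
    have a4 : (10 : ℝ) * 2 ^ (4 * s ^ 2) / 2 ^ (8 * s ^ 2) ≤ 10 / 2 ^ s := by
      rw [show 8 * s ^ 2 = 4 * s ^ 2 + 4 * s ^ 2 by ring, pow_add,
        mul_div_mul_right _ _ (by positivity)]
      gcongr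
    have a5 : (28000 * 4096 * A ^ 2 * C * s ^ 4 : ℝ) ≤ 2 ^ s := by exact_mod_cast hW
    rw [← hL]
    push_cast
    calc _ ≤ (A * (64 * s ^ 2)) * (35 / 2 ^ s : ℝ) := by
          refine mul_le_mul hl ?_ (by positivity) (by positivity)
          have : (35 : ℝ) / 2 ^ s = 1 / 2 ^ s + 23 / 2 ^ s + 1 / 2 ^ s + 10 / 2 ^ s := by ring
          linarith
      _ ≤ _ := by
          rw [← mul_div_assoc, div_div, div_le_div_iff₀ (by positivity) (by positivity)]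
          nlinarith
  · have a1 : (π i : ℝ) ≤ 2 ^ (j + 1) := by exact_mod_cast (hπ i hi).2.le
    rw [div_mul_eq_mul_div, div_le_iff₀ (by positivity)]
    gcongr

lemma gamma_num {L K N S T x g G A U k s : ℝ} (_hL0 : 0 ≤ L) (hL : L ≤ A * (64 * s))
    (hK : 0 ≤ K) (hN : 0 < N) (hk : 0 < k) (hKN : K = N * k) (hU : 49152 * A ≤ U) (hA : 1 ≤ A)
    (hT : 45056 * A * N ≤ T) (hS : S * T ≤ 2 * K) (hS0 : 0 ≤ S) (hx : N * (L + x) ≤ s * K / 16)
    (hg : s ≤ g) (hs : 0 ≤ s) (hG : N * G = g * K / 8) :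
    K * L * (1 / U + 23 / U + 1 / k) + N * (11 * L * S + x + G) ≤ g * K / 4 := by
  have hU0 : 0 < U := by linarith
  have hT0 : 0 < T := lt_of_lt_of_le (by positivity) hT
  have a1 : K * L * (1 / U + 23 / U) ≤ s * K / 32 := by
    have : L * (1 / U + 23 / U) ≤ s / 32 := by
      rw [← add_div, ← mul_div_assoc, div_le_div_iff₀ hU0 (by norm_num)]
      nlinarith
    nlinarith
  have a2 : K * L * (1 / k) = N * L := by rw [hKN]; field_simp
  have a3 : N * (11 * L * S) ≤ s * K / 32 := by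
    refine le_of_mul_le_mul_right ?_ hT0
    calc N * (11 * L * S) * T = 11 * N * L * (S * T) := by ring
      _ ≤ 11 * N * (A * (64 * s)) * (2 * K) := by gcongr
      _ = s * K / 32 * (45056 * A * N) := by ring
      _ ≤ _ := by gcongr
  have a4 : s * K ≤ g * K := by gcongr
  nlinarith

lemma final_num {L A C T N g s x y z S J e B : ℝ} (hl0 : 0 ≤ L) (hl : L ≤ A * (64 * s))
    (hA : 1 ≤ A) (hC : 1 ≤ C) (hT : 1 ≤ T) (hN : 1 ≤ N) (hs : 1 ≤ s) (hg : s ≤ g) (hx : 0 < x)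
    (hy : 0 < y) (hz : 0 < z) (a2 : S ≤ z * y) (a3 : 64 * s ≤ C * (T * J))
    (a4 : C * (64 * s) ≤ x) (a5 : x ≤ 2 * (C * (64 * s)))
    (a6 : 32 * (10 * A + 1) * (C ^ 2 * T * N) ≤ s) (a7 : B ≤ x * y) :
    10 * L * S + z * (B + e * (2 * g * (x * y)) - J * (g * y / (8 * N))) ≤
      (e - 1 / (64 * C ^ 2 * T * N)) * (z * (2 * g * (x * y))) := by
  have hg0 : 0 < g := by linarith
  have c1 : L * y ≤ A * (x * y) := by
    rw [← mul_assoc]
    refine mul_le_mul_of_nonneg_right (hl.trans ?_) (by positivity)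
    gcongr
    nlinarith
  have c2 : 2 * (1 / (64 * C ^ 2 * T * N) * (2 * g * (x * y))) ≤ J * (g * y / (8 * N)) := by
    calc _ ≤ 2 * (1 / (64 * C ^ 2 * T * N) * (2 * g * (2 * (C * (C * (T * J))) * y))) := by
          gcongr
          refine a5.trans ?_
          gcongr
      _ = _ := by field_simp; ring
  have c3 : (10 * A + 1) * (x * y) ≤ 1 / (64 * C ^ 2 * T * N) * (2 * g * (x * y) : ℝ) := by
    rw [← mul_assoc (1 / _)]
    refine mul_le_mul_of_nonneg_right ?_ (by positivity)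
    rw [div_mul_eq_mul_div, le_div_iff₀ (by positivity)]
    nlinarith
  have c4 := mul_le_mul_of_nonneg_left a2 hl0
  have c6 : 10 * (A * (x * y)) + (B + e * (2 * g * (x * y)) - J * (g * y / (8 * N))) ≤
      (e - 1 / (64 * C ^ 2 * T * N)) * (2 * g * (x * y)) := by linarith
  have c7 := mul_le_mul_of_nonneg_left c6 hz.le
  have c8 := mul_le_mul_of_nonneg_left c1 hz.le
  linarith

set_option maxHeartbeats 2000000 in
theorem stage {c : ℕ} (hG : GeoC D c) (hPr : PrimeStmt) : ∃ δ : ℝ, 0 < δ ∧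
    ∀ (s0 : Smp) (P0 : Finset ℕ) (e : ℝ), (∀ p ∈ P0, p.Prime ∧ p % 4 = 1) → 0 < s0.n →
      Ent D s0 P0 (e * s0.n) → ∃ (s1 : Smp) (P1 : Finset ℕ), (∀ p ∈ P1, p.Prime ∧ p % 4 = 1) ∧
        0 < s1.n ∧ Ent D s1 P1 ((e - δ) * s1.n) := by
  classical
  obtain ⟨A, C, hA, hC, hJ⟩ := hPr
  obtain ⟨u, hu⟩ : ∃ u, u = 49152 * A := ⟨_, rfl⟩
  obtain ⟨N, hN⟩ : ∃ N, N = (2 ^ u) ^ u := ⟨_, rfl⟩
  obtain ⟨T, hT⟩ : ∃ T, T = 45056 * A * N := ⟨_, rfl⟩
  have hN1 : 1 ≤ N := by rw [hN]; exact Nat.pow_pos (Nat.pow_pos (by norm_num))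
  have hT1 : 1 ≤ T := by rw [hT]; exact Nat.mul_pos (by omega) hN1
  have hA' : (1 : ℝ) ≤ A := by exact_mod_cast hA
  have hC' : (1 : ℝ) ≤ C := by exact_mod_cast hC
  have hN' : (1 : ℝ) ≤ N := by exact_mod_cast hN1
  have hT' : (1 : ℝ) ≤ T := by exact_mod_cast hT1
  refine ⟨1 / (64 * C ^ 2 * T * N), by positivity, fun s0 P0 e hP0 hn0 hE => ?_⟩
  obtain ⟨θ, hθ⟩ := exists_nat_ge (∑ p ∈ P0, Real.log p)
  obtain ⟨s, hWs, hW4, hJs⟩ := exists_s (28000 * 4096 * A ^ 2 * C + 4 * s0.span * (D + 1) +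
    1056 * A * N + 32 * (10 * A + 1) * (C ^ 2 * T * N) + θ + s0.n + c + (600 * D + 1) + u) hJ
  have hs : 1 ≤ s := by omega
  have hs2 : s ≤ s ^ 2 := by nlinarith
  have hs4 : s ^ 2 ≤ s ^ 4 := Nat.pow_le_pow_right hs (by norm_num)
  have hAC : A ≤ A ^ 2 * C ∧ C ≤ A ^ 2 * C := by
    have : 1 ≤ A * C := Nat.mul_pos hA hC
    have : 1 ≤ A ^ 2 := Nat.pow_pos hA
    constructor <;> nlinarith
  have w1 : 28000 * 4096 * A ^ 2 * C * s ^ 4 ≤ 2 ^ s :=
    le_trans (Nat.mul_le_mul_right _ (by omega)) hW4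
  have w2 : 4 * s0.span * (D + 1) * s ^ 2 ≤ 2 ^ s :=
    le_trans (Nat.mul_le_mul (by omega) hs4) hW4
  have p1 : 2 ^ s ≤ 2 ^ s ^ 2 := Nat.pow_le_pow_right (by norm_num) hs2
  have hsZ : s ≤ 2 ^ (A * (64 * s ^ 2)) :=
    le_trans (by nlinarith) (Nat.lt_two_pow_self (n := A * (64 * s ^ 2))).le
  have hZ : 1 ≤ 2 ^ (A * (64 * s ^ 2)) := hs.trans hsZ
  have hc : c ≤ 2 ^ (A * (64 * s ^ 2)) := le_trans (by omega) hsZ
  have hD : 600 * D + 1 ≤ 2 ^ (A * (64 * s ^ 2)) := le_trans (by omega) hsZ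
  obtain ⟨κ, hκ1, hκ2⟩ := exists_pow_between (n := 1) (t := C * (64 * s ^ 2)) le_rfl
    (Nat.mul_pos hC (by omega))
  rw [one_mul] at hκ1 hκ2
  have hκb : κ ≤ 16 * s ^ 2 := by
    have : 2 ^ κ ≤ 2 ^ s := by
      refine hκ2.trans (le_trans ?_ w1)
      calc 2 * (C * (64 * s ^ 2)) = 128 * C * s ^ 2 := by ring
        _ ≤ 28000 * 4096 * (A ^ 2 * C) * s ^ 4 := by gcongr <;> omega
        _ = _ := by ring
    have := (Nat.pow_le_pow_iff_right (by norm_num)).1 this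
    omega
  obtain ⟨b, hb⟩ := Nat.exists_eq_add_of_le hκb
  obtain ⟨h0, hh1, hh2⟩ := exists_pow_between (n := s0.n) (t := 2 * s ^ 2) hn0 (by omega)
  set t := s0.pow2 (h0 + 16 * s ^ 2) with ht
  have htn : t.n = s0.n * 2 ^ h0 * 2 ^ (16 * s ^ 2) := by rw [ht, pow2_n]; ring
  have hts : (D + 1) * t.span ≤ 2 ^ (17 * s ^ 2) := by
    rw [ht, pow2_span]
    have a1 : 2 ^ h0 ≤ 4 * s ^ 2 := by nlinarith
    calc _ = 2 ^ h0 * s0.span * (D + 1) * 2 ^ (16 * s ^ 2) := by ring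
      _ ≤ 4 * s ^ 2 * s0.span * (D + 1) * 2 ^ (16 * s ^ 2) := by gcongr
      _ ≤ 2 ^ s ^ 2 * 2 ^ (16 * s ^ 2) := by
          refine Nat.mul_le_mul_right _ (le_trans (le_of_eq (by ring)) (w2.trans p1))
      _ = _ := by ring
  have ht0 : 0 < t.n := by rw [htn]; positivity
  have ht1 : t.span ≤ 2 ^ (17 * s ^ 2) := by nlinarith
  have ht2 : D * t.span ≤ 2 ^ (17 * s ^ 2) := by nlinarith
  have hAs : 64 * s ^ 2 ≤ A * (64 * s ^ 2) := Nat.le_mul_of_pos_left _ hA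
  obtain ⟨H, hH⟩ := Nat.exists_eq_add_of_le' (show 16 * s ^ 2 ≤ A * (64 * s ^ 2) by omega)
  set G := (Ico (64 * s ^ 2) (A * (64 * s ^ 2))).filter
    fun j => 2 ^ j ≤ C * (64 * s ^ 2) * blockCount j with hGd
  obtain ⟨J', hJ'G, hJ'c, hJ's⟩ := exists_class G hT1
  set J := J'.image (· - 16 * s ^ 2) with hJd
  have hJ1 : ∀ h ∈ J, h + 16 * s ^ 2 ∈ J' := fun h hh => by
    obtain ⟨j, hj, rfl⟩ := mem_image.1 hh
    have := (mem_Ico.1 (mem_filter.1 (hJ'G hj)).1).1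
    rwa [Nat.sub_add_cancel (by omega)]
  have hJc : J.card = J'.card := card_image_of_injOn fun i hi j hj e => by
    have := (mem_Ico.1 (mem_filter.1 (hJ'G hi)).1).1
    have := (mem_Ico.1 (mem_filter.1 (hJ'G hj)).1).1
    have e' : i - 16 * s ^ 2 = j - 16 * s ^ 2 := e
    omega
  have hJ2 : ∀ h ∈ J, 48 * s ^ 2 ≤ h ∧ h < H ∧
      2 ^ (h + b) ≤ blockCount (h + 16 * s ^ 2) := fun h hh => by
    have a1 := mem_filter.1 (hJ'G (hJ1 h hh))
    have a2 := mem_Ico.1 a1.1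
    refine ⟨by omega, by omega, Nat.le_of_mul_le_mul_left (c := 2 ^ κ) ?_ (by positivity)⟩
    rw [← pow_add, show κ + (h + b) = h + 16 * s ^ 2 by omega]
    exact a1.2.trans (Nat.mul_le_mul_right _ hκ1)
  choose π hπ1 hπ2 using fun h => exists_enum
    ((Ico (2 ^ (h + 16 * s ^ 2)) (2 ^ (h + 16 * s ^ 2 + 1))).filter fun p => p.Prime ∧ p % 4 = 1)
  have hus : u * u ≤ s ^ 2 := by rw [sq]; exact Nat.mul_le_mul (by omega) (by omega)
  set k : ℕ → ℕ := fun h => 2 ^ (h + b - u * u) with hk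
  have hK : ∀ h ∈ J, (2 ^ u) ^ u * k h = 2 ^ (h + b) := fun h hh => by
    simp only [hk]
    rw [← pow_mul, ← pow_add]
    have := (hJ2 h hh).1
    congr 1; omega
  have hπ : ∀ h ∈ J, ∀ i < 2 ^ (h + b), 2 ^ (h + 16 * s ^ 2) ≤ π h i ∧
      π h i < 2 ^ (h + 16 * s ^ 2 + 1) := fun h hh i hi =>
    mem_Ico.1 (mem_filter.1 (hπ1 h i (hi.trans_le (hJ2 h hh).2.2))).1
  have hU : ∀ h ∈ J, Univ (π h) (2 ^ (h + b)) (2 ^ (A * (64 * s ^ 2))) := fun h hh =>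
    ⟨fun i hi j hj => hπ2 h i (hi.trans_le (hJ2 h hh).2.2) j (hj.trans_le (hJ2 h hh).2.2),
      fun i hi => (mem_filter.1 (hπ1 h i (hi.trans_le (hJ2 h hh).2.2))).2,
      fun i hi => (hπ h hh i hi).2.le.trans (Nat.pow_le_pow_right (by norm_num) (by
        have := (hJ2 h hh).2.1; omega))⟩
  set s1 := step _ hZ (2 ^ s) s (2 ^ (8 * s ^ 2)) t with hs1
  have hs1n : s1.n = t.n := step_n _ _ _ _ _ _
  have hl := (log_two_pow (A * (64 * s ^ 2))).2
  have hl0 : (0 : ℝ) ≤ Real.log ((2 ^ (A * (64 * s ^ 2)) : ℕ) : ℝ) := Real.log_natCast_nonneg _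
  set L := Real.log ((2 ^ (A * (64 * s ^ 2)) : ℕ) : ℝ) with hL
  rw [Nat.cast_mul, Nat.cast_mul, Nat.cast_pow, Nat.cast_ofNat] at hl
  have hs' : (1 : ℝ) ≤ (s : ℝ) ^ 2 := by exact_mod_cast hs.trans hs2
  have hm2 : 2 ≤ 2 ^ s := Nat.le_self_pow (by omega) 2
  have hB : (10 * ((2 ^ (8 * s ^ 2) : ℕ) : ℝ) * ((2 ^ s : ℕ) : ℝ) ^ s + 10) * L + 2 * L ≤
      2 ^ (10 * s ^ 2) := by
    have a1 : 22 * 64 * A * s ^ 2 ≤ 2 ^ s ^ 2 := by
      refine le_trans ?_ (w1.trans p1)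
      calc 22 * 64 * A * s ^ 2 ≤ 28000 * 4096 * (A ^ 2 * C) * s ^ 4 := by gcongr <;> omega
        _ = _ := by ring
    have a2 : (22 * 64 * A * s ^ 2 : ℝ) ≤ 2 ^ s ^ 2 := by exact_mod_cast a1
    have a3 : (1 : ℝ) ≤ 2 ^ (9 * s ^ 2) := one_le_pow₀ (by norm_num)
    push_cast
    rw [← pow_mul, mul_assoc 10, ← pow_add, show 8 * s ^ 2 + s * s = 9 * s ^ 2 by ring,
      show 10 * s ^ 2 = 9 * s ^ 2 + s ^ 2 by ring, pow_add]
    calc _ ≤ 22 * 2 ^ (9 * s ^ 2) * L := by nlinarith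
      _ ≤ 22 * 2 ^ (9 * s ^ 2) * (A * (64 * s ^ 2)) := by gcongr
      _ = 2 ^ (9 * s ^ 2) * (22 * 64 * A * s ^ 2) := by ring
      _ ≤ _ := by gcongr
  have hE1 : Ent D s1 P0 (2 ^ (10 * s ^ 2) + e * t.n) := by
    refine (step_ent hZ hD hm2 s (k := 2 ^ (8 * s ^ 2)) (Nat.pow_pos (by norm_num))
      (hE.pow2 (h0 + 16 * s ^ 2))).mono ?_
    rw [ht, pow2_n, ← hL]; push_cast at hB ⊢
    linarith
  set g : ℝ := s0.n * 2 ^ h0 / 2 with hg
  have hg1 : (s : ℝ) ^ 2 ≤ g := by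
    have : (2 * s ^ 2 : ℝ) ≤ s0.n * 2 ^ h0 := by exact_mod_cast hh1
    linarith
  have hg2 : g ≤ 2 * s ^ 2 := by
    have : (s0.n * 2 ^ h0 : ℝ) ≤ 2 * (2 * s ^ 2) := by exact_mod_cast hh2
    linarith
  have htn' : (t.n : ℝ) = 2 * g * 2 ^ (16 * s ^ 2) := by rw [htn, hg]; push_cast; ring
  have hH' : (H : ℝ) ≤ A * (64 * s ^ 2) := by exact_mod_cast (by omega : H ≤ A * (64 * s ^ 2))
  obtain ⟨s', P, hP, hn', hE'⟩ := stage_abs hG hZ hc hD s1 P0 hP0 hE1 H J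
    (fun h hh => (hJ2 h hh).2.1) (m := 2 ^ u) (r := u) (M := 2 ^ (4 * s ^ 2))
    (Nat.le_self_pow (by omega) 2) (Nat.pow_pos (by norm_num)) π k
    (fun h => Nat.pow_pos (by norm_num)) (fun h hh => by rw [hK h hh]; exact hU h hh)
    (g := g) (B := 2 ^ (10 * s ^ 2)) (γ := g * 2 ^ b / (8 * N))
    (by have := (log_two_pow (4 * s ^ 2)).1; push_cast at this ⊢; linarith)
    (fun h hh => by
      rw [hK h hh]
      have a1 := hJ2 h hh
      have := (sh_num hG hA hC hs hZ hc hD w1 hκ2 hκb (j := h + 16 * s ^ 2) (by omega) (by omega)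
        (by rw [← pow_add]; congr 1; omega) (hU h hh) (hπ h hh) t ht0 ht1 ht2).pow2
        (by positivity) h
      convert this using 1
      rw [htn']; field_simp; ring)
    (fun h hh => by
      rw [pow2_span]
      have a1 := Bc_mul D (2 ^ h) s1.span (Nat.pow_pos (by norm_num))
      have a2 := step_span hZ hD hm2 s (k := 2 ^ (8 * s ^ 2)) (Nat.pow_pos (by norm_num)) t
        (ht1.trans ((Nat.pow_le_pow_right (by norm_num) (by omega)).trans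
          (Nat.le_self_pow (by norm_num) _)))
      have a3 : Real.log ((2 ^ h : ℕ) : ℝ) ≤ L := Real.log_le_log (by positivity)
        (by exact_mod_cast Nat.pow_le_pow_right (by norm_num) (by omega))
      linarith)
    (by positivity)
    (fun h hh => by
      have a1 := hJ2 h hh
      have a2 : ∑ i ∈ J.filter (· < h), (((2 ^ u) ^ u * k i : ℕ) : ℝ) =
          ((∑ i ∈ J.filter (· < h), 2 ^ (i + b) : ℕ) : ℝ) := by
        rw [Nat.cast_sum]
        exact sum_congr rfl fun i hi => by rw [hK i (mem_filter.1 hi).1]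
      have a3 : (∑ i ∈ J.filter (· < h), 2 ^ (i + b)) * T ≤ 2 * 2 ^ (h + b) := by
        rcases (J.filter (· < h)).eq_empty_or_nonempty with he | ⟨i0, hi0⟩
        · rw [he]; simp
        have b0 := hJ's _ (hJ1 i0 (mem_filter.1 hi0).1) _ (hJ1 h hh)
          (by have := (mem_filter.1 hi0).2; omega)
        have b1 : ∑ i ∈ J.filter (· < h), 2 ^ (i + b) ≤ ∑ i ∈ range (h + 1 - T), 2 ^ (i + b) :=
          sum_le_sum_of_subset fun i hi => mem_range.2 (by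
            have := hJ's _ (hJ1 i (mem_filter.1 hi).1) _ (hJ1 h hh)
              (by have := (mem_filter.1 hi).2; omega)
            omega)
        simp only [pow_add, ← sum_mul] at b1 ⊢
        have b2 := sum_two_pow_lt (h + 1 - T)
        have b3 : T ≤ 2 ^ T := Nat.lt_two_pow_self.le
        calc _ ≤ 2 ^ (h + 1 - T) * 2 ^ b * 2 ^ T :=
              Nat.mul_le_mul (b1.trans (Nat.mul_le_mul_right _ b2)) b3
          _ = 2 ^ (h + 1 - T + T) * 2 ^ b := by ring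
          _ = _ := by rw [Nat.sub_add_cancel (by omega)]; ring
      generalize (∑ i ∈ J.filter (· < h), 2 ^ (i + b)) = Sg at a2 a3
      have a3' : (Sg : ℝ) * T ≤ 2 * ((2 ^ (h + b) : ℕ) : ℝ) := by exact_mod_cast a3
      have a4 : (((2 ^ u : ℕ) : ℝ)) ^ u = N := by rw [hN]; push_cast; ring
      have a5 : (((2 ^ (h + b) : ℕ) : ℝ)) = N * k h := by
        rw [← hK h hh, hN]; push_cast; ring
      rw [a2, hK h hh, a4, show ((2 : ℝ) ^ u) = ((2 ^ u : ℕ) : ℝ) by push_cast; ring,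
        add_assoc (11 * _ * _)]
      refine gamma_num (A := A) (T := T) (s := s ^ 2) hl0 hl (by positivity) (by positivity)
        (by simp only [hk]; positivity) a5 ?_ hA' (by rw [hT]; push_cast; exact le_rfl)
        a3' (by positivity) ?_ hg1 (by positivity) ?_
      · have : 49152 * A ≤ 2 ^ u := by rw [← hu]; exact Nat.lt_two_pow_self.le
        exact_mod_cast this
      · have b1 : (θ : ℝ) ≤ 2 ^ (10 * s ^ 2) := by
          have : θ ≤ 2 ^ (10 * s ^ 2) := le_trans (by omega) (Nat.lt_two_pow_self).le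
          exact_mod_cast this
        have b2 : L ≤ 2 ^ (10 * s ^ 2) := by
          have : 0 ≤ (10 * ((2 ^ (8 * s ^ 2) : ℕ) : ℝ) * ((2 ^ s : ℕ) : ℝ) ^ s + 10) * L := by
            positivity
          linarith
        have b3 : 1056 * A * N * 2 ^ (10 * s ^ 2) ≤ 2 ^ (h + b) := by
          calc _ ≤ 2 ^ (38 * s ^ 2) * 2 ^ (10 * s ^ 2) :=
                Nat.mul_le_mul_right _ (le_trans (by omega) (Nat.lt_two_pow_self).le)
            _ ≤ _ := by rw [← pow_add]; exact Nat.pow_le_pow_right (by norm_num) (by omega)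
        have b4 : (1056 * A * N * 2 ^ (10 * s ^ 2) : ℝ) ≤ (2 ^ (h + b) : ℕ) := by exact_mod_cast b3
        have b5 : (1 : ℝ) ≤ A * s ^ 2 := one_le_mul_of_one_le_of_one_le hA' hs'
        have b6 : (0 : ℝ) < 2 ^ (10 * s ^ 2) := by positivity
        calc _ ≤ N * (66 * (A * s ^ 2) * 2 ^ (10 * s ^ 2) : ℝ) := by
              refine mul_le_mul_of_nonneg_left ?_ (by positivity)
              have := mul_le_mul_of_nonneg_right hH' b6.le
              nlinarith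
          _ = s ^ 2 * (1056 * A * N * 2 ^ (10 * s ^ 2)) / 16 := by ring
          _ ≤ _ := by gcongr
      · push_cast; field_simp; ring)
  refine ⟨s', P, hP, by rw [hn', hs1n]; positivity, hE'.mono ?_⟩
  have a2 : ∑ i ∈ J, (((2 ^ u) ^ u * k i : ℕ) : ℝ) ≤ 2 ^ H * 2 ^ b := by
    have b1 : ∑ i ∈ J, (2 ^ u) ^ u * k i ≤ 2 ^ H * 2 ^ b := by
      rw [sum_congr rfl hK]
      calc _ ≤ ∑ i ∈ range H, 2 ^ (i + b) :=
            sum_le_sum_of_subset fun i hi => mem_range.2 (hJ2 i hi).2.1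
        _ ≤ _ := by
            simp only [pow_add, ← sum_mul]
            exact Nat.mul_le_mul_right _ (sum_two_pow_lt H)
    exact_mod_cast b1
  have a3 : (64 * s ^ 2 : ℝ) ≤ C * (T * J.card) := by
    have : 64 * s ^ 2 ≤ C * (T * J.card) := by
      rw [hJc]; exact hJs.trans (Nat.mul_le_mul_left _ hJ'c)
    exact_mod_cast this
  have a4 : (C * (64 * s ^ 2) : ℝ) ≤ 2 ^ κ := by exact_mod_cast hκ1
  have a5 : (2 : ℝ) ^ κ ≤ 2 * (C * (64 * s ^ 2)) := by exact_mod_cast hκ2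
  have a6 : (32 * (10 * A + 1) * (C ^ 2 * T * N) : ℝ) ≤ s ^ 2 := by
    have : 32 * (10 * A + 1) * (C ^ 2 * T * N) ≤ s ^ 2 := by omega
    exact_mod_cast this
  have a7 : (2 : ℝ) ^ (10 * s ^ 2) ≤ 2 ^ κ * 2 ^ b := by
    rw [← pow_add]; exact pow_le_pow_right₀ (by norm_num) (by omega)
  rw [hn', hs1n, Nat.cast_mul, htn', hb, pow_add, ← hL]
  push_cast at a2 ⊢
  exact final_num hl0 hl hA' hC' hT' hN' hs' hg1 (by positivity) (by positivity) (by positivity)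
    a2 a3 a4 a5 a6 a7

theorem core {c : ℕ} (hG : GeoC D c) (hPr : PrimeStmt) : Core D := by
  obtain ⟨δ, hδ, h⟩ := stage hG hPr
  have key : ∀ n : ℕ, ∃ (s : Smp) (P : Finset ℕ), (∀ p ∈ P, p.Prime ∧ p % 4 = 1) ∧ 0 < s.n ∧
      Ent D s P ((Bc D 1 - n * δ) * s.n) := by
    intro n
    induction n with
    | zero => exact ⟨Smp.unit, ∅, by simp, Nat.one_pos, by simpa using ent_unit⟩
    | succ n ih =>
      obtain ⟨s, P, h1, h2, h3⟩ := ih
      obtain ⟨s', P', h4, h5, h6⟩ := h s P _ h1 h2 h3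
      refine ⟨s', P', h4, h5, h6.mono (le_of_eq ?_)⟩
      push_cast; ring
  obtain ⟨n, hn⟩ := exists_nat_gt (Bc D 1 / δ)
  obtain ⟨s, P, h1, h2, h3⟩ := key n
  refine core_of_ent h3 (mul_neg_of_neg_of_pos ?_ (by exact_mod_cast h2)) h1
  rw [div_lt_iff₀ hδ] at hn
  linarith

end Crest.Agent.R2
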