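import Crest.Agent.R2.Shrink

/-! Abstract assembly of one stage. -/

set_option autoImplicit false

namespace Crest.Agent.R2

open Finset Crest.Agent.Lib.FinEnt

variable {D : ℕ}

lemma Bc_sq {Z l : ℕ} (hD : 600 * D + 1 ≤ Z) (hl : l ≤ Z ^ 2) :
    Bc D (Z ^ 2 + l) ≤ 10 * Real.log Z := by
  have h1 := Bc_win (k := 1) hD le_rfl
  have h2 : Z ^ 2 + l ≤ win (Z ^ 1) := by
    unfold win
    have : Z ^ 2 ≤ (Z ^ 1) ^ 4 := by
      rw [← pow_mul]; exact Nat.pow_le_pow_right (by omega) (by norm_num)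
    omega
  have := Bc_mono D h2
  push_cast at h1
  linarith

lemma log_le_Bc (D L : ℕ) : Real.log (2 * (D * L) ^ 2 : ℕ) ≤ Bc D L := by
  rcases Nat.eq_zero_or_pos (D * L) with h | h
  · rw [h]; simpa using Bc_nonneg D L
  unfold Bc
  have h1 : (0 : ℝ) < D * L := by exact_mod_cast h
  have h2 : 2 * Real.log (2 * D * L + 1) = Real.log ((2 * D * L + 1) ^ 2) := by
    rw [Real.log_pow]; norm_num
  rw [h2]
  refine Real.log_le_log (by push_cast; positivity) ?_
  push_cast; nlinarith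

/-- the basic step: equidistribute, jump uniformly, take the short sample -/
@[reducible] noncomputable def step (Z : ℕ) (hZ : 1 ≤ Z) (m r k : ℕ) (t : Smp) : Smp :=
  (EK Z hZ m r k).seq ((unif (Z ^ 2) (Nat.pow_pos hZ)).seq t)

lemma step_n (Z : ℕ) (hZ : 1 ≤ Z) (m r k : ℕ) (t : Smp) : (step Z hZ m r k t).n = t.n := by
  change (EK Z hZ m r k).n + (0 + t.n) = _
  rw [EK_n]; omega

lemma step_span {Z : ℕ} (hZ : 1 ≤ Z) (hD : 600 * D + 1 ≤ Z) {m : ℕ} (hm : 2 ≤ m) (r : ℕ) {k : ℕ}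
    (hk : 1 ≤ k) (t : Smp) (ht : t.span ≤ Z ^ 2) :
    Bc D (step Z hZ m r k t).span ≤ (10 * k * (m : ℝ) ^ r + 10) * Real.log Z := by
  change Bc D ((EK Z hZ m r k).span + (Z ^ 2 + t.span)) ≤ _
  have h1 := EK_span hZ hD hm r k hk
  have h2 := Bc_sq hD ht
  have h3 := Bc_add D (EK Z hZ m r k).span (Z ^ 2 + t.span)
  have h4 : 0 ≤ (k : ℝ) * Real.log Z := mul_nonneg (by positivity) (Real.log_natCast_nonneg Z)
  nlinarith

lemma step_ent {Z : ℕ} (hZ : 1 ≤ Z) (hD : 600 * D + 1 ≤ Z) {m : ℕ} (hm : 2 ≤ m) (r : ℕ) {k : ℕ}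
    (hk : 1 ≤ k) {t : Smp} {P : Finset ℕ} {e : ℝ} (ht : Ent D t P e) :
    Ent D (step Z hZ m r k t) P ((10 * k * (m : ℝ) ^ r + 10) * Real.log Z + e) := by
  intro μ hμ
  have h0 := (ent_ker (EK Z hZ m r k) P (EK_n _ _ _ _ _)).seq
    ((ent_ker (unif (Z ^ 2) (Nat.pow_pos hZ)) P rfl).seq ht) μ hμ
  have h1 := EK_span hZ hD hm r k hk
  have h2 : Bc D (Z ^ 2) ≤ 10 * Real.log Z := by simpa using Bc_sq (l := 0) hD (Nat.zero_le _)
  have h4 : 0 ≤ (k : ℝ) * Real.log Z := mul_nonneg (by positivity) (Real.log_natCast_nonneg Z)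
  refine h0.trans ?_
  change Bc D (EK Z hZ m r k).span + (Bc D (Z ^ 2) + e) ≤ _
  nlinarith

lemma sh_block {c : ℕ} (hG : GeoC D c) {Z : ℕ} (hZ : 1 ≤ Z) (hc : c ≤ Z) (hD : 600 * D + 1 ≤ Z)
    {m r k n M : ℕ} (hm : 1 ≤ m) {π : ℕ → ℕ} (hU : Univ π (n * k) Z) (hK : 1 ≤ n * k)
    (hd : m ^ r ∣ n) (t : Smp) (ht0 : 0 < t.n) (hη : t.span * (n * k) ≤ Z ^ 2)
    (hdist : ∀ i < n * k, 2 * (D * t.span) ^ 2 < π i) {q R g : ℝ} (hq : 0 < q) (hR0 : 0 ≤ R)
    (hR : ∀ i < n * k, (π i : ℝ) ≤ R * Real.log (π i))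
    (h1 : q * ((n * k : ℕ) + 11 * R * Real.log Z) ≤ (n * k : ℕ) / 2)
    (h2 : Real.log Z * (1 / 2 ^ r + 23 / m + 1 / k + 10 * M / k) ≤ q / 4)
    (hg : 0 ≤ g) (hg' : ∀ i < n * k, g * π i ≤ t.n) :
    Sh D π (n * k) M (step Z hZ m r k t) g := by
  have hZ2 : 0 < Z ^ 2 := Nat.pow_pos hZ
  set t' := (unif (Z ^ 2) hZ2).seq t with ht'
  have hn' : t'.n = t.n := zero_add _
  refine sh_base hU _ (EK_n _ _ _ _ _) t' (by omega) (tight_unif _ _ t) hdist hg
    (by rwa [hn']) fun μ V => ?_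
  set ν := μ.ext (EK Z hZ m r k)
  have hQ := inten_isP t' (by omega)
  have a1 := spread ν t'.inten hQ (M := M) hU V (Gd π (n * k) M V) (filter_subset _ _)
    (fun i hi => (mem_filter.1 hi).2) hq.le
  have a2 := gallagher ν t'.inten hQ (inten_unif _ hZ2 t ht0) hU
  have a3 := EK_def hG hZ hc hD hm hU hK r k n μ rfl hd
  have hl : (0 : ℝ) ≤ Real.log Z := Real.log_natCast_nonneg Z
  have hsp : t.span ≤ Z ^ 2 := le_trans (Nat.le_mul_of_pos_right _ hK) hη
  have a4 : Bc D t'.span ≤ 10 * Real.log Z := Bc_sq hD hsp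
  have a5 := log_le_Bc D t'.span
  have a6 : (t.span : ℝ) / (Z ^ 2 : ℕ) * ((n * k : ℕ) * Real.log Z) ≤ Real.log Z := by
    rw [← mul_assoc]
    refine mul_le_of_le_one_left hl ?_
    rw [div_mul_eq_mul_div, div_le_one (by exact_mod_cast hZ2)]
    exact_mod_cast hη
  have a7 : ∑ i ∈ range (n * k), (1 + π i * ν.coll t'.inten (π i)) ≤
      (n * k : ℕ) + 11 * R * Real.log Z := by
    rw [sum_add_distrib, sum_const, card_range, nsmul_eq_mul, mul_one]
    have b1 : ∑ i ∈ range (n * k), π i * ν.coll t'.inten (π i) ≤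
        R * ∑ i ∈ range (n * k), Real.log (π i) * ν.coll t'.inten (π i) := by
      rw [mul_sum]
      refine sum_le_sum fun i hi => ?_
      rw [← mul_assoc]
      exact mul_le_mul_of_nonneg_right (hR i (mem_range.1 hi))
        (sum_nonneg fun ω _ => mul_nonneg (ν.hw.nn ω) (coll_nonneg (hQ _) _))
    have b2 := mul_le_mul_of_nonneg_left (a2.trans (add_le_add a6 (a5.trans a4))) hR0
    linarith
  have hk : (0 : ℝ) < k := by exact_mod_cast Nat.pos_of_ne_zero (by rintro rfl; omega)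
  have a8 : ν.Def π k n + n * (M * Bc D t'.span) ≤ (n * k : ℕ) * (q / 4) := by
    have b1 : (n : ℝ) * (M * Bc D t'.span) ≤ n * (M * (10 * Real.log Z)) := by gcongr
    have b2 : (n : ℝ) * (M * (10 * Real.log Z)) = (n * k : ℕ) * Real.log Z * (10 * M / k) := by
      push_cast; field_simp
    have b3 := mul_le_mul_of_nonneg_left h2 (Nat.cast_nonneg (α := ℝ) (n * k))
    nlinarith
  have a9 : q ^ 2 / 2 * ∑ i ∈ range (n * k), (1 + π i * ν.coll t'.inten (π i)) ≤
      q / 2 * ((n * k : ℕ) / 2) := by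
    have b1 := mul_le_mul_of_nonneg_left a7 (by positivity : 0 ≤ q ^ 2 / 2)
    have b2 := mul_le_mul_of_nonneg_left h1 (by positivity : 0 ≤ q / 2)
    nlinarith
  refine le_of_mul_le_mul_left ?_ hq
  linarith

/-- apply the kernels `κ (H-1), …, κ 0` in this order -/
def down (κ : ℕ → Smp) : ℕ → Smp
  | 0 => Smp.null
  | H + 1 => (κ H).seq (down κ H)

lemma down_n (κ : ℕ → Smp) (hκ : ∀ h, (κ h).n = 0) (H : ℕ) : (down κ H).n = 0 := by
  induction H with
  | zero => rfl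
  | succ H ih => change (κ H).n + (down κ H).n = 0; rw [ih, hκ]

lemma down_span (κ : ℕ → Smp) (H : ℕ) :
    Bc D (down κ H).span ≤ ∑ h ∈ range H, Bc D (κ h).span := by
  induction H with
  | zero => change Bc D 0 ≤ _; simp [Bc_zero]
  | succ H ih =>
    change Bc D ((κ H).span + (down κ H).span) ≤ _
    have := Bc_add D (κ H).span (down κ H).span
    rw [sum_range_succ]; linarith

lemma down_def (κ : ℕ → Smp) {π : ℕ → ℕ} {k n h : ℕ} {d : ℝ}
    (hd : ∀ μ : Law D, (μ.ext (κ h)).Def π k n ≤ d) (H : ℕ) (hH : h < H) :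
    ∀ μ : Law D, (μ.ext (down κ H)).Def π k n ≤ d + n * Bc D (down κ h).span := by
  induction H with
  | zero => omega
  | succ H ih =>
    intro μ
    change (μ.ext ((κ H).seq (down κ H))).Def π k n ≤ _
    rw [Def_seq]
    rcases (Nat.lt_succ_iff.1 hH).eq_or_lt with rfl | h1
    · exact (Def_shift _ _ _ _ _).trans (add_le_add (hd μ) le_rfl)
    · exact ih h1 _

/-- telescoping along the doubling tree -/
lemma tree (s : Smp) (P : ℕ → Finset ℕ) (Good : ℕ → Law D → Prop) (H : ℕ) (E : ℝ) (γ : ℕ → ℝ)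
    (g1 : ∀ n μ, Good n μ → Good (n + 1) μ)
    (g2 : ∀ n μ, ∀ h < H, Good n μ → Good (n + 1) (μ.ext (s.pow2 h)))
    (base : ∀ n μ, Good n μ → μ.F s (P 0) ≤ E)
    (gn : ∀ h < H, ∀ n ≤ H, ∀ μ, Good n μ →
      μ.F (s.pow2 h) (P (h + 1)) ≤ μ.F (s.pow2 h) (P h) - 2 ^ h * γ h) :
    ∀ h n μ, n + h ≤ H → Good n μ →
      μ.F (s.pow2 h) (P h) ≤ 2 ^ h * (E - ∑ i ∈ range h, γ i) := by
  intro h
  induction h with
  | zero => intro n μ _ hμ; simpa [Smp.pow2] using base n μ hμ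
  | succ h ih =>
    intro n μ hn hμ
    have a1 := F_seq μ (s.pow2 h) (s.pow2 h) (P (h + 1))
    have b1 := g1 n μ hμ
    have b2 := g2 n μ h (by omega) hμ
    have a2 := gn h (by omega) (n + 1) (by omega) _ b1
    have a3 := gn h (by omega) (n + 1) (by omega) _ b2
    have a4 := ih (n + 1) _ (by omega) b1
    have a5 := ih (n + 1) _ (by omega) b2
    rw [sum_range_succ, pow_succ]
    change μ.F ((s.pow2 h).seq (s.pow2 h)) _ ≤ _
    linarith

/-- the abstract stage -/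
theorem stage_abs {c : ℕ} (hG : GeoC D c) {Z : ℕ} (hZ : 1 ≤ Z) (hc : c ≤ Z)
    (hD : 600 * D + 1 ≤ Z) (s : Smp) (P0 : Finset ℕ) (hP0 : ∀ p ∈ P0, p.Prime ∧ p % 4 = 1) {E : ℝ}
    (hE : Ent D s P0 E) (H : ℕ) (J : Finset ℕ) (hJ : ∀ h ∈ J, h < H) {m r M : ℕ} (hm : 2 ≤ m)
    (hM : 1 ≤ M) (π : ℕ → ℕ → ℕ) (k : ℕ → ℕ) (hk : ∀ h, 1 ≤ k h)
    (hU : ∀ h ∈ J, Univ (π h) (m ^ r * k h) Z) {g B γ : ℝ} (hg : g ≤ Real.log M)
    (hSh : ∀ h ∈ J, Sh D (π h) (m ^ r * k h) M (s.pow2 h) g)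
    (hB : ∀ h < H, Bc D (s.pow2 h).span ≤ B) (hB0 : 0 ≤ B)
    (hγ : ∀ h ∈ J, (m ^ r * k h : ℕ) * Real.log Z * (1 / 2 ^ r + 23 / m + 1 / k h) +
      m ^ r * (11 * Real.log Z * ∑ i ∈ J.filter (· < h), ((m ^ r * k i : ℕ) : ℝ) +
        H * B + ∑ p ∈ P0, Real.log p + 2 ^ h * γ) ≤ g * (m ^ r * k h : ℕ) / 4) :
    ∃ (s' : Smp) (P : Finset ℕ), (∀ p ∈ P, p.Prime ∧ p % 4 = 1) ∧ s'.n = 2 ^ H * s.n ∧
      Ent D s' P (10 * Real.log Z * ∑ i ∈ J, ((m ^ r * k i : ℕ) : ℝ) +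
        2 ^ H * (E - J.card * γ)) := by
  classical
  have hl : (0 : ℝ) ≤ Real.log Z := Real.log_natCast_nonneg Z
  set κ : ℕ → Smp := fun h => if h ∈ J then EK Z hZ m r (k h) else Smp.null with hκ
  have hκn : ∀ h, (κ h).n = 0 := fun h => by
    simp only [hκ]; split_ifs; exacts [EK_n _ _ _ _ _, rfl]
  have hκs : ∀ h, Bc D (down κ h).span ≤
      10 * Real.log Z * ∑ i ∈ J.filter (· < h), ((m ^ r * k i : ℕ) : ℝ) := by
    intro h
    refine (down_span κ h).trans ?_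
    have : J.filter (· < h) = (range h).filter (· ∈ J) := by ext i; simp [and_comm]
    rw [this, sum_filter, mul_sum]
    refine sum_le_sum fun i _ => ?_
    simp only [hκ]
    split_ifs
    · have := EK_span hZ hD hm r (k i) (hk i)
      have h4 : 0 ≤ (k i : ℝ) * Real.log Z := by positivity
      push_cast; nlinarith
    · change Bc D 0 ≤ _; simp [Bc_zero]
  set P : ℕ → Finset ℕ := fun h =>
    P0 ∪ (J.filter (· < h)).biUnion fun i => (range (m ^ r * k i)).image (π i) with hP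
  have hPp : ∀ h, ∀ p ∈ P h, p.Prime ∧ p % 4 = 1 := by
    intro h p hp
    rcases mem_union.1 hp with h1 | h1
    · exact hP0 p h1
    · obtain ⟨i, hi, h2⟩ := mem_biUnion.1 h1
      obtain ⟨j, hj, rfl⟩ := mem_image.1 h2
      exact (hU i (mem_filter.1 hi).1).prime j (mem_range.1 hj)
  have hPm : ∀ h h', h ≤ h' → P h ⊆ P h' := fun h h' e =>
    union_subset_union subset_rfl (biUnion_subset_biUnion_of_subset_left _ fun i hi =>
      mem_filter.2 ⟨(mem_filter.1 hi).1, lt_of_lt_of_le (mem_filter.1 hi).2 e⟩)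
  have hPθ : ∀ h, ∑ p ∈ P h, Real.log p ≤ ∑ p ∈ P0, Real.log p +
      Real.log Z * ∑ i ∈ J.filter (· < h), ((m ^ r * k i : ℕ) : ℝ) := by
    intro h
    have a1 : ∑ p ∈ (J.filter (· < h)).biUnion fun i => (range (m ^ r * k i)).image (π i),
        Real.log p ≤ Real.log Z * ∑ i ∈ J.filter (· < h), ((m ^ r * k i : ℕ) : ℝ) := by
      refine (sum_le_card_nsmul _ _ (Real.log Z) fun p hp => ?_).trans ?_
      · obtain ⟨i, hi, h2⟩ := mem_biUnion.1 hp
        obtain ⟨j, hj, rfl⟩ := mem_image.1 h2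
        have := hU i (mem_filter.1 hi).1
        exact Real.log_le_log (by exact_mod_cast (this.prime j (mem_range.1 hj)).1.pos)
          (by exact_mod_cast this.le j (mem_range.1 hj))
      · rw [nsmul_eq_mul, mul_comm]
        refine mul_le_mul_of_nonneg_left ?_ hl
        exact_mod_cast card_biUnion_le.trans (sum_le_sum fun i _ =>
          card_image_le.trans (card_range _).le)
    have a2 := sum_union_inter (s₁ := P0) (s₂ := (J.filter (· < h)).biUnion fun i =>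
      (range (m ^ r * k i)).image (π i)) (f := fun p : ℕ => Real.log p)
    have a3 : 0 ≤ ∑ p ∈ P0 ∩ (J.filter (· < h)).biUnion fun i =>
        (range (m ^ r * k i)).image (π i), Real.log p :=
      sum_nonneg fun p _ => Real.log_natCast_nonneg p
    simp only [hP]
    linarith
  set d : ℕ → ℝ := fun h => (m ^ r * k h : ℕ) * Real.log Z * (1 / 2 ^ r + 23 / m + 1 / k h) +
    (m ^ r : ℕ) * (10 * Real.log Z * ∑ i ∈ J.filter (· < h), ((m ^ r * k i : ℕ) : ℝ)) with hd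
  set Good : ℕ → Law D → Prop := fun n μ => μ.Av (P H) ∧
    ∀ h ∈ J, μ.Def (π h) (k h) (m ^ r) ≤ d h + n * ((m ^ r : ℕ) * B) with hGood
  have hmr : 0 < m ^ r := Nat.pow_pos (by omega)
  have hmr' : (0 : ℝ) < (m ^ r : ℕ) := by exact_mod_cast hmr
  have hT := tree s P Good H E (fun h => if h ∈ J then γ else 0)
    (fun n μ hμ => ⟨hμ.1, fun h hh => (hμ.2 h hh).trans (by
      push_cast
      have : 0 ≤ (m : ℝ) ^ r * B := by positivity
      linarith)⟩)
    (fun n μ h hh hμ => ⟨hμ.1.ext _, fun h' hh' => by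
      have a1 := Def_shift μ (s.pow2 h) (π h') (k h') (m ^ r)
      have a2 := hμ.2 h' hh'
      have a3 := mul_le_mul_of_nonneg_left (hB h hh) hmr'.le
      push_cast at a1 a2 a3 ⊢
      linarith⟩)
    (fun n μ hμ => by
      have : P 0 = P0 := by simp [hP]
      rw [this]
      exact hE μ (hμ.1.mono subset_union_left))
    (fun h hh n hn μ hμ => by
      split_ifs with hj
      · have hin : ∀ i < m ^ r * k h, π h i ∈ P (h + 1) := fun i hi =>
          mem_union_right _ (mem_biUnion.2 ⟨h, mem_filter.2 ⟨hj, by omega⟩,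
            mem_image_of_mem _ (mem_range.2 hi)⟩)
        have a1 := gain μ (hU h hj) (hSh h hj) hM hg
          (fun ω t i hi => hμ.1 ω t _ (hPm _ _ (by omega) (hin i hi))) (P h) (P (h + 1))
          (fun p hp => (hPp h p hp).1.pos) (hPm _ _ (by omega)) hin
        have a2 := hμ.2 h hj
        have a3 := hγ h hj
        have a4 := mul_le_mul_of_nonneg_left (hPθ h) hmr'.le
        have a5 : (n : ℝ) * ((m ^ r : ℕ) * B) ≤ H * ((m ^ r : ℕ) * B) := by gcongr
        refine le_of_mul_le_mul_left ?_ hmr'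
        simp only [hd] at a2
        rw [← Nat.cast_pow] at a3
        linarith
      · have : P (h + 1) = P h := by
          simp only [hP]
          congr 2
          ext i
          simp only [mem_filter, and_congr_right_iff]
          intro hi
          have : i ≠ h := fun e => hj (e ▸ hi)
          omega
        rw [this]; simp)
  refine ⟨(down κ H).seq (s.pow2 H), P H, hPp H, ?_, fun μ hμ => ?_⟩
  · change (down κ H).n + (s.pow2 H).n = _
    rw [down_n κ hκn, pow2_n, zero_add]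
  have a1 := F_seq μ (down κ H) (s.pow2 H) (P H)
  have a2 := F_ker0 μ (down κ H) (P H) (down_n κ hκn H)
  have a3 := hκs H
  have a4 : J.filter (· < H) = J := filter_true_of_mem hJ
  have a5 := hT H 0 (μ.ext (down κ H)) (by omega) ⟨hμ.ext _, fun h hh => by
    have b1 := down_def κ (π := π h) (k := k h) (n := m ^ r) (h := h) (fun μ => by
      simp only [hκ, if_pos hh]
      exact EK_def hG hZ hc hD (by omega) (hU h hh) (Nat.mul_pos hmr (hk h)) r (k h) (m ^ r) μ rfl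
        dvd_rfl) H (hJ h hh) μ
    have b2 := mul_le_mul_of_nonneg_left (hκs h) hmr'.le
    simp only [hd]
    push_cast at b1 b2 ⊢
    linarith⟩
  have a6 : ∑ i ∈ range H, (if i ∈ J then γ else 0) = J.card * γ := by
    rw [← sum_filter, filter_mem_eq_inter, inter_eq_right.2 fun i hi => mem_range.2 (hJ i hi),
      sum_const, nsmul_eq_mul]
  rw [a4] at a3
  rw [a6] at a5
  linarith

end Crest.Agent.R2
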